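import Vale.Agent.P188.MathlibUsed
import Vale.Agent.P188.Defs

set_option linter.all false

section

section

section

section

section

/-!
Coarse maps between groups, in terms of finite sets, and poly-`ℤ` groups (auxiliary notions).
-/

universe u v w

namespace Vale.Agent.P188

/-- `F` is bornologous: it maps pairs at bounded distance to pairs at bounded distance. -/
def Coarse {H : Type u} {G : Type v} [Group H] [Group G] (F : H → G) : Prop :=
  ∀ A : Set H, A.Finite → ∃ B : Set G, B.Finite ∧ ∀ x y : H, x⁻¹ * y ∈ A → (F x)⁻¹ * F y ∈ B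

/-- `f` is at bounded distance from the identity. -/
def CloseId {H : Type u} [Group H] (f : H → H) : Prop :=
  ∃ E : Set H, E.Finite ∧ ∀ x : H, x⁻¹ * f x ∈ E

/-- Coarse equivalence of groups. -/
def CoarseEquiv (H : Type u) (G : Type v) [Group H] [Group G] : Prop :=
  ∃ (F : H → G) (F' : G → H), Coarse F ∧ Coarse F' ∧ CloseId (F' ∘ F) ∧ CloseId (F ∘ F')

/-- Poly-`ℤ` groups of length `n`. -/
def PolyZ : ℕ → ∀ (G : Type u) [Group G], Prop
  | 0, G, _ => Subsingleton G
  | n + 1, G, _ => ∃ φ : G →* Multiplicative ℤ, Function.Surjective φ ∧ PolyZ n φ.ker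

end Vale.Agent.P188
end
end
end
end
end

section

section

section

section

section

/-!
Chains on lists: the augmented all tuples complex of a set, as finitely supported
functions on lists, with boundary, cone, push-forward and prism operators.
-/

universe u v w

namespace Vale.Agent.P188

open Finsupp

variable {X : Type u} {Y : Type v} {Z : Type w}

/-- Chains: integer combinations of lists. -/
abbrev Ch (X : Type u) := List X →₀ ℤ

/-- Prepend a vertex. -/
noncomputable def cns (x : X) : Ch X →ₗ[ℤ] Ch X := Finsupp.lmapDomain ℤ ℤ (List.cons x)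

@[simp] lemma cns_single (x : X) (l : List X) (a : ℤ) :
    cns x (single l a) = single (x :: l) a := by
  simp only [cns, lmapDomain_apply, mapDomain_single]

/-- The boundary of a list. -/
noncomputable def dl : List X → Ch X
  | [] => 0
  | x :: t => single t 1 - cns x (dl t)

/-- The boundary operator. -/
noncomputable def bd : Ch X →ₗ[ℤ] Ch X := Finsupp.linearCombination ℤ dl

@[simp] lemma bd_single (l : List X) (a : ℤ) : bd (single l a) = a • dl l := by
  simp only [bd, linearCombination_single]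

@[simp] lemma dl_nil : dl ([] : List X) = 0 := rfl

lemma dl_cons (x : X) (t : List X) : dl (x :: t) = single t 1 - cns x (dl t) := rfl

/-- Two linear maps on chains agree if they agree on lists. -/
lemma lin_ext {M : Type*} [AddCommGroup M] {f g : Ch X →ₗ[ℤ] M}
    (h : ∀ l, f (single l 1) = g (single l 1)) : f = g := by
  apply Finsupp.lhom_ext'
  intro l
  apply LinearMap.ext_ring
  simpa only [LinearMap.coe_comp, Function.comp_apply, lsingle_apply] using h l

lemma bd_cns (x : X) (u : Ch X) : bd (cns x u) = u - cns x (bd u) := by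
  have : (bd ∘ₗ cns x : Ch X →ₗ[ℤ] Ch X) = LinearMap.id - cns x ∘ₗ bd := by
    apply lin_ext
    intro l
    simp only [LinearMap.coe_comp, Function.comp_apply, cns_single, bd_single, dl_cons, one_smul, LinearMap.sub_apply, LinearMap.id_coe, id_eq]
  have := LinearMap.congr_fun this u
  simpa only [LinearMap.coe_comp, Function.comp_apply, LinearMap.sub_apply, LinearMap.id_coe, id_eq] using this

lemma bd_dl (l : List X) : bd (dl l) = 0 := by
  induction l with
  | nil => simp
  | cons x t ih => rw [dl_cons, map_sub, bd_cns, ih]; simp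

@[simp] lemma bd_bd (u : Ch X) : bd (bd u) = 0 := by
  have : (bd ∘ₗ bd : Ch X →ₗ[ℤ] Ch X) = 0 := by
    apply lin_ext
    intro l
    simp [bd_dl]
  exact LinearMap.congr_fun this u

/-- Push-forward of chains. -/
noncomputable def pf (f : X → Y) : Ch X →ₗ[ℤ] Ch Y := Finsupp.lmapDomain ℤ ℤ (List.map f)

@[simp] lemma pf_single (f : X → Y) (l : List X) (a : ℤ) :
    pf f (single l a) = single (l.map f) a := by
  simp [pf, Finsupp.lmapDomain_apply, Finsupp.mapDomain_single]

lemma pf_cns (f : X → Y) (x : X) (u : Ch X) : pf f (cns x u) = cns (f x) (pf f u) := by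
  have : (pf f ∘ₗ cns x : Ch X →ₗ[ℤ] Ch Y) = cns (f x) ∘ₗ pf f := by
    apply lin_ext
    intro l
    simp
  exact LinearMap.congr_fun this u

lemma pf_dl (f : X → Y) (l : List X) : pf f (dl l) = dl (l.map f) := by
  induction l with
  | nil => simp
  | cons x t ih => rw [dl_cons, map_sub, pf_cns, ih]; simp only [pf_single, List.map_cons, dl_cons]

lemma bd_pf (f : X → Y) (u : Ch X) : bd (pf f u) = pf f (bd u) := by
  have : (bd ∘ₗ pf f : Ch X →ₗ[ℤ] Ch Y) = pf f ∘ₗ bd := by
    apply lin_ext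
    intro l
    simp [pf_dl]
  exact LinearMap.congr_fun this u

lemma pf_comp (f : X → Y) (g : Y → Z) (u : Ch X) : pf g (pf f u) = pf (g ∘ f) u := by
  have : (pf g ∘ₗ pf f : Ch X →ₗ[ℤ] Ch Z) = pf (g ∘ f) := by
    apply lin_ext
    intro l
    simp only [LinearMap.coe_comp, Function.comp_apply, pf_single, List.map_map]
  exact LinearMap.congr_fun this u

lemma pf_id (u : Ch X) : pf (fun x => x) u = u := by
  have : (pf (fun x => x) : Ch X →ₗ[ℤ] Ch X) = LinearMap.id := by
    apply lin_ext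
    intro l
    simp only [pf_single, List.map_id_fun', id_eq, LinearMap.id_coe]
  exact LinearMap.congr_fun this u

/-- The prism of a list with respect to a self-map. -/
noncomputable def prl (f : X → X) : List X → Ch X
  | [] => 0
  | x :: t => single (x :: f x :: t.map f) 1 - cns x (prl f t)

/-- The prism operator. -/
noncomputable def pr (f : X → X) : Ch X →ₗ[ℤ] Ch X := Finsupp.linearCombination ℤ (prl f)

@[simp] lemma pr_single (f : X → X) (l : List X) (a : ℤ) : pr f (single l a) = a • prl f l := by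
  simp only [pr, linearCombination_single]

lemma prl_cons (f : X → X) (x : X) (t : List X) :
    prl f (x :: t) = single (x :: f x :: t.map f) 1 - cns x (prl f t) := rfl

lemma pr_cns (f : X → X) (x : X) (u : Ch X) :
    pr f (cns x u) = cns x (cns (f x) (pf f u)) - cns x (pr f u) := by
  have : (pr f ∘ₗ cns x : Ch X →ₗ[ℤ] Ch X) =
      cns x ∘ₗ cns (f x) ∘ₗ pf f - cns x ∘ₗ pr f := by
    apply lin_ext
    intro l
    simp only [LinearMap.coe_comp, Function.comp_apply, cns_single, pr_single, prl_cons, one_smul, LinearMap.sub_apply, pf_single]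
  have := LinearMap.congr_fun this u
  simpa only [LinearMap.coe_comp, Function.comp_apply, LinearMap.sub_apply] using this

lemma bd_prl (f : X → X) (l : List X) :
    bd (prl f l) + pr f (dl l) = single (l.map f) 1 - single l 1 := by
  induction l with
  | nil => simp only [prl, map_zero, dl_nil, add_zero, List.map_nil, sub_self]
  | cons x t ih =>
    have h1 : bd (prl f (x :: t)) = single (f x :: t.map f) 1 - cns x (single (t.map f) 1)
        + cns x (cns (f x) (dl (t.map f))) - prl f t + cns x (bd (prl f t)) := by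
      rw [prl_cons, map_sub, bd_cns]
      simp only [bd_single, dl_cons, map_sub, one_smul]
      simp only [cns_single]
      abel
    have h2 : pr f (dl (x :: t)) = prl f t - cns x (cns (f x) (dl (t.map f)))
        + cns x (pr f (dl t)) := by
      rw [dl_cons, map_sub, pr_cns, pf_dl]
      simp only [pr_single, one_smul]
      abel
    have h3 : cns x (bd (prl f t)) + cns x (pr f (dl t)) =
        cns x (single (t.map f) 1) - single (x :: t) 1 := by
      rw [← map_add, ih, map_sub]; simp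
    rw [h1, h2]
    have : single (f x :: List.map f t) (1:ℤ) = single (List.map f (x :: t)) 1 := by simp
    rw [this]
    rw [← sub_eq_zero] at h3 ⊢
    rw [← h3]
    abel

lemma bd_pr (f : X → X) (u : Ch X) : bd (pr f u) + pr f (bd u) = pf f u - u := by
  have : (bd ∘ₗ pr f + pr f ∘ₗ bd : Ch X →ₗ[ℤ] Ch X) = pf f - LinearMap.id := by
    apply lin_ext
    intro l
    simpa only [LinearMap.add_apply, LinearMap.coe_comp, Function.comp_apply, pr_single, one_smul, bd_single,     LinearMap.sub_apply, pf_single, LinearMap.id_coe, id_eq] using bd_prl f l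
  exact LinearMap.congr_fun this u

end Vale.Agent.P188
end
end
end
end
end

section

section

section

section

section

/-!
Supports of chains, controlled chains.
-/

universe u v w

namespace Vale.Agent.P188

open Finsupp Pointwise

variable {X : Type u} {Y : Type v} {Z : Type w}

/-- Chains supported on lists in `p`. -/
noncomputable def Sp (p : Set (List X)) : Submodule ℤ (Ch X) := Finsupp.supported ℤ ℤ p

lemma mem_Sp {p : Set (List X)} {u : Ch X} : u ∈ Sp p ↔ ∀ l, u l ≠ 0 → l ∈ p := by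
  unfold Sp
  rw [Finsupp.mem_supported]
  constructor
  · intro h l hl
    exact h (by simpa only [SetLike.mem_coe, mem_support_iff, ne_eq] using hl)
  · intro h l hl
    exact h l (by simpa only [ne_eq, SetLike.mem_coe, mem_support_iff] using hl)

lemma single_mem_Sp {p : Set (List X)} {l : List X} (hl : l ∈ p) (a : ℤ) :
    single l a ∈ Sp p := by
  rw [mem_Sp]
  intro l' h
  by_cases hh : l = l'
  · rwa [← hh]
  · exact absurd (Finsupp.single_eq_of_ne (Ne.symm hh)) h

lemma Sp_mono {p q : Set (List X)} (h : p ⊆ q) {u : Ch X} (hu : u ∈ Sp p) : u ∈ Sp q := by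
  rw [mem_Sp] at *
  exact fun l hl => h (hu l hl)

lemma Sp_inter {p q : Set (List X)} {u : Ch X} (hp : u ∈ Sp p) (hq : u ∈ Sp q) :
    u ∈ Sp (p ∩ q) := by
  rw [mem_Sp] at *
  exact fun l hl => ⟨hp l hl, hq l hl⟩

/-- A linear map sends chains supported on `p` into `S` if it does so for lists in `p`. -/
lemma map_mem_of_Sp {M : Type*} [AddCommGroup M] {L : Ch X →ₗ[ℤ] M} {S : Submodule ℤ M}
    {p : Set (List X)} (h : ∀ l ∈ p, L (single l 1) ∈ S) {u : Ch X} (hu : u ∈ Sp p) :
    L u ∈ S := by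
  rw [mem_Sp] at hu
  rw [← Finsupp.sum_single u, Finsupp.sum, map_sum]
  apply Submodule.sum_mem
  intro l hl
  have : single l (u l) = (u l) • single l (1 : ℤ) := by simp
  rw [this, map_smul]
  exact Submodule.smul_mem _ _ (h l (hu l (by simpa only [ne_eq, mem_support_iff] using hl)))

/-- Two linear maps agree on chains supported on `p` if they agree on lists in `p`. -/
lemma eq_of_Sp {M : Type*} [AddCommGroup M] {L L' : Ch X →ₗ[ℤ] M}
    {p : Set (List X)} (h : ∀ l ∈ p, L (single l 1) = L' (single l 1)) {u : Ch X}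
    (hu : u ∈ Sp p) : L u = L' u := by
  have : (L - L') u ∈ (⊥ : Submodule ℤ M) := by
    apply map_mem_of_Sp (p := p) _ hu
    intro l hl
    simp only [LinearMap.sub_apply, h l hl, sub_self, zero_mem]
  simpa only [LinearMap.sub_apply, Submodule.mem_bot, sub_eq_zero] using this

/-- Lists of length `q`. -/
def Gr (q : ℕ) : Set (List X) := {l | l.length = q}

lemma mem_Gr {q : ℕ} {l : List X} : l ∈ Gr q ↔ l.length = q := Iff.rfl

/-- Lists with entries in `E`. -/
def On (E : Set X) : Set (List X) := {l | ∀ x ∈ l, x ∈ E}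

/-- A set of lists closed under passing to lists with fewer entries. -/
def SubC (p : Set (List X)) : Prop := ∀ l ∈ p, ∀ l' : List X, l' ⊆ l → l' ∈ p

lemma cns_mem {p q : Set (List X)} {x : X} (h : ∀ l ∈ p, x :: l ∈ q) {u : Ch X}
    (hu : u ∈ Sp p) : cns x u ∈ Sp q := by
  apply map_mem_of_Sp _ hu
  intro l hl
  rw [cns_single]
  exact single_mem_Sp (h l hl) _

lemma pf_mem {f : X → Y} {p : Set (List X)} {q : Set (List Y)} (h : ∀ l ∈ p, l.map f ∈ q)
    {u : Ch X} (hu : u ∈ Sp p) : pf f u ∈ Sp q := by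
  apply map_mem_of_Sp _ hu
  intro l hl
  rw [pf_single]
  exact single_mem_Sp (h l hl) _

lemma dl_mem (l : List X) : dl l ∈ Sp {l' | l' ⊆ l ∧ l'.length + 1 = l.length} := by
  induction l with
  | nil => simp only [List.subset_nil, List.length_nil, Nat.add_eq_zero_iff, List.length_eq_zero_iff, one_ne_zero, and_false, Set.ofPred_false, dl_nil, zero_mem]
  | cons x t ih =>
    rw [dl_cons]
    apply Submodule.sub_mem
    · apply single_mem_Sp
      exact ⟨List.subset_cons_self x t, by simp⟩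
    · apply cns_mem _ ih
      rintro l ⟨hl, hl'⟩
      refine ⟨List.cons_subset_cons x hl, by simp [hl']⟩

lemma bd_mem {p : Set (List X)} (hp : SubC p) {q : ℕ} {u : Ch X}
    (hu : u ∈ Sp (p ∩ Gr (q + 1))) : bd u ∈ Sp (p ∩ Gr q) := by
  apply map_mem_of_Sp _ hu
  rintro l ⟨hl, hl'⟩
  rw [bd_single, one_smul]
  apply Sp_mono _ (dl_mem l)
  rintro l' ⟨h1, h2⟩
  refine ⟨hp l hl l' h1, ?_⟩
  simp only [mem_Gr] at *
  omega

lemma bd_mem_Gr {q : ℕ} {u : Ch X} (hu : u ∈ Sp (Gr (q + 1))) :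
    bd u ∈ Sp (Gr q) := by
  have h := bd_mem (p := Set.univ) (fun _ _ _ _ => trivial) (q := q) (u := u)
    (Sp_mono (Set.subset_inter (Set.subset_univ _) subset_rfl) hu)
  exact Sp_mono Set.inter_subset_right h

lemma bd_of_Gr_zero {u : Ch X} (hu : u ∈ Sp (Gr 0)) : bd u = 0 := by
  have := eq_of_Sp (L := bd) (L' := 0) (p := Gr 0) (u := u) (by
    intro l hl
    have : l = [] := List.length_eq_zero_iff.mp hl
    subst this
    simp) hu
  simpa only [LinearMap.zero_apply] using this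

lemma prl_mem (f : X → X) (l : List X) :
    prl f l ∈ Sp {l' | l' ⊆ l ++ l.map f ∧ l'.length = l.length + 1} := by
  induction l with
  | nil => simp only [List.map_nil, List.append_nil, List.subset_nil, List.length_nil, zero_add, prl, zero_mem]
  | cons x t ih =>
    rw [prl_cons]
    apply Submodule.sub_mem
    · apply single_mem_Sp
      refine ⟨?_, by simp⟩
      intro y hy
      simp only [List.mem_cons, List.mem_map, List.map_cons, List.cons_append, List.mem_append] at hy ⊢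
      (clear * - hy; tauto)
    · apply cns_mem _ ih
      rintro l ⟨hl, hl'⟩
      refine ⟨?_, by simp [hl']⟩
      intro y hy
      rcases List.mem_cons.mp hy with h | h
      · simp only [List.map_cons, List.cons_append, h, List.mem_cons, List.mem_append, List.mem_map, true_or]
      · have := hl h
        simp only [List.mem_append, List.mem_map, List.map_cons, List.cons_append, List.mem_cons] at this ⊢
        (clear * - this; tauto)

lemma pr_mem {f : X → X} {p q : Set (List X)}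
    (h : ∀ l ∈ p, ∀ l' : List X, l' ⊆ l ++ l.map f → l'.length = l.length + 1 → l' ∈ q)
    {u : Ch X} (hu : u ∈ Sp p) : pr f u ∈ Sp q := by
  apply map_mem_of_Sp _ hu
  intro l hl
  rw [pr_single, one_smul]
  exact Sp_mono (fun l' hl' => h l hl l' hl'.1 hl'.2) (prl_mem f l)

section Group

variable {G : Type u} [Group G]

/-- Lists controlled by `A`: all `x⁻¹ * y` lie in `A`. -/
def Ctl (A : Set G) : Set (List G) := {l | ∀ x ∈ l, ∀ y ∈ l, x⁻¹ * y ∈ A}

lemma SubC_Ctl (A : Set G) : SubC (Ctl A) :=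
  fun _ hl _ hs x hx y hy => hl x (hs hx) y (hs hy)

lemma Ctl_mono {A B : Set G} (h : A ⊆ B) : Ctl A ⊆ Ctl B :=
  fun _ hl x hx y hy => h (hl x hx y hy)

lemma Ctl_map_mul {A : Set G} {l : List G} (g : G) (h : l ∈ Ctl A) :
    l.map (fun x => g * x) ∈ Ctl A := by
  intro x hx y hy
  rw [List.mem_map] at hx hy
  obtain ⟨x', hx', rfl⟩ := hx
  obtain ⟨y', hy', rfl⟩ := hy
  have : (g * x')⁻¹ * (g * y') = x'⁻¹ * y' := by group
  rw [this]
  exact h x' hx' y' hy'

/-- Uniform acyclicity: controlled cycles bound controlled chains. -/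
def UA (G : Type u) [Group G] : Prop :=
  ∀ (q : ℕ) (A : Set G), A.Finite → ∃ B : Set G, B.Finite ∧
    ∀ u ∈ Sp (Ctl A ∩ Gr q), bd u = 0 → ∃ w ∈ Sp (Ctl B ∩ Gr (q + 1)), bd w = u

lemma UA_of_subsingleton [Subsingleton G] : UA G := by
  intro q A _
  refine ⟨Set.univ, Set.finite_univ, ?_⟩
  intro u hu hbd
  refine ⟨cns 1 u, ?_, ?_⟩
  · apply cns_mem _ hu
    rintro l ⟨_, hl⟩
    refine ⟨fun x _ y _ => trivial, ?_⟩
    simp only [mem_Gr] at *
    simp [hl]
  · rw [bd_cns, hbd]; simp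

/-- The control set of the prism of a map which is `E`-close to the identity on the lists
considered. -/
def prCtl (A E : Set G) : Set G := (A ∪ A * E) ∪ (E⁻¹ * A ∪ E⁻¹ * A * E)

lemma prCtl_finite {A E : Set G} (hA : A.Finite) (hE : E.Finite) : (prCtl A E).Finite :=
  (hA.union (hA.mul hE)).union ((hE.inv.mul hA).union ((hE.inv.mul hA).mul hE))

lemma prCtl_spec {A E : Set G} {f : G → G} {l l' : List G} (hl : l ∈ Ctl A)
    (hf : ∀ x ∈ l, x⁻¹ * f x ∈ E) (hl' : l' ⊆ l ++ l.map f) : l' ∈ Ctl (prCtl A E) := by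
  have key : ∀ x ∈ l', ∃ x₀ ∈ l, x = x₀ ∨ x = f x₀ := by
    intro x hx
    have := hl' hx
    rw [List.mem_append, List.mem_map] at this
    rcases this with h | ⟨x₀, h, rfl⟩
    · exact ⟨x, h, Or.inl rfl⟩
    · exact ⟨x₀, h, Or.inr rfl⟩
  intro x hx y hy
  obtain ⟨x₀, hx₀, hxx⟩ := key x hx
  obtain ⟨y₀, hy₀, hyy⟩ := key y hy
  have hA := hl x₀ hx₀ y₀ hy₀
  rcases hxx with rfl | rfl <;> rcases hyy with rfl | rfl
  · exact Or.inl (Or.inl hA)
  · refine Or.inl (Or.inr ⟨_, hA, _, hf y₀ hy₀, ?_⟩)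
    simp only
    group
  · refine Or.inr (Or.inl ⟨_, Set.inv_mem_inv.mpr (hf x₀ hx₀), _, hA, ?_⟩)
    simp only
    group
  · refine Or.inr (Or.inr ⟨_, ⟨_, Set.inv_mem_inv.mpr (hf x₀ hx₀), _, hA, rfl⟩, _,
      hf y₀ hy₀, ?_⟩)
    simp only
    group

end Group

/-- Uniform acyclicity is inherited by coarse retracts. -/
lemma UA_of_coarse {H : Type u} {G : Type v} [Group H] [Group G] {F : H → G} {F' : G → H}
    (hF : Coarse F) (hF' : Coarse F') (hE : CloseId (F' ∘ F)) (hG : UA G) : UA H := by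
  intro q A hA
  obtain ⟨B₁, hB₁, h₁⟩ := hF A hA
  obtain ⟨B₂, hB₂, h₂⟩ := hG q B₁ hB₁
  obtain ⟨B₃, hB₃, h₃⟩ := hF' B₂ hB₂
  obtain ⟨E, hE, hE'⟩ := hE
  refine ⟨B₃ ∪ prCtl A E, hB₃.union (prCtl_finite hA hE), ?_⟩
  intro u hu hbd
  obtain ⟨w, hw, hbw⟩ := h₂ (pf F u) (by
    apply pf_mem _ hu
    rintro l ⟨hl, hl'⟩
    refine ⟨?_, by simpa [Gr] using hl'⟩
    intro x hx y hy
    rw [List.mem_map] at hx hy
    obtain ⟨x', hx', rfl⟩ := hx
    obtain ⟨y', hy', rfl⟩ := hy
    exact h₁ _ _ (hl x' hx' y' hy')) (by rw [bd_pf, hbd]; simp)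
  refine ⟨pf F' w - pr (F' ∘ F) u, ?_, ?_⟩
  · apply Submodule.sub_mem
    · apply pf_mem _ hw
      rintro l ⟨hl, hl'⟩
      refine ⟨?_, by simpa [Gr] using hl'⟩
      intro x hx y hy
      rw [List.mem_map] at hx hy
      obtain ⟨x', hx', rfl⟩ := hx
      obtain ⟨y', hy', rfl⟩ := hy
      exact Or.inl (h₃ _ _ (hl x' hx' y' hy'))
    · apply pr_mem _ hu
      rintro l ⟨hl, hl'⟩ l' h1 h2
      refine ⟨Ctl_mono Set.subset_union_right
        (prCtl_spec hl (fun x _ => hE' x) h1), ?_⟩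
      simp only [mem_Gr] at *
      omega
  · have h := bd_pr (F' ∘ F) u
    rw [hbd, map_zero, add_zero] at h
    rw [map_sub, h, bd_pf, hbw, pf_comp]
    abel

end Vale.Agent.P188
end
end
end
end
end

section

section

section

section

section

/-!
Uniform acyclicity passes from the kernel of a surjection onto `ℤ` to the group
(Mayer-Vietoris argument in slabs), hence holds for poly-`ℤ` groups.
-/

universe u v w

namespace Vale.Agent.P188

open Finsupp Pointwise

variable {G : Type u} [Group G] (φ : G →* Multiplicative ℤ)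

/-- The height of an element. -/
def ht (x : G) : ℤ := Multiplicative.toAdd (φ x)

lemma ht_mul (x y : G) : ht φ (x * y) = ht φ x + ht φ y := by
  simp [ht]

lemma ht_inv (x : G) : ht φ x⁻¹ = - ht φ x := by
  simp only [ht, map_inv, toAdd_inv]

lemma ht_zpow {t : G} (h : ht φ t = 1) (n : ℤ) : ht φ (t ^ n) = n := by
  have : ht φ t = Multiplicative.toAdd (φ t) := rfl
  rw [h] at this
  simp only [ht, map_zpow, toAdd_zpow, ← this, Int.zsmul_eq_mul, mul_one]

lemma mem_ker_iff_ht (x : G) : x ∈ φ.ker ↔ ht φ x = 0 := by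
  rw [MonoidHom.mem_ker, ht]
  constructor
  · intro h; simp [h]
  · intro h; exact Multiplicative.toAdd.injective (by simpa only [toAdd_one, toAdd_eq_zero] using h)

/-- Lists whose entries have height at distance at most `r` of `i`. -/
def Ht (i r : ℤ) : Set (List G) := {l | ∀ x ∈ l, |ht φ x - i| ≤ r}

lemma slab_UA_zero {t : G} (ht1 : ht φ t = 1) (hN : UA φ.ker) (q : ℕ) (A : Set G)
    (hA : A.Finite) (r : ℕ) : ∃ B : Set G, B.Finite ∧
      ∀ u ∈ Sp ((Ctl A ∩ Gr q) ∩ Ht φ 0 r), bd u = 0 →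
        ∃ w ∈ Sp ((Ctl B ∩ Gr (q + 1)) ∩ Ht φ 0 r), bd w = u := by
  have hmem : ∀ x : G, x * t ^ (- ht φ x) ∈ φ.ker := by
    intro x
    rw [mem_ker_iff_ht, ht_mul, ht_zpow φ ht1]
    ring
  let f : G → G := fun x => x * t ^ (- ht φ x)
  let fN : G → φ.ker := fun x => ⟨x * t ^ (- ht φ x), hmem x⟩
  let T : Set G := (fun a : ℤ => t ^ a) '' (Set.Icc (-(r : ℤ)) r)
  have hT : T.Finite := (Set.finite_Icc _ _).image _
  let A' : Set φ.ker := Subtype.val ⁻¹' (T * A * T)
  have hA' : A'.Finite :=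
    Set.Finite.preimage (Subtype.val_injective.injOn) ((hT.mul hA).mul hT)
  obtain ⟨B', hB', h'⟩ := hN q A' hA'
  refine ⟨(Subtype.val '' B') ∪ prCtl A T, (hB'.image _).union (prCtl_finite hA hT), ?_⟩
  intro u hu hbd
  obtain ⟨w, hw, hbw⟩ := h' (pf fN u) (by
    apply pf_mem _ hu
    rintro l ⟨⟨hl, hl'⟩, hl''⟩
    refine ⟨?_, by simpa only [Gr, Set.mem_ofPred_eq, List.length_map] using hl'⟩
    intro x hx y hy
    rw [List.mem_map] at hx hy
    obtain ⟨x', hx', rfl⟩ := hx
    obtain ⟨y', hy', rfl⟩ := hy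
    have h1 := hl'' x' hx'
    have h2 := hl'' y' hy'
    rw [sub_zero, abs_le] at h1 h2
    refine ⟨_, ⟨t ^ (ht φ x'), ⟨ht φ x', ⟨h1.1, h1.2⟩, rfl⟩, _, hl x' hx' y' hy', rfl⟩,
      t ^ (- ht φ y'), ⟨- ht φ y', ⟨by omega, by omega⟩, rfl⟩, ?_⟩
    simp only [zpow_neg, Subgroup.coe_mul, Subgroup.coe_inv, fN]
    group) (by rw [bd_pf, hbd]; simp only [map_zero])
  have hfc : (fun x : φ.ker => (x : G)) ∘ fN = f := rfl
  refine ⟨pf (fun x : φ.ker => (x : G)) w - pr f u, ?_, ?_⟩
  · apply Submodule.sub_mem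
    · apply pf_mem _ hw
      rintro l ⟨hl, hl'⟩
      refine ⟨⟨?_, by simpa only [Gr, MonoidHom.mem_ker, List.map_subtype, List.map_id_fun', id_eq, Set.mem_ofPred_eq,     List.length_unattach] using hl'⟩, ?_⟩
      · intro x hx y hy
        rw [List.mem_map] at hx hy
        obtain ⟨x', hx', rfl⟩ := hx
        obtain ⟨y', hy', rfl⟩ := hy
        exact Or.inl ⟨_, hl x' hx' y' hy', by simp only [Subgroup.coe_mul, InvMemClass.coe_inv]⟩
      · intro x hx
        rw [List.mem_map] at hx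
        obtain ⟨x', hx', rfl⟩ := hx
        have := (mem_ker_iff_ht φ (x' : G)).mp x'.2
        rw [this]
        simp only [sub_self, abs_zero, Nat.cast_nonneg]
    · apply pr_mem _ hu
      rintro l ⟨⟨hl, hl'⟩, hl''⟩ l' h1 h2
      refine ⟨⟨Ctl_mono Set.subset_union_right (prCtl_spec hl ?_ h1), ?_⟩, ?_⟩
      · intro x hx
        have h1 := hl'' x hx
        rw [sub_zero, abs_le] at h1
        exact ⟨- ht φ x, ⟨by omega, by omega⟩, by simp only [zpow_neg, inv_mul_cancel_left, f]⟩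
      · simp only [mem_Gr] at *
        omega
      · intro x hx
        have := h1 hx
        rw [List.mem_append, List.mem_map] at this
        rcases this with h | ⟨x₀, h, rfl⟩
        · exact hl'' x h
        · have := (mem_ker_iff_ht φ _).mp (hmem x₀)
          simp only [f, this]
          simp only [sub_self, abs_zero, Nat.cast_nonneg]
  · have h := bd_pr f u
    rw [hbd, map_zero, add_zero] at h
    rw [map_sub, h, bd_pf, hbw, pf_comp, hfc]
    abel

lemma pf_mul_cancel (g : G) (u : Ch G) :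
    pf (fun x => g * x) (pf (fun x => g⁻¹ * x) u) = u := by
  rw [pf_comp]
  have : ((fun x => g * x) ∘ fun x => g⁻¹ * x) = fun x : G => x := by
    funext x; simp only [Function.comp_apply, mul_inv_cancel_left]
  rw [this, pf_id]

lemma slab_UA {t : G} (ht1 : ht φ t = 1) (hN : UA φ.ker) (q : ℕ) (A : Set G)
    (hA : A.Finite) (r : ℕ) : ∃ B : Set G, B.Finite ∧ ∀ i : ℤ,
      ∀ u ∈ Sp ((Ctl A ∩ Gr q) ∩ Ht φ i r), bd u = 0 →
        ∃ w ∈ Sp ((Ctl B ∩ Gr (q + 1)) ∩ Ht φ i r), bd w = u := by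
  obtain ⟨B, hB, h⟩ := slab_UA_zero φ ht1 hN q A hA r
  refine ⟨B, hB, ?_⟩
  intro i u hu hbd
  obtain ⟨w, hw, hbw⟩ := h (pf (fun x => (t ^ i)⁻¹ * x) u) (by
    apply pf_mem _ hu
    rintro l ⟨⟨hl, hl'⟩, hl''⟩
    refine ⟨⟨Ctl_map_mul _ hl, by simpa only [Gr, Set.mem_ofPred_eq, List.length_map] using hl'⟩, ?_⟩
    intro x hx
    rw [List.mem_map] at hx
    obtain ⟨x', hx', rfl⟩ := hx
    have := hl'' x' hx'
    rw [ht_mul, ht_inv, ht_zpow φ ht1]
    have e : -i + ht φ x' - 0 = ht φ x' - i := by ring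
    rwa [e]) (by rw [bd_pf, hbd]; simp)
  refine ⟨pf (fun x => t ^ i * x) w, ?_, ?_⟩
  · apply pf_mem _ hw
    rintro l ⟨⟨hl, hl'⟩, hl''⟩
    refine ⟨⟨Ctl_map_mul _ hl, by simpa [Gr] using hl'⟩, ?_⟩
    intro x hx
    rw [List.mem_map] at hx
    obtain ⟨x', hx', rfl⟩ := hx
    have := hl'' x' hx'
    rw [ht_mul, ht_zpow φ ht1]
    have e : i + ht φ x' - i = ht φ x' - 0 := by ring
    rwa [e]
  · rw [bd_pf, hbw, pf_mul_cancel]

/-- The height of the first entry of a list. -/
def hh : List G → ℤ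
  | [] => 0
  | x :: _ => ht φ x

omit [Group G] in
lemma filter_mem {p : Set (List G)} {u : Ch G} (hu : u ∈ Sp p) (P : List G → Prop)
    [DecidablePred P] : u.filter P ∈ Sp (p ∩ {l | P l}) := by
  rw [mem_Sp] at *
  intro l hl
  rw [Finsupp.filter_apply] at hl
  split_ifs at hl with h
  · exact ⟨hu l hl, h⟩
  · exact absurd rfl hl

lemma UA_ext (hφ : Function.Surjective φ) (hN : UA φ.ker) : UA G := by
  classical
  obtain ⟨t, htt⟩ := hφ (Multiplicative.ofAdd 1)
  have ht1 : ht φ t = 1 := by simp only [ht, htt, toAdd_ofAdd]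
  intro q A hA
  -- a bound on heights of `A`
  obtain ⟨r, hr⟩ : ∃ r : ℕ, ∀ a ∈ A, |ht φ a| ≤ (r : ℤ) := by
    obtain ⟨m, hm⟩ := (hA.image (fun a => |ht φ a|)).bddAbove
    refine ⟨m.toNat, fun a ha => ?_⟩
    have := hm ⟨a, ha, rfl⟩
    have h2 := abs_nonneg (ht φ a)
    simp only at this
    omega
  rcases q with _ | q
  · refine ⟨{1}, Set.finite_singleton _, ?_⟩
    intro u hu _
    refine ⟨cns 1 u, ?_, ?_⟩
    · apply cns_mem _ hu
      rintro l ⟨_, hl⟩
      have : l = [] := List.length_eq_zero_iff.mp hl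
      subst this
      refine ⟨?_, by simp only [Gr, zero_add, Set.mem_ofPred_eq, List.length_cons, List.length_nil]⟩
      intro x hx y hy
      simp at hx hy
      simp only [hx, inv_one, hy, mul_one, Set.mem_singleton_iff]
    · rw [bd_cns, bd_of_Gr_zero (Sp_mono Set.inter_subset_right hu)]
      simp
  obtain ⟨B₁, hB₁, h₁⟩ := slab_UA φ ht1 hN q A hA r
  obtain ⟨B₂, hB₂, h₂⟩ := slab_UA φ ht1 hN (q + 1) (A ∪ B₁) (hA.union hB₁) (r + 1)
  refine ⟨B₂, hB₂, ?_⟩
  intro z hz hbd
  -- truncations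
  let zle : ℤ → Ch G := fun i => z.filter (fun l => hh φ l ≤ i)
  have hzle : ∀ i, zle i ∈ Sp ((Ctl A ∩ Gr (q + 1)) ∩ {l | hh φ l ≤ i}) :=
    fun i => filter_mem hz _
  have near : ∀ l ∈ Ctl A ∩ Gr (q + 1), ∀ y ∈ l, |ht φ y - hh φ l| ≤ r := by
    rintro l ⟨hl, hl'⟩ y hy
    rcases l with _ | ⟨x, l⟩
    · simp at hy
    · have := hr _ (hl x (by simp) y hy)
      rw [ht_mul, ht_inv] at this
      simp only [hh]
      have e : ht φ y - ht φ x = - ht φ x + ht φ y := by ring
      rw [e]; exact this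
  have hw : ∀ i, bd (zle i) ∈ Sp ((Ctl A ∩ Gr q) ∩ Ht φ i r) := by
    intro i
    have h1 : bd (zle i) ∈ Sp (Ctl A ∩ Gr q) :=
      bd_mem (SubC_Ctl A) (Sp_mono Set.inter_subset_left (hzle i))
    have h2 : bd (zle i) ∈ Sp (On {y | ht φ y ≤ i + r}) := by
      apply map_mem_of_Sp _ (hzle i)
      rintro l ⟨hl, hl'⟩
      rw [bd_single, one_smul]
      apply Sp_mono _ (dl_mem l)
      rintro l' ⟨h1, h2⟩ y hy
      have := near l hl y (h1 hy)
      rw [abs_le] at this
      have h3 : hh φ l ≤ i := hl'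
      show ht φ y ≤ i + r
      omega
    have h3 : bd (zle i) = - bd (z.filter (fun l => ¬ hh φ l ≤ i)) := by
      rw [eq_neg_iff_add_eq_zero, ← map_add, Finsupp.filter_add_filter_not, hbd]
    have h4 : bd (zle i) ∈ Sp (On {y | i - r ≤ ht φ y}) := by
      rw [h3]
      apply Submodule.neg_mem
      apply map_mem_of_Sp _ (filter_mem hz _)
      rintro l ⟨hl, hl'⟩
      rw [bd_single, one_smul]
      apply Sp_mono _ (dl_mem l)
      rintro l' ⟨h1, h2⟩ y hy
      have := near l hl y (h1 hy)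
      rw [abs_le] at this
      have h3 : ¬ hh φ l ≤ i := hl'
      show i - r ≤ ht φ y
      omega
    apply Sp_mono _ (Sp_inter h1 (Sp_inter h2 h4))
    rintro l ⟨hl, hl1, hl2⟩
    refine ⟨hl, fun y hy => ?_⟩
    have a1 := hl1 y hy
    have a2 := hl2 y hy
    rw [abs_le]
    have a1' : ht φ y ≤ i + r := a1
    have a2' : i - r ≤ ht φ y := a2
    constructor <;> omega
  -- fillings of the slab boundaries
  have hv : ∀ i, ∃ v ∈ Sp ((Ctl B₁ ∩ Gr (q + 1)) ∩ Ht φ i r), bd v = bd (zle i) ∧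
      (bd (zle i) = 0 → v = 0) := by
    intro i
    by_cases h : bd (zle i) = 0
    · exact ⟨0, Submodule.zero_mem _, by simp only [map_zero, h], fun _ => rfl⟩
    · obtain ⟨v, hv, hbv⟩ := h₁ i (bd (zle i)) (hw i) (bd_bd _)
      exact ⟨v, hv, hbv, fun h' => absurd h' h⟩
  choose v hv hbv hv0 using hv
  -- step
  have step : ∀ i, ∃ w ∈ Sp ((Ctl B₂ ∩ Gr (q + 1 + 1)) ∩ Ht φ i ((r + 1 : ℕ) : ℤ)),
      bd w = (zle i - zle (i - 1)) - v i + v (i - 1) := by
    intro i
    apply h₂ i
    · have e1 : zle i - zle (i - 1) ∈ Sp (((Ctl (A ∪ B₁) ∩ Gr (q + 1))) ∩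
          Ht φ i ((r + 1 : ℕ) : ℤ)) := by
        have : zle i - zle (i - 1) = z.filter (fun l => hh φ l = i) := by
          ext l
          simp only [zle, Finsupp.sub_apply, Finsupp.filter_apply]
          by_cases h1 : hh φ l = i
          · have a : hh φ l ≤ i := by omega
            have b : ¬ hh φ l ≤ i - 1 := by omega
            rw [if_pos a, if_neg b, if_pos h1]; ring
          · rw [if_neg h1]
            by_cases a : hh φ l ≤ i
            · have b : hh φ l ≤ i - 1 := by omega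
              rw [if_pos a, if_pos b]; ring
            · have b : ¬ hh φ l ≤ i - 1 := by omega
              rw [if_neg a, if_neg b]; ring
        rw [this]
        apply Sp_mono _ (filter_mem hz _)
        rintro l ⟨hl, hl'⟩
        have hl'' : hh φ l = i := hl'
        refine ⟨⟨Ctl_mono Set.subset_union_left hl.1, hl.2⟩, fun y hy => ?_⟩
        have := near l hl y hy
        rw [hl''] at this
        push_cast
        linarith only [this]
      have e2 : v i ∈ Sp (((Ctl (A ∪ B₁) ∩ Gr (q + 1))) ∩ Ht φ i ((r + 1 : ℕ) : ℤ)) := by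
        apply Sp_mono _ (hv i)
        rintro l ⟨hl, hl'⟩
        refine ⟨⟨Ctl_mono Set.subset_union_right hl.1, hl.2⟩, fun y hy => ?_⟩
        have := hl' y hy
        push_cast
        linarith only [this]
      have e3 : v (i - 1) ∈ Sp (((Ctl (A ∪ B₁) ∩ Gr (q + 1))) ∩
          Ht φ i ((r + 1 : ℕ) : ℤ)) := by
        apply Sp_mono _ (hv (i - 1))
        rintro l ⟨hl, hl'⟩
        refine ⟨⟨Ctl_mono Set.subset_union_right hl.1, hl.2⟩, fun y hy => ?_⟩
        have := hl' y hy
        rw [abs_le] at this ⊢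
        push_cast
        constructor <;> linarith only [this]
      exact Submodule.add_mem _ (Submodule.sub_mem _ e1 e2) e3
    · rw [map_add, map_sub, map_sub, hbv, hbv]
      abel
  -- bounds for heights in the support of `z`
  obtain ⟨m, hm⟩ : ∃ m : ℕ, ∀ l ∈ z.support, |hh φ l| ≤ (m : ℤ) := by
    obtain ⟨m, hm⟩ := ((z.support.finite_toSet).image (fun l => |hh φ l|)).bddAbove
    refine ⟨m.toNat, fun a ha => ?_⟩
    have := hm ⟨a, ha, rfl⟩
    have h2 := abs_nonneg (hh φ a)
    simp only at this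
    omega
  have hlow : zle (-(m : ℤ) - 1) = 0 := by
    ext l
    simp only [zle, Finsupp.filter_apply, Finsupp.coe_zero, Pi.zero_apply]
    split_ifs with h
    · by_contra hne
      have := hm l (by simpa only [mem_support_iff, ne_eq] using hne)
      rw [abs_le] at this
      omega
    · rfl
  have hhigh : zle m = z := by
    ext l
    simp only [zle, Finsupp.filter_apply]
    split_ifs with h
    · rfl
    · by_contra hne
      have := hm l (by simpa only [mem_support_iff, ne_eq] using fun h => hne h.symm)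
      rw [abs_le] at this
      omega
  have claim : ∀ n : ℕ, ∃ w ∈ Sp (Ctl B₂ ∩ Gr (q + 1 + 1)),
      bd w = zle (-(m : ℤ) - 1 + n) - v (-(m : ℤ) - 1 + n) := by
    intro n
    induction n with
    | zero =>
      refine ⟨0, Submodule.zero_mem _, ?_⟩
      have : v (-(m : ℤ) - 1) = 0 := hv0 _ (by rw [hlow]; simp only [map_zero])
      simp [hlow, this]
    | succ n ih =>
      obtain ⟨w, hw, hbw⟩ := ih
      obtain ⟨w', hw', hbw'⟩ := step (-(m : ℤ) - 1 + (n + 1 : ℕ))
      refine ⟨w + w', Submodule.add_mem _ hw (Sp_mono Set.inter_subset_left hw'), ?_⟩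
      have e : -(m : ℤ) - 1 + ((n + 1 : ℕ) : ℤ) - 1 = -(m : ℤ) - 1 + n := by
        push_cast; ring
      rw [map_add, hbw, hbw', e]
      abel
  obtain ⟨w, hw, hbw⟩ := claim (2 * m + 1)
  refine ⟨w, hw, ?_⟩
  have e : -(m : ℤ) - 1 + ((2 * m + 1 : ℕ) : ℤ) = m := by push_cast; ring
  rw [e, hhigh] at hbw
  have : v m = 0 := hv0 _ (by rw [hhigh, hbd])
  rw [hbw, this, sub_zero]

lemma UA_of_PolyZ : ∀ (n : ℕ) (G : Type u) [Group G], PolyZ n G → UA G
  | 0, G, _, h => by
    have : Subsingleton G := h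
    exact UA_of_subsingleton
  | n + 1, G, _, h => by
    obtain ⟨φ, hφ, h'⟩ := h
    exact UA_ext φ hφ (UA_of_PolyZ n φ.ker h')

end Vale.Agent.P188
end
end
end
end
end

section

section

section

section

section

/-!
Right-invariant means: existence for poly-`ℤ` groups and transport along coarse
equivalences.
-/

universe u v w

namespace Vale.Agent.P188

open Filter Topology

/-- Bounded real functions. -/
def Bdd {X : Type u} (f : X → ℝ) : Prop := ∃ M : ℝ, ∀ x, |f x| ≤ M

lemma Bdd.add {X : Type u} {f g : X → ℝ} (hf : Bdd f) (hg : Bdd g) : Bdd (f + g) := by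
  obtain ⟨M, hM⟩ := hf
  obtain ⟨N, hN⟩ := hg
  exact ⟨M + N, fun x => (abs_add_le _ _).trans (add_le_add (hM x) (hN x))⟩

lemma Bdd.const_mul {X : Type u} {f : X → ℝ} (hf : Bdd f) (a : ℝ) :
    Bdd (fun x => a * f x) := by
  obtain ⟨M, hM⟩ := hf
  refine ⟨|a| * M, fun x => ?_⟩
  rw [abs_mul]
  exact mul_le_mul_of_nonneg_left (hM x) (abs_nonneg a)

lemma Bdd.comp {X : Type u} {Y : Type v} {f : X → ℝ} (hf : Bdd f) (g : Y → X) :
    Bdd (fun y => f (g y)) := by
  obtain ⟨M, hM⟩ := hf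
  exact ⟨M, fun y => hM (g y)⟩

lemma Bdd.const {X : Type u} (a : ℝ) : Bdd (fun _ : X => a) := ⟨|a|, fun _ => le_rfl⟩

/-- A functional on real functions which behaves like a mean on bounded functions. -/
structure IsMean {X : Type u} (μ : (X → ℝ) → ℝ) : Prop where
  add : ∀ f g, Bdd f → Bdd g → μ (f + g) = μ f + μ g
  smul : ∀ (a : ℝ) f, Bdd f → μ (fun x => a * f x) = a * μ f
  nonneg : ∀ f, Bdd f → (∀ x, 0 ≤ f x) → 0 ≤ μ f
  one : μ (fun _ => 1) = 1

lemma IsMean.le {X : Type u} {μ : (X → ℝ) → ℝ} (h : IsMean μ) {f g : X → ℝ} (hf : Bdd f)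
    (hg : Bdd g) (hfg : ∀ x, f x ≤ g x) : μ f ≤ μ g := by
  have h1 : Bdd (g + fun x => (-1) * f x) := hg.add (hf.const_mul (-1))
  have h2 := h.nonneg _ h1 (fun x => by
    have := hfg x
    simp only [Pi.add_apply]
    linarith)
  rw [h.add _ _ hg (hf.const_mul (-1)), h.smul _ _ hf] at h2
  linarith only [h2]

lemma IsMean.const {X : Type u} {μ : (X → ℝ) → ℝ} (h : IsMean μ) (a : ℝ) :
    μ (fun _ => a) = a := by
  have := h.smul a (fun _ => 1) (Bdd.const 1)
  rw [h.one] at this
  simpa using this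

lemma IsMean.abs_le {X : Type u} {μ : (X → ℝ) → ℝ} (h : IsMean μ) {f : X → ℝ} {M : ℝ}
    (hf : ∀ x, |f x| ≤ M) : |μ f| ≤ M := by
  have hb : Bdd f := ⟨M, hf⟩
  rw [_root_.abs_le]
  constructor
  · have := h.le (Bdd.const (-M)) hb (fun x => (_root_.abs_le.mp (hf x)).1)
    rwa [h.const] at this
  · have := h.le hb (Bdd.const M) (fun x => (_root_.abs_le.mp (hf x)).2)
    rwa [h.const] at this

/-- A group has a right-invariant mean. -/
def HasMean (G : Type u) [Group G] : Prop :=
  ∃ μ : (G → ℝ) → ℝ, IsMean μ ∧ ∀ (g : G) f, Bdd f → μ (fun x => f (x * g)) = μ f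

lemma hasMean_of_subsingleton (G : Type u) [Group G] [Subsingleton G] : HasMean G := by
  refine ⟨fun f => f 1, ⟨fun _ _ _ _ => rfl, fun _ _ _ => rfl, fun f _ h => h 1, rfl⟩, ?_⟩
  intro g f _
  have : g = 1 := Subsingleton.elim _ _
  simp [this]

/-- Ultrafilter limit of a sequence. -/
noncomputable def ulim (a : ℕ → ℝ) : ℝ := limUnder (hyperfilter ℕ : Filter ℕ) a

lemma tendsto_ulim {a : ℕ → ℝ} (ha : Bdd a) :
    Tendsto a (hyperfilter ℕ : Filter ℕ) (𝓝 (ulim a)) := by
  obtain ⟨M, hM⟩ := ha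
  have hc : IsCompact (Set.Icc (-M) M) := isCompact_Icc
  have hle : ((hyperfilter ℕ).map a : Filter ℝ) ≤ 𝓟 (Set.Icc (-M) M) := by
    rw [Filter.le_principal_iff]
    exact Filter.mem_map.mpr (Filter.univ_mem' (fun n => _root_.abs_le.mp (hM n)))
  obtain ⟨x, _, hx⟩ := hc.ultrafilter_le_nhds ((hyperfilter ℕ).map a) hle
  exact tendsto_nhds_limUnder ⟨x, hx⟩

lemma ulim_eq {a : ℕ → ℝ} {x : ℝ} (h : Tendsto a (hyperfilter ℕ : Filter ℕ) (𝓝 x)) :
    ulim a = x := h.limUnder_eq

/-- Cesàro averages. -/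
noncomputable def ces (f : ℤ → ℝ) (n : ℕ) : ℝ :=
  (∑ i ∈ Finset.range (n + 1), f i) / (n + 1)

lemma ces_abs_le {f : ℤ → ℝ} {M : ℝ} (hM : ∀ x, |f x| ≤ M) (n : ℕ) : |ces f n| ≤ M := by
  have hn : (0 : ℝ) < (n : ℝ) + 1 := by positivity
  unfold ces
  rw [abs_div, abs_of_pos hn, div_le_iff₀ hn]
  calc |∑ i ∈ Finset.range (n + 1), f i| ≤ ∑ i ∈ Finset.range (n + 1), |f i| :=
        Finset.abs_sum_le_sum_abs _ _
    _ ≤ ∑ _i ∈ Finset.range (n + 1), M := Finset.sum_le_sum (fun i _ => hM i)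
    _ = M * (n + 1) := by simp only [Finset.sum_const, Finset.card_range, nsmul_eq_mul, Nat.cast_add, Nat.cast_one]; ring

lemma Bdd.ces {f : ℤ → ℝ} (hf : Bdd f) : Bdd (ces f) := by
  obtain ⟨M, hM⟩ := hf
  exact ⟨M, ces_abs_le hM⟩

/-- A shift-invariant mean on `ℤ`. -/
noncomputable def zmean (f : ℤ → ℝ) : ℝ := ulim (ces f)

lemma isMean_zmean : IsMean zmean where
  add := by
    intro f g hf hg
    apply ulim_eq
    have h : ces (f + g) = fun n => ces f n + ces g n := by
      funext n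
      simp only [ces, Pi.add_apply, Finset.sum_add_distrib, add_div]
    rw [h]
    exact (tendsto_ulim hf.ces).add (tendsto_ulim hg.ces)
  smul := by
    intro a f hf
    apply ulim_eq
    have h : ces (fun x => a * f x) = fun n => a * ces f n := by
      funext n
      simp only [ces, ← Finset.mul_sum, mul_div_assoc]
    rw [h]
    exact (tendsto_ulim hf.ces).const_mul a
  nonneg := by
    intro f hf h
    apply ge_of_tendsto' (tendsto_ulim hf.ces)
    intro n
    unfold ces
    apply div_nonneg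
    · exact Finset.sum_nonneg (fun i _ => h i)
    · (clear * -; positivity)
  one := by
    apply ulim_eq
    have h : ces (fun _ => (1 : ℝ)) = fun _ => 1 := by
      funext n
      unfold ces
      have hn : ((n : ℝ) + 1) ≠ 0 := by positivity
      have hs : ∑ _i ∈ Finset.range (n + 1), (1 : ℝ) = n + 1 := by simp only [Finset.sum_const, Finset.card_range, nsmul_eq_mul, Nat.cast_add, Nat.cast_one, mul_one]
      rw [hs, div_self hn]
    rw [h]
    exact tendsto_const_nhds

lemma zmean_shift {f : ℤ → ℝ} (hf : Bdd f) : zmean (fun i => f (i + 1)) = zmean f := by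
  apply ulim_eq
  have h : ces (fun i => f (i + 1)) = fun n : ℕ => ces f n + (f (n + 1) - f 0) / (n + 1) := by
    funext n
    unfold ces
    rw [← add_div]
    congr 1
    have e1 := Finset.sum_range_succ (fun i : ℕ => f i) (n + 1)
    have e2 := Finset.sum_range_succ' (fun i : ℕ => f i) (n + 1)
    rw [e1] at e2
    push_cast at e2 ⊢
    linarith
  rw [h]
  have h2 : Tendsto (fun n : ℕ => (f (n + 1) - f 0) / ((n : ℝ) + 1)) atTop (𝓝 0) := by
    obtain ⟨M, hM⟩ := hf
    have h3 : Tendsto (fun n : ℕ => (2 * M) / ((n : ℝ) + 1)) atTop (𝓝 0) := by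
      have := (tendsto_one_div_add_atTop_nhds_zero_nat (𝕜 := ℝ)).const_mul (2 * M)
      simpa only [div_eq_mul_inv, one_mul, mul_zero] using this
    apply squeeze_zero_norm _ h3
    intro n
    have hn : (0 : ℝ) < (n : ℝ) + 1 := by positivity
    rw [Real.norm_eq_abs, abs_div, abs_of_pos hn]
    apply div_le_div_of_nonneg_right _ hn.le
    calc |f (n + 1) - f 0| ≤ |f (n + 1)| + |f 0| := abs_sub _ _
      _ ≤ 2 * M := by linarith only [hM (n + 1), hM 0]
  have h3 : (hyperfilter ℕ : Filter ℕ) ≤ atTop := by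
    rw [← Nat.cofinite_eq_atTop]
    exact Filter.hyperfilter_le_cofinite
  have := (tendsto_ulim hf.ces).add (h2.mono_left h3)
  rw [add_zero] at this
  exact this

lemma zmean_shift_zpow {f : ℤ → ℝ} (hf : Bdd f) (j : ℤ) :
    zmean (fun i => f (i + j)) = zmean f := by
  induction j using Int.induction_on with
  | zero => simp
  | succ n ih =>
    have := zmean_shift (f := fun i => f (i + n)) (hf.comp _)
    rw [← ih, ← this]
    congr 1
    funext i
    congr 1
    ring
  | pred n ih =>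
    have := zmean_shift (f := fun i => f (i + (-n - 1))) (hf.comp _)
    rw [← this, ← ih]
    congr 1
    funext i
    congr 1
    ring

lemma hasMean_ext {G : Type u} [Group G] (φ : G →* Multiplicative ℤ)
    (hφ : Function.Surjective φ) (hN : HasMean φ.ker) : HasMean G := by
  obtain ⟨t, htt⟩ := hφ (Multiplicative.ofAdd 1)
  have ht1 : ht φ t = 1 := by simp only [ht, htt, toAdd_ofAdd]
  obtain ⟨μ, hμ, hinv⟩ := hN
  let ν : (G → ℝ) → ℤ → ℝ := fun f i => μ (fun x : φ.ker => f (x * t ^ i))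
  have hν : ∀ f, Bdd f → Bdd (ν f) := by
    rintro f ⟨M, hM⟩
    exact ⟨M, fun i => hμ.abs_le (fun x => hM _)⟩
  refine ⟨fun f => zmean (ν f), ⟨?_, ?_, ?_, ?_⟩, ?_⟩
  · intro f g hf hg
    have : ν (f + g) = ν f + ν g := by
      funext i
      exact hμ.add _ _ (hf.comp _) (hg.comp _)
    simp only [this]
    exact isMean_zmean.add _ _ (hν f hf) (hν g hg)
  · intro a f hf
    have : ν (fun x => a * f x) = fun i => a * ν f i := by
      funext i
      exact hμ.smul a _ (hf.comp _)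
    simp only [this]
    exact isMean_zmean.smul a _ (hν f hf)
  · intro f hf h
    apply isMean_zmean.nonneg _ (hν f hf)
    intro i
    exact hμ.nonneg _ (hf.comp _) (fun x => h _)
  · have : ν (fun _ => 1) = fun _ => 1 := by
      funext i
      exact hμ.one
    simp only [this]
    exact isMean_zmean.one
  · intro g f hf
    have key : ν (fun x => f (x * g)) = fun i => ν f (i + ht φ g) := by
      funext i
      have hmem : t ^ i * g * (t ^ (i + ht φ g))⁻¹ ∈ φ.ker := by
        rw [mem_ker_iff_ht, ht_mul, ht_mul, ht_inv, ht_zpow φ ht1, ht_zpow φ ht1]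
        ring
      have := hinv ⟨_, hmem⟩ (fun x : φ.ker => f (x * t ^ (i + ht φ g))) (hf.comp _)
      show μ (fun x : φ.ker => f (x * t ^ i * g)) = μ (fun x : φ.ker => f (x * t ^ (i + ht φ g)))
      rw [← this]
      congr 1
      funext x
      congr 1
      simp only [Subgroup.coe_mul]
      group
    simp only [key]
    exact zmean_shift_zpow (hν f hf) _

lemma hasMean_of_PolyZ : ∀ (n : ℕ) (G : Type u) [Group G], PolyZ n G → HasMean G
  | 0, G, _, h => by
    have : Subsingleton G := h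
    exact hasMean_of_subsingleton G
  | n + 1, G, _, h => by
    obtain ⟨φ, hφ, h'⟩ := h
    exact hasMean_ext φ hφ (hasMean_of_PolyZ n φ.ker h')

lemma IsMean.sum {X : Type u} {μ : (X → ℝ) → ℝ} (h : IsMean μ) {ι : Type v} (s : Finset ι)
    (f : ι → X → ℝ) (hf : ∀ i ∈ s, Bdd (f i)) :
    Bdd (fun x => ∑ i ∈ s, f i x) ∧ μ (fun x => ∑ i ∈ s, f i x) = ∑ i ∈ s, μ (f i) := by
  classical
  induction s using Finset.induction_on with
  | empty =>
    simp only [Finset.sum_empty]
    exact ⟨Bdd.const 0, h.const 0⟩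
  | insert a s ha ih =>
    obtain ⟨h1, h2⟩ := ih (fun i hi => hf i (Finset.mem_insert_of_mem hi))
    have h3 := hf a (Finset.mem_insert_self a s)
    have e : (fun x => ∑ i ∈ insert a s, f i x) = f a + fun x => ∑ i ∈ s, f i x := by
      funext x
      rw [Finset.sum_insert ha]
      rfl
    rw [e]
    refine ⟨h3.add h1, ?_⟩
    rw [h.add _ _ h3 h1, h2, Finset.sum_insert ha]

/-- Transport of invariant means along coarse equivalences. -/
lemma hasMean_of_coarseEquiv {H : Type u} {G : Type v} [Group H] [Group G]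
    (hc : CoarseEquiv H G) (hG : HasMean G) : HasMean H := by
  classical
  obtain ⟨F, F', hF, hF', ⟨E, hE, hE'⟩, ⟨E₂, hE₂, hE₂'⟩⟩ := hc
  obtain ⟨μ, hμ, hinv⟩ := hG
  -- finite fibres
  have hsub : ∀ y : G, {x : H | F x = y} ⊆ (fun e => F' y * e⁻¹) '' E := by
    intro y x hx
    refine ⟨x⁻¹ * F' (F x), hE' x, ?_⟩
    have : F x = y := hx
    simp only [this]
    group
  have hfin : ∀ y : G, {x : H | F x = y}.Finite := fun y => (hE.image _).subset (hsub y)
  let fib : G → Finset H := fun y => (hfin y).toFinset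
  have hfib : ∀ y x, x ∈ fib y ↔ F x = y := by
    intro y x
    simp only [Set.Finite.mem_toFinset, Set.mem_ofPred_eq, fib]
  have hcard : ∀ y, (fib y).card ≤ hE.toFinset.card := by
    intro y
    have : fib y ⊆ hE.toFinset.image (fun e => F' y * e⁻¹) := by
      intro x hx
      rw [hfib] at hx
      obtain ⟨e, he, rfl⟩ := hsub y hx
      exact Finset.mem_image.mpr ⟨e, by simpa only [Set.Finite.mem_toFinset] using he, rfl⟩
    exact (Finset.card_le_card this).trans Finset.card_image_le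
  let ps : (H → ℝ) → G → ℝ := fun f y => ∑ x ∈ fib y, f x
  have hps : ∀ f, Bdd f → Bdd (ps f) := by
    rintro f ⟨M, hM⟩
    refine ⟨hE.toFinset.card * M, fun y => ?_⟩
    have hM0 : 0 ≤ M := (abs_nonneg _).trans (hM 1)
    calc |ps f y| ≤ ∑ x ∈ fib y, |f x| := Finset.abs_sum_le_sum_abs _ _
      _ ≤ ∑ _x ∈ fib y, M := Finset.sum_le_sum (fun x _ => hM x)
      _ = (fib y).card * M := by simp only [Finset.sum_const, nsmul_eq_mul]
      _ ≤ hE.toFinset.card * M := by
          apply mul_le_mul_of_nonneg_right _ hM0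
          exact_mod_cast hcard y
  have hps_add : ∀ f g, ps (f + g) = ps f + ps g := by
    intro f g
    funext y
    simp only [Pi.add_apply, Finset.sum_add_distrib, ps]
  have hps_smul : ∀ (a : ℝ) f, ps (fun x => a * f x) = fun y => a * ps f y := by
    intro a f
    funext y
    simp only [Finset.mul_sum, ps]
  -- positivity of the total mass
  have hpos : 0 < μ (ps (fun _ => 1)) := by
    have h1 : ∀ y : G, 1 ≤ ∑ e ∈ hE₂.toFinset, ps (fun _ => 1) (y * e) := by
      intro y
      have he : y⁻¹ * F (F' y) ∈ hE₂.toFinset := by simpa only [Set.Finite.mem_toFinset, Function.comp_apply] using hE₂' y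
      have h2 : (1 : ℝ) ≤ ps (fun _ => 1) (y * (y⁻¹ * F (F' y))) := by
        have : F' y ∈ fib (y * (y⁻¹ * F (F' y))) := by rw [hfib]; group
        have hc : 1 ≤ (fib (y * (y⁻¹ * F (F' y)))).card := Finset.card_pos.mpr ⟨_, this⟩
        simp only [ps, Finset.sum_const, nsmul_eq_mul, mul_one]
        exact_mod_cast hc
      refine h2.trans ?_
      apply Finset.single_le_sum (f := fun e => ps (fun _ => 1) (y * e)) _ he
      intro e _
      exact Finset.sum_nonneg (fun _ _ => zero_le_one)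
    have hb1 : Bdd (ps (fun _ => 1)) := hps _ (Bdd.const 1)
    obtain ⟨hb2, hs⟩ := hμ.sum hE₂.toFinset (fun e y => ps (fun _ => 1) (y * e))
      (fun e _ => hb1.comp _)
    have h3 := hμ.le (Bdd.const 1) hb2 h1
    rw [hμ.one, hs] at h3
    have h4 : ∑ e ∈ hE₂.toFinset, μ (fun y => ps (fun _ => 1) (y * e)) =
        hE₂.toFinset.card * μ (ps (fun _ => 1)) := by
      rw [Finset.sum_congr rfl (fun e _ => hinv e _ hb1)]
      simp only [Finset.sum_const, nsmul_eq_mul]
    rw [h4] at h3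
    by_contra hneg
    have : (hE₂.toFinset.card : ℝ) * μ (ps (fun _ => 1)) ≤ 0 :=
      mul_nonpos_of_nonneg_of_nonpos (Nat.cast_nonneg _) (not_lt.mp hneg)
    linarith only [h3, this]
  set c := μ (ps (fun _ => 1)) with hcdef
  refine ⟨fun f => μ (ps f) / c, ⟨?_, ?_, ?_, ?_⟩, ?_⟩
  · intro f g hf hg
    simp only [hps_add]
    rw [hμ.add _ _ (hps f hf) (hps g hg), add_div]
  · intro a f hf
    simp only [hps_smul]
    rw [hμ.smul _ _ (hps f hf), mul_div_assoc]
  · intro f hf h
    apply div_nonneg _ hpos.le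
    exact hμ.nonneg _ (hps f hf) (fun y => Finset.sum_nonneg (fun x _ => h x))
  · exact div_self hpos.ne'
  · intro g f hf
    simp only
    congr 1
    obtain ⟨U, hU, hU'⟩ := hF {g⁻¹} (Set.finite_singleton _)
    have hu : ∀ x : H, (F (x * g))⁻¹ * F x ∈ hU.toFinset := by
      intro x
      have := hU' (x * g) x (by simp)
      simpa only [Set.Finite.mem_toFinset] using this
    let fu : G → H → ℝ := fun u x => if (F x)⁻¹ * F (x * g⁻¹) = u then f x else 0
    have hfu : ∀ u, Bdd (fu u) := by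
      obtain ⟨M, hM⟩ := hf
      have hM0 : 0 ≤ M := (abs_nonneg _).trans (hM 1)
      intro u
      refine ⟨M, fun x => ?_⟩
      simp only [fu]
      split_ifs
      · exact hM x
      · simpa only [abs_zero] using hM0
    have e1 : ps (fun x => f (x * g)) = fun y => ∑ u ∈ hU.toFinset, ps (fu u) (y * u⁻¹) := by
      funext y
      have s1 : ps (fun x => f (x * g)) y = ∑ u ∈ hU.toFinset,
          ∑ x ∈ fib y with (F (x * g))⁻¹ * F x = u, f (x * g) := by
        rw [Finset.sum_fiberwise_of_maps_to (fun x _ => hu x)]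
      rw [s1]
      apply Finset.sum_congr rfl
      intro u _
      simp only [ps, fu]
      rw [← Finset.sum_filter]
      apply Finset.sum_nbij' (fun x => x * g) (fun x => x * g⁻¹)
      · intro x hx
        rw [Finset.mem_filter, hfib] at hx ⊢
        obtain ⟨h1, h2⟩ := hx
        constructor
        · rw [← h1, ← h2]; group
        · rw [mul_inv_cancel_right]; exact h2
      · intro x hx
        rw [Finset.mem_filter, hfib] at hx ⊢
        obtain ⟨h1, h2⟩ := hx
        constructor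
        · calc F (x * g⁻¹) = F x * ((F x)⁻¹ * F (x * g⁻¹)) := by group
            _ = y := by rw [h2, h1]; group
        · rw [inv_mul_cancel_right]; exact h2
      · intro x _; simp
      · intro x _; simp
      · intro x _; rfl
    have e2 : ps f = fun y => ∑ u ∈ hU.toFinset, ps (fu u) y := by
      funext y
      simp only [ps]
      rw [Finset.sum_comm]
      apply Finset.sum_congr rfl
      intro x _
      simp only [fu]
      rw [Finset.sum_ite_eq, if_pos]
      have := hu (x * g⁻¹)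
      rwa [inv_mul_cancel_right] at this
    obtain ⟨_, s1⟩ := hμ.sum hU.toFinset (fun u y => ps (fu u) (y * u⁻¹))
      (fun u _ => (hps _ (hfu u)).comp _)
    obtain ⟨_, s2⟩ := hμ.sum hU.toFinset (fun u y => ps (fu u) y)
      (fun u _ => hps _ (hfu u))
    rw [e1, s1]
    conv_rhs => rw [e2]
    rw [s2]
    apply Finset.sum_congr rfl
    intro u _
    exact hinv u⁻¹ _ (hps _ (hfu u))

end Vale.Agent.P188
end
end
end
end
end

section

section

section

section

section

/-!
Quasi-isometric groups are coarsely equivalent; coarse equivalence is an equivalence relation.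
-/

universe u v w

namespace Vale.Agent.P188

open Pointwise

section WordDist

variable {H : Type u} [Group H]

lemma wordDist_list {S : Set H} (hS : Subgroup.closure S = ⊤) (x y : H) :
    ∃ l : List H, l.length = wordDist S x y ∧ (∀ a ∈ l, a ∈ S ∨ a⁻¹ ∈ S) ∧
      l.prod = x⁻¹ * y := by
  have hne : {n : ℕ | ∃ l : List H, l.length = n ∧ (∀ a ∈ l, a ∈ S ∨ a⁻¹ ∈ S) ∧
      l.prod = x⁻¹ * y}.Nonempty := by
    have hmem : x⁻¹ * y ∈ (Subgroup.closure S).toSubmonoid := by rw [hS]; trivial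
    rw [Subgroup.closure_toSubmonoid] at hmem
    obtain ⟨l, hl, hp⟩ := Submonoid.exists_list_of_mem_closure hmem
    exact ⟨l.length, l, rfl, fun a ha => hl a ha, hp⟩
  exact Nat.sInf_mem hne

lemma finite_ball {S : Set H} (hS : Subgroup.closure S = ⊤) (hfin : S.Finite) (n : ℕ) :
    ∃ B : Set H, B.Finite ∧ ∀ x y : H, wordDist S x y ≤ n → x⁻¹ * y ∈ B := by
  have hU : (S ∪ S⁻¹).Finite := hfin.union hfin.inv
  have hL : {l : List H | (∀ a ∈ l, a ∈ S ∪ S⁻¹) ∧ l.length ≤ n}.Finite := by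
    have : Finite ↥(S ∪ S⁻¹) := hU.to_subtype
    have h1 := List.finite_length_le (↥(S ∪ S⁻¹)) n
    refine (h1.image (fun l => l.map Subtype.val)).subset ?_
    rintro l ⟨hl, hn⟩
    refine ⟨l.pmap (fun a h => ⟨a, h⟩) hl, by simpa only [Set.mem_ofPred_eq, List.length_pmap] using hn, ?_⟩
    simp only
    rw [List.map_pmap]
    simp
  refine ⟨List.prod '' {l : List H | (∀ a ∈ l, a ∈ S ∪ S⁻¹) ∧ l.length ≤ n}, hL.image _, ?_⟩
  intro x y hxy
  obtain ⟨l, hl, ha, hp⟩ := wordDist_list hS x y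
  refine ⟨l, ⟨fun a h => ?_, by omega⟩, hp⟩
  rcases ha a h with h | h
  · exact Or.inl h
  · exact Or.inr h

lemma bounded_wordDist (S : Set H) {A : Set H} (hA : A.Finite) :
    ∃ n : ℕ, ∀ x y : H, x⁻¹ * y ∈ A → wordDist S x y ≤ n := by
  obtain ⟨M, hM⟩ := (hA.image (fun g => wordDist S 1 g)).bddAbove
  refine ⟨M, fun x y hxy => ?_⟩
  have : wordDist S x y = wordDist S 1 (x⁻¹ * y) := by
    simp only [wordDist, inv_one, one_mul]
  rw [this]
  exact hM ⟨_, hxy, rfl⟩

end WordDist

lemma Coarse.comp {H : Type u} {G : Type v} {K : Type w} [Group H] [Group G] [Group K]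
    {F' : G → K} {F : H → G} (hF' : Coarse F') (hF : Coarse F) : Coarse (F' ∘ F) := by
  intro A hA
  obtain ⟨B, hB, hB'⟩ := hF A hA
  obtain ⟨C, hC, hC'⟩ := hF' B hB
  exact ⟨C, hC, fun x y hxy => hC' _ _ (hB' x y hxy)⟩

lemma closeId_aux {H : Type u} {G : Type v} {K : Type w} [Group H] [Group G] [Group K]
    {F : H → G} {F' : G → H} (hF' : Coarse F') (hc : CloseId (F' ∘ F))
    {E : G → K} {E' : K → G} (hc' : CloseId (E' ∘ E)) :
    CloseId ((F' ∘ E') ∘ (E ∘ F)) := by
  obtain ⟨A, hA, hA'⟩ := hc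
  obtain ⟨B, hB, hB'⟩ := hc'
  obtain ⟨C, hC, hC'⟩ := hF' B hB
  refine ⟨A * C, hA.mul hC, fun x => ?_⟩
  refine ⟨x⁻¹ * F' (F x), hA' x, (F' (F x))⁻¹ * F' (E' (E (F x))), hC' _ _ (hB' (F x)), ?_⟩
  simp only [Function.comp_apply]
  group

lemma CoarseEquiv.trans {H : Type u} {G : Type v} {K : Type w} [Group H] [Group G] [Group K]
    (h : CoarseEquiv H G) (h' : CoarseEquiv G K) : CoarseEquiv H K := by
  obtain ⟨F, F', h1, h2, h3, h4⟩ := h
  obtain ⟨E, E', k1, k2, k3, k4⟩ := h'
  exact ⟨E ∘ F, F' ∘ E', k1.comp h1, h2.comp k2, closeId_aux h2 h3 k3, closeId_aux k1 k4 h4⟩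

theorem QuasiIsometric.coarseEquiv {H : Type u} {G : Type v} [Group H] [Group G]
    (h : QuasiIsometric H G) : CoarseEquiv H G := by
  obtain ⟨S, T, hS, hT, K, C, hK, hC, F, hF, hsurj⟩ := h
  have hKpos : 0 < K := lt_of_lt_of_le one_pos hK
  choose F' hF' using hsurj
  have cF : Coarse F := by
    intro A hA
    obtain ⟨n, hn⟩ := bounded_wordDist (S : Set H) hA
    obtain ⟨B, hB, hB'⟩ := finite_ball hT T.finite_toSet ⌈K * n + C⌉₊
    refine ⟨B, hB, fun x y hxy => hB' _ _ ?_⟩
    have h1 := (hF x y).2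
    have h2 : (wordDist (S : Set H) x y : ℝ) ≤ n := by exact_mod_cast hn x y hxy
    have h3 : (wordDist (T : Set G) (F x) (F y) : ℝ) ≤ K * n + C := by linarith only [mul_nonneg (le_of_lt (sub_pos.2 hKpos)) (sub_nonneg.2 h2), h1]
    exact_mod_cast h3.trans (Nat.le_ceil _)
  have key : ∀ M : ℝ, ∃ B : Set H, B.Finite ∧
      ∀ x y : H, (wordDist (T : Set G) (F x) (F y) : ℝ) ≤ M → x⁻¹ * y ∈ B := by
    intro M
    obtain ⟨B, hB, hB'⟩ := finite_ball hS S.finite_toSet ⌈K * (M + C)⌉₊
    refine ⟨B, hB, fun x y hxy => hB' _ _ ?_⟩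
    have h1 := (hF x y).1
    have h2 : K⁻¹ * (wordDist (S : Set H) x y : ℝ) ≤ M + C := by linarith only [hxy, h1]
    have h3 : (wordDist (S : Set H) x y : ℝ) ≤ K * (M + C) := by
      have := mul_le_mul_of_nonneg_left h2 hKpos.le
      rwa [← mul_assoc, mul_inv_cancel₀ hKpos.ne', one_mul] at this
    exact_mod_cast h3.trans (Nat.le_ceil _)
  obtain ⟨E, hE, hE'⟩ := finite_ball hT T.finite_toSet ⌊C⌋₊
  have hEF : ∀ y : G, y⁻¹ * F (F' y) ∈ E := fun y => hE' _ _ (Nat.le_floor (hF' y))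
  refine ⟨F, F', cF, ?_, ?_, ⟨E, hE, hEF⟩⟩
  · intro B hB
    obtain ⟨n, hn⟩ := bounded_wordDist (T : Set G) ((hE.inv.mul hB).mul hE)
    obtain ⟨A, hA, hA'⟩ := key n
    refine ⟨A, hA, fun x y hxy => hA' _ _ ?_⟩
    have h1 : (F (F' x))⁻¹ * F (F' y) ∈ E⁻¹ * B * E := by
      refine ⟨(x⁻¹ * F (F' x))⁻¹ * (x⁻¹ * y), ⟨_, Set.inv_mem_inv.mpr (hEF x), _, hxy, rfl⟩,
        y⁻¹ * F (F' y), hEF y, ?_⟩
      simp only
      group
    exact_mod_cast hn _ _ h1
  · obtain ⟨A, hA, hA'⟩ := key C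
    exact ⟨A, hA, fun x => hA' _ _ (hF' (F x))⟩

end Vale.Agent.P188
end
end
end
end
end

section

section

section

/-!
P188, Theorem S (growth of the kernel of the finite-dimensional part): definitions.
-/

universe u v w

open Filter Topology

namespace Vale.Agent.P188.SG

variable {H : Type u} [Group H]

/-- Word length for the finite set `S` (and the inverses of its elements). -/
noncomputable def len (S : Finset H) (g : H) : ℕ := wordDist (S : Set H) 1 g

/-- One step of the random walk: average over the right translates by elements of `S`. -/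
noncomputable def avg (S : Finset H) (φ : H → ℝ) (g : H) : ℝ :=
  (S.card : ℝ)⁻¹ * ∑ s ∈ S, φ (g * s)

/-- Expectation of `φ (X_n)` for the random walk `X_n` with steps uniform in `S`. -/
noncomputable def Ex (S : Finset H) (n : ℕ) (φ : H → ℝ) : ℝ := ((avg S)^[n] φ) 1

/-- A finite nonempty symmetric generating set. -/
structure SymGen (S : Finset H) : Prop where
  ne : S.Nonempty
  inv : ∀ s ∈ S, s⁻¹ ∈ S
  gen : Subgroup.closure (S : Set H) = ⊤

section Rep

variable {V : Type v} [NormedAddCommGroup V] [InnerProductSpace ℝ V]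

/-- `b` is a cocycle for the orthogonal representation `π`. -/
def IsCocycle (π : H →* (V ≃ₗᵢ[ℝ] V)) (b : H → V) : Prop :=
  ∀ g h : H, b (g * h) = b g + π g (b h)

/-- Invariant subspaces. -/
def Inv (π : H →* (V ≃ₗᵢ[ℝ] V)) (W : Submodule ℝ V) : Prop :=
  ∀ g : H, ∀ w ∈ W, π g w ∈ W

/-- `u` is orthogonal to all finite-dimensional invariant subspaces. -/
def FDOrth (π : H →* (V ≃ₗᵢ[ℝ] V)) (u : V) : Prop :=
  ∀ W : Submodule ℝ V, FiniteDimensional ℝ W → Inv π W → ∀ w ∈ W, inner ℝ w u = 0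

end Rep

/-- Cautious random walks: along infinitely many times `n` the walk is within `c √n` of the origin
with probability bounded below. -/
def Cautious (S : Finset H) : Prop :=
  ∀ c : ℝ, 0 < c → ∃ δ : ℝ, 0 < δ ∧ ∃ᶠ n : ℕ in atTop,
    δ ≤ Ex S n (fun g => if (len S g : ℝ) ≤ c * Real.sqrt n then 1 else 0)

/-- Controlled Følner pairs. -/
def Folner (S : Finset H) : Prop :=
  ∃ C : ℕ, ∀ r : ℕ, ∃ E' E : Finset H, E'.Nonempty ∧
    (∀ x ∈ E', ∀ h : H, len S h ≤ r → x * h ∈ E) ∧
    (∀ x ∈ E, ∀ y ∈ E, len S (x⁻¹ * y) ≤ C * (r + 1)) ∧ E.card ≤ C * E'.card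

/-- The data of an exponentially distorted extension: `θ : G → ℤ^k` onto, the kernel is generated
by the finite set `A`, has polynomial growth, and the word length of `G` (for the finite
generating set `T`) restricted to the kernel is at most logarithmic in the word length of `A`. -/
structure ExpExt {G : Type v} [Group G] {k : ℕ} (θ : G →* Multiplicative (Fin k → ℤ))
    (A T : Finset G) : Prop where
  surj : Function.Surjective θ
  genA : Subgroup.closure (A : Set G) = θ.ker
  genT : Subgroup.closure (T : Set G) = ⊤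
  growth : ∃ C D : ℕ, ∀ n : ℕ, {x : G | x ∈ θ.ker ∧ len A x ≤ n}.ncard ≤ C * (n + 1) ^ D
  dist : ∃ C : ℝ, ∀ x ∈ θ.ker, (len T x : ℝ) ≤ C * (1 + Real.log (1 + len A x))

/-- The `i`-th coordinate of `θ`. -/
def co {G : Type v} [Group G] {k : ℕ} (θ : G →* Multiplicative (Fin k → ℤ)) (g : G) (i : Fin k) :
    ℝ := ((Multiplicative.toAdd (θ g) i : ℤ) : ℝ)

end Vale.Agent.P188.SG
end
end
end

section

section

section

/-! P188, Theorem S: word length lemmas. -/

universe u v w

open Filter Topology Pointwise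

namespace Vale.Agent.P188.SG

section Len

variable {H : Type u} [Group H] {S : Finset H}

theorem len_le_of_list {g : H} (l : List H) (hl : ∀ a ∈ l, a ∈ S ∨ a⁻¹ ∈ S) (hp : l.prod = g) :
    len S g ≤ l.length := by
  refine Nat.sInf_le ⟨l, rfl, fun a ha => ?_, ?_⟩
  · simpa using hl a ha
  · rw [hp, inv_one, one_mul]

theorem len_list (hS : Subgroup.closure (S : Set H) = ⊤) (g : H) :
    ∃ l : List H, l.length = len S g ∧ (∀ a ∈ l, a ∈ S ∨ a⁻¹ ∈ S) ∧ l.prod = g := by
  obtain ⟨l, h1, h2, h3⟩ := wordDist_list hS 1 g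
  refine ⟨l, h1, fun a ha => ?_, ?_⟩
  · simpa only [SetLike.mem_coe] using h2 a ha
  · rw [h3, inv_one, one_mul]

theorem len_one : len S (1 : H) = 0 :=
  Nat.le_zero.mp (len_le_of_list [] (by simp only [List.not_mem_nil, IsEmpty.forall_iff, implies_true]) (by simp))

theorem len_mul_le (hS : Subgroup.closure (S : Set H) = ⊤) (g h : H) :
    len S (g * h) ≤ len S g + len S h := by
  obtain ⟨l, h1, h2, h3⟩ := len_list hS g
  obtain ⟨m, k1, k2, k3⟩ := len_list hS h
  rw [← h1, ← k1, ← List.length_append]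
  refine len_le_of_list _ (fun a ha => ?_) ?_
  · rcases List.mem_append.mp ha with ha | ha
    · exact h2 a ha
    · exact k2 a ha
  · rw [List.prod_append, h3, k3]

theorem len_inv_le (hS : Subgroup.closure (S : Set H) = ⊤) (g : H) :
    len S g⁻¹ ≤ len S g := by
  obtain ⟨l, h1, h2, h3⟩ := len_list hS g
  have h4 : ((l.map fun x => x⁻¹).reverse).length = len S g := by
    rw [List.length_reverse, List.length_map, h1]
  rw [← h4]
  refine len_le_of_list _ (fun a ha => ?_) ?_
  · rw [List.mem_reverse, List.mem_map] at ha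
    obtain ⟨b, hb, rfl⟩ := ha
    rw [inv_inv]
    exact (h2 b hb).symm
  · rw [← List.prod_inv_reverse, h3]

theorem len_inv (hS : Subgroup.closure (S : Set H) = ⊤) (g : H) : len S g⁻¹ = len S g := by
  refine le_antisymm (len_inv_le hS g) ?_
  have := len_inv_le hS g⁻¹
  rwa [inv_inv] at this

theorem len_le_one {g : H} (hg : g ∈ S) : len S g ≤ 1 :=
  len_le_of_list [g] (by simp only [List.mem_cons, List.not_mem_nil, or_false, forall_eq, hg, true_or]) (by simp)

theorem wordDist_eq_len (x y : H) : wordDist (S : Set H) x y = len S (x⁻¹ * y) := by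
  unfold len wordDist
  rw [inv_one, one_mul]

/-- induction along a geodesic word -/
theorem exists_path (hS : Subgroup.closure (S : Set H) = ⊤) (g : H) :
    ∃ p : ℕ → H, p 0 = 1 ∧ p (len S g) = g ∧ (∀ i, len S ((p i)⁻¹ * p (i + 1)) ≤ 1) ∧
      (∀ i, len S (p i) ≤ len S g) ∧
      ∀ i, p (i + 1) = p i ∨ ∃ s, (s ∈ S ∨ s⁻¹ ∈ S) ∧ p (i + 1) = p i * s := by
  obtain ⟨l, h1, h2, h3⟩ := len_list hS g
  have hstep : ∀ i, (l.take (i + 1)).prod = (l.take i).prod ∨
      ∃ s, (s ∈ S ∨ s⁻¹ ∈ S) ∧ (l.take (i + 1)).prod = (l.take i).prod * s := by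
    intro i
    by_cases hi : i < l.length
    · right
      exact ⟨l[i], h2 _ (List.getElem_mem hi), List.prod_take_succ l i hi⟩
    · left
      rw [List.take_of_length_le (by omega), List.take_of_length_le (by omega)]
  refine ⟨fun i => (l.take i).prod, by simp, ?_, fun i => ?_, fun i => ?_, hstep⟩
  · show (l.take (len S g)).prod = g
    rw [← h1, List.take_length, h3]
  · show len S (((l.take i).prod)⁻¹ * (l.take (i + 1)).prod) ≤ 1
    rcases hstep i with h | ⟨s, hs, h⟩
    · rw [h, inv_mul_cancel, len_one]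
      exact Nat.zero_le _
    · rw [h, inv_mul_cancel_left]
      exact len_le_of_list [s] (by simpa only [List.mem_cons, List.not_mem_nil, or_false, forall_eq] using hs) (by simp)
  · show len S ((l.take i).prod) ≤ len S g
    rw [← h1]
    refine (len_le_of_list (l.take i) (fun a ha => h2 a (List.mem_of_mem_take ha)) rfl).trans ?_
    rw [List.length_take]
    exact min_le_right _ _

theorem ncard_ball_le (hS : Subgroup.closure (S : Set H) = ⊤) (n : ℕ) :
    {x : H | len S x ≤ n}.Finite ∧ {x : H | len S x ≤ n}.ncard ≤ (2 * S.card + 1) ^ n := by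
  classical
  let U : Finset H := insert 1 (S ∪ S.image fun x => x⁻¹)
  have hU1 : (1 : H) ∈ U := Finset.mem_insert_self _ _
  have hUcard : U.card ≤ 2 * S.card + 1 := by
    refine (Finset.card_insert_le _ _).trans ?_
    have h1 : (S ∪ S.image fun x => x⁻¹).card ≤ S.card + (S.image fun x => x⁻¹).card :=
      Finset.card_union_le _ _
    have h2 : (S.image fun x => x⁻¹).card ≤ S.card := Finset.card_image_le
    omega
  have hmem : ∀ l : List H, (∀ a ∈ l, a ∈ S ∨ a⁻¹ ∈ S) → l.prod ∈ U ^ l.length := by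
    intro l
    induction l with
    | nil => intro _; simp only [List.length_nil, pow_zero, List.prod_nil, Finset.mem_one]
    | cons a l ih =>
      intro hl
      rw [List.prod_cons, List.length_cons, pow_succ']
      refine Finset.mul_mem_mul ?_ (ih fun b hb => hl b (List.mem_cons_of_mem _ hb))
      rcases hl a List.mem_cons_self with h | h
      · exact Finset.mem_insert_of_mem (Finset.mem_union_left _ h)
      · refine Finset.mem_insert_of_mem (Finset.mem_union_right _ ?_)
        exact Finset.mem_image.mpr ⟨a⁻¹, h, inv_inv a⟩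
  have hsub : {x : H | len S x ≤ n} ⊆ ((U ^ n : Finset H) : Set H) := by
    intro x hx
    obtain ⟨l, h1, h2, h3⟩ := len_list hS x
    have h4 := hmem l h2
    rw [h3, h1] at h4
    exact Finset.mem_coe.mpr (Finset.pow_subset_pow_right hU1 hx h4)
  refine ⟨(Finset.finite_toSet _).subset hsub, ?_⟩
  calc {x : H | len S x ≤ n}.ncard ≤ ((U ^ n : Finset H) : Set H).ncard :=
        Set.ncard_le_ncard hsub (Finset.finite_toSet _)
    _ = (U ^ n).card := Set.ncard_coe_finset _
    _ ≤ U.card ^ n := Finset.card_pow_le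
    _ ≤ (2 * S.card + 1) ^ n := Nat.pow_le_pow_left hUcard n

end Len

theorem exists_symGen {H : Type u} [Group H] (S₀ : Finset H)
    (hS₀ : Subgroup.closure (S₀ : Set H) = ⊤) :
    ∃ S : Finset H, SymGen S ∧ wordDist (S : Set H) = wordDist (S₀ : Set H) := by
  classical
  let S : Finset H := insert 1 (S₀ ∪ S₀.image fun x => x⁻¹)
  have hsub : ∀ x ∈ S₀, x ∈ S := fun x hx =>
    Finset.mem_insert_of_mem (Finset.mem_union_left _ hx)
  have hmem : ∀ x, x ∈ S ↔ x = 1 ∨ x ∈ S₀ ∨ x⁻¹ ∈ S₀ := by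
    intro x
    rw [Finset.mem_insert, Finset.mem_union, Finset.mem_image]
    constructor
    · rintro (h | h | ⟨y, hy, rfl⟩)
      · exact Or.inl h
      · exact Or.inr (Or.inl h)
      · exact Or.inr (Or.inr (by rwa [inv_inv]))
    · rintro (h | h | h)
      · exact Or.inl h
      · exact Or.inr (Or.inl h)
      · exact Or.inr (Or.inr ⟨x⁻¹, h, inv_inv x⟩)
  have hgen : Subgroup.closure (S : Set H) = ⊤ := by
    rw [eq_top_iff, ← hS₀]
    exact Subgroup.closure_mono fun x hx => hsub x hx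
  have hsym : SymGen S := by
    refine ⟨⟨1, Finset.mem_insert_self _ _⟩, fun s hs => ?_, hgen⟩
    rw [hmem] at hs ⊢
    rcases hs with h | h | h
    · exact Or.inl (by rw [h, inv_one])
    · exact Or.inr (Or.inr (by rwa [inv_inv]))
    · exact Or.inr (Or.inl h)
  have hlist : ∀ l : List H, (∀ a ∈ l, a ∈ S ∨ a⁻¹ ∈ S) →
      ∃ m : List H, m.length ≤ l.length ∧ (∀ a ∈ m, a ∈ S₀ ∨ a⁻¹ ∈ S₀) ∧ m.prod = l.prod := by
    intro l
    induction l with
    | nil => intro _; exact ⟨[], le_rfl, by simp, rfl⟩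
    | cons a l ih =>
      intro hl
      obtain ⟨m, h1, h2, h3⟩ := ih fun b hb => hl b (List.mem_cons_of_mem _ hb)
      have ha : a = 1 ∨ a ∈ S₀ ∨ a⁻¹ ∈ S₀ := by
        rcases hl a List.mem_cons_self with h | h
        · exact (hmem a).mp h
        · rcases (hmem _).mp h with h | h | h
          · exact Or.inl (inv_eq_one.mp h)
          · exact Or.inr (Or.inr h)
          · exact Or.inr (Or.inl (by rwa [inv_inv] at h))
      by_cases ha1 : a = 1
      · refine ⟨m, ?_, h2, ?_⟩
        · rw [List.length_cons]; omega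
        · rw [List.prod_cons, ha1, one_mul, h3]
      · refine ⟨a :: m, ?_, fun b hb => ?_, ?_⟩
        · rw [List.length_cons, List.length_cons]; omega
        · rcases List.mem_cons.mp hb with h | h
          · rw [h]; exact ha.resolve_left ha1
          · exact h2 b h
        · rw [List.prod_cons, List.prod_cons, h3]
  refine ⟨S, hsym, ?_⟩
  funext x y
  rw [wordDist_eq_len, wordDist_eq_len]
  refine le_antisymm ?_ ?_
  · obtain ⟨l, h1, h2, h3⟩ := len_list hS₀ (x⁻¹ * y)
    rw [← h1]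
    exact len_le_of_list l (fun a ha => (h2 a ha).imp (hsub _) (hsub _)) h3
  · obtain ⟨l, h1, h2, h3⟩ := len_list hgen (x⁻¹ * y)
    obtain ⟨m, k1, k2, k3⟩ := hlist l h2
    rw [← h1]
    exact (len_le_of_list m k2 (k3.trans h3)).trans k1

end Vale.Agent.P188.SG
end
end
end

section

section

section

/-!
P188, Theorem S: expectations of functions of the random walk.
-/

universe u v w

open Filter Topology

namespace Vale.Agent.P188.SG

variable {H : Type u} [Group H] {S : Finset H}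

theorem Ex_zero (φ : H → ℝ) : Ex S 0 φ = φ 1 := rfl

theorem Ex_succ (n : ℕ) (φ : H → ℝ) : Ex S (n + 1) φ = Ex S n (avg S φ) := rfl

theorem Walk_left (n : ℕ) (φ : H → ℝ) (h g : H) :
    ((avg S)^[n] (fun x => φ (h * x))) g = ((avg S)^[n] φ) (h * g) := by
  induction n generalizing φ with
  | zero => rfl
  | succ n ih =>
    rw [Function.iterate_succ_apply, Function.iterate_succ_apply, ← ih (avg S φ)]
    have e : avg S (fun x => φ (h * x)) = fun x => avg S φ (h * x) := by
      funext x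
      unfold avg
      simp only [mul_assoc]
    rw [e]

theorem Ex_succ' (n : ℕ) (φ : H → ℝ) :
    Ex S (n + 1) φ = (S.card : ℝ)⁻¹ * ∑ s ∈ S, Ex S n (fun g => φ (s * g)) := by
  unfold Ex
  rw [Function.iterate_succ_apply']
  have e : ∀ s : H, ((avg S)^[n] (fun g => φ (s * g))) 1 = ((avg S)^[n] φ) (1 * s) := by
    intro s
    rw [Walk_left, mul_one, one_mul]
  simp only [e]
  rfl

theorem Walk_avg_add (φ ψ : H → ℝ) :
    avg S (fun g => φ g + ψ g) = fun g => avg S φ g + avg S ψ g := by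
  funext x
  unfold avg
  rw [Finset.sum_add_distrib, mul_add]

theorem Walk_avg_smul (a : ℝ) (φ : H → ℝ) :
    avg S (fun g => a * φ g) = fun g => a * avg S φ g := by
  funext x
  unfold avg
  rw [← Finset.mul_sum]
  ring

theorem Ex_add (n : ℕ) (φ ψ : H → ℝ) :
    Ex S n (fun g => φ g + ψ g) = Ex S n φ + Ex S n ψ := by
  induction n generalizing φ ψ with
  | zero => rfl
  | succ n ih => rw [Ex_succ, Ex_succ, Ex_succ, Walk_avg_add, ih]

theorem Ex_smul (n : ℕ) (a : ℝ) (φ : H → ℝ) :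
    Ex S n (fun g => a * φ g) = a * Ex S n φ := by
  induction n generalizing φ with
  | zero => rfl
  | succ n ih => rw [Ex_succ, Ex_succ, Walk_avg_smul, ih]

theorem Walk_zero (n : ℕ) : Ex S n (fun _ => (0 : ℝ)) = 0 := by
  have h := Ex_smul (S := S) n 0 (fun _ => (0 : ℝ))
  simpa using h

theorem Ex_sum {ι : Type*} (t : Finset ι) (n : ℕ) (φ : ι → H → ℝ) :
    Ex S n (fun g => ∑ i ∈ t, φ i g) = ∑ i ∈ t, Ex S n (φ i) := by
  classical
  induction t using Finset.induction_on with
  | empty =>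
    simp only [Finset.sum_empty]
    exact Walk_zero n
  | insert i t hi ih =>
    simp only [Finset.sum_insert hi]
    rw [Ex_add, ih]

theorem Ex_const (hS : S.Nonempty) (n : ℕ) (a : ℝ) : Ex S n (fun _ => a) = a := by
  have hc : (S.card : ℝ) ≠ 0 := by
    have := Finset.card_pos.mpr hS
    positivity
  have e : avg S (fun _ => a) = fun _ => a := by
    funext x
    unfold avg
    rw [Finset.sum_const, nsmul_eq_mul, ← mul_assoc, inv_mul_cancel₀ hc, one_mul]
  induction n with
  | zero => rfl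
  | succ n ih => rw [Ex_succ, e, ih]

theorem Ex_mono (n : ℕ) {φ ψ : H → ℝ} (h : ∀ g, φ g ≤ ψ g) : Ex S n φ ≤ Ex S n ψ := by
  induction n generalizing φ ψ with
  | zero => exact h 1
  | succ n ih =>
    rw [Ex_succ, Ex_succ]
    refine ih fun g => ?_
    unfold avg
    exact mul_le_mul_of_nonneg_left (Finset.sum_le_sum fun s _ => h _) (by (clear * -; positivity))

theorem Ex_nonneg (n : ℕ) {φ : H → ℝ} (h : ∀ g, 0 ≤ φ g) : 0 ≤ Ex S n φ := by
  have h1 := Ex_mono (S := S) n (φ := fun _ => (0 : ℝ)) (ψ := φ) h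
  rwa [Walk_zero] at h1

theorem Ex_abs_le (hS : S.Nonempty) (n : ℕ) {φ : H → ℝ} {M : ℝ} (h : ∀ g, |φ g| ≤ M) :
    |Ex S n φ| ≤ M := by
  rw [abs_le]
  have h1 := Ex_mono (S := S) n (φ := φ) (ψ := fun _ => M) fun g => (abs_le.mp (h g)).2
  have h2 := Ex_mono (S := S) n (φ := fun _ => -M) (ψ := φ) fun g => (abs_le.mp (h g)).1
  rw [Ex_const hS] at h1 h2
  exact ⟨h2, h1⟩

theorem Ex_inv (hS : ∀ s ∈ S, s⁻¹ ∈ S) (n : ℕ) (φ : H → ℝ) :
    Ex S n (fun g => φ g⁻¹) = Ex S n φ := by
  induction n generalizing φ with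
  | zero =>
    rw [Ex_zero, Ex_zero, inv_one]
  | succ n ih =>
    rw [Ex_succ']
    have e1 : ∀ s : H, Ex S n (fun g => φ (s * g)⁻¹) = Ex S n (fun g => φ (g * s⁻¹)) := by
      intro s
      have h := ih (fun g => φ (g * s⁻¹))
      simp only [mul_inv_rev]
      exact h
    have e2 : ∑ s ∈ S, Ex S n (fun g => φ (g * s⁻¹)) = ∑ s ∈ S, Ex S n (fun g => φ (g * s)) :=
      Finset.sum_nbij' (fun s => s⁻¹) (fun s => s⁻¹) (fun s hs => hS s hs) (fun s hs => hS s hs)
        (fun s _ => inv_inv s) (fun s _ => inv_inv s) (fun s _ => rfl)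
    have e3 : avg S φ = fun g => (S.card : ℝ)⁻¹ * (∑ s ∈ S, φ (g * s)) := rfl
    simp only [e1]
    rw [e2, Ex_succ, e3, Ex_smul, Ex_sum]

theorem Ex_markov (n : ℕ) {φ : H → ℝ} (h : ∀ g, 0 ≤ φ g) {a : ℝ} (ha : 0 < a) :
    Ex S n (fun g => if a ≤ φ g then 1 else 0) ≤ a⁻¹ * Ex S n φ := by
  rw [← Ex_smul]
  refine Ex_mono n fun g => ?_
  by_cases hg : a ≤ φ g
  · rw [if_pos hg, inv_mul_eq_div, one_le_div ha]
    exact hg
  · rw [if_neg hg]
    exact mul_nonneg (inv_nonneg.mpr ha.le) (h g)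

end Vale.Agent.P188.SG
end
end
end

section

section

section

/-!
P188, Theorem S, geometry of exponentially distorted extensions: change of generators and the
Lipschitz property of the coordinates.
-/

universe u v w

open Filter Topology

namespace Vale.Agent.P188.SG

section

variable {G : Type v} [Group G]

theorem geo1_len_le_length {T : Finset G} (l : List G) (hl : ∀ a ∈ l, a ∈ T ∨ a⁻¹ ∈ T) :
    len T l.prod ≤ l.length := by
  unfold len wordDist
  refine Nat.sInf_le ⟨l, rfl, ?_, ?_⟩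
  · intro a ha
    exact hl a ha
  · simp

theorem geo1_exists_word {T : Finset G} (hT : Subgroup.closure (T : Set G) = ⊤) (x : G) :
    ∃ l : List G, l.length = len T x ∧ (∀ a ∈ l, a ∈ T ∨ a⁻¹ ∈ T) ∧ l.prod = x := by
  obtain ⟨l, hl, ha, hp⟩ := wordDist_list hT 1 x
  refine ⟨l, hl, fun a h => ha a h, ?_⟩
  rw [hp]
  simp only [inv_one, one_mul]

theorem geo1_len_one (T : Finset G) : len T (1 : G) = 0 := by
  have := geo1_len_le_length (T := T) ([] : List G) (by simp only [List.not_mem_nil, IsEmpty.forall_iff, implies_true])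
  simpa using this

theorem geo1_len_mul_le {T : Finset G} (hT : Subgroup.closure (T : Set G) = ⊤) (x y : G) :
    len T (x * y) ≤ len T x + len T y := by
  obtain ⟨l, hl, ha, hp⟩ := geo1_exists_word hT x
  obtain ⟨l', hl', ha', hp'⟩ := geo1_exists_word hT y
  have h := geo1_len_le_length (T := T) (l ++ l') (by
    intro a h
    rcases List.mem_append.1 h with h | h
    · exact ha a h
    · exact ha' a h)
  rw [List.prod_append, hp, hp', List.length_append, hl, hl'] at h
  exact h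

/-- A subadditive function is controlled by the word length. -/
theorem geo1_le_len {T : Finset G} (hT : Subgroup.closure (T : Set G) = ⊤) (φ : G → ℝ)
    (h1 : φ 1 ≤ 0) (hm : ∀ x y, φ (x * y) ≤ φ x + φ y) {M : ℝ}
    (hM : ∀ t : G, t ∈ T ∨ t⁻¹ ∈ T → φ t ≤ M) (x : G) : φ x ≤ M * len T x := by
  have key : ∀ l : List G, (∀ a ∈ l, a ∈ T ∨ a⁻¹ ∈ T) → φ l.prod ≤ M * l.length := by
    intro l
    induction l with
    | nil =>
      intro _
      simpa only [List.prod_nil, List.length_nil, CharP.cast_eq_zero, mul_zero] using h1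
    | cons a l ih =>
      intro h
      have h2 := ih (fun b hb => h b (List.mem_cons_of_mem _ hb))
      have h3 := hM a (h a List.mem_cons_self)
      have h4 := hm a l.prod
      rw [List.prod_cons, List.length_cons]
      push_cast
      linarith only [h2, h3, h4]
  obtain ⟨l, hl, ha, hp⟩ := geo1_exists_word hT x
  have := key l ha
  rwa [hp, hl] at this

/-- Comparison of two word lengths. -/
theorem geo1_len_comp {T : Finset G} (hT : Subgroup.closure (T : Set G) = ⊤)
    {T' : Finset G} (hT' : Subgroup.closure (T' : Set G) = ⊤) :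
    ∃ M : ℝ, 0 ≤ M ∧ ∀ x, (len T' x : ℝ) ≤ M * len T x := by
  refine ⟨∑ t ∈ T, ((len T' t : ℝ) + len T' t⁻¹), Finset.sum_nonneg fun t _ => by (clear * -; positivity),
    fun x => ?_⟩
  refine geo1_le_len hT (fun g => (len T' g : ℝ)) ?_ ?_ ?_ x
  · simp [geo1_len_one]
  · intro x y
    have := geo1_len_mul_le hT' x y
    exact_mod_cast this
  · intro t ht
    rcases ht with ht | ht
    · have h1 := Finset.single_le_sum (f := fun t => (len T' t : ℝ) + len T' t⁻¹)
        (fun i _ => by (clear * -; positivity)) ht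
      have h2 : (0 : ℝ) ≤ len T' t⁻¹ := Nat.cast_nonneg _
      linarith only [h2, h1]
    · have h1 := Finset.single_le_sum (f := fun t => (len T' t : ℝ) + len T' t⁻¹)
        (fun i _ => by (clear * -; positivity)) ht
      have h2 : (0 : ℝ) ≤ len T' t⁻¹ := Nat.cast_nonneg _
      simp only [inv_inv] at h1 ⊢
      linarith only [h1]

end

section Geo

variable {G : Type v} [Group G] {k : ℕ} {θ : G →* Multiplicative (Fin k → ℤ)} {A T : Finset G}

theorem ExpExt.change (h : ExpExt θ A T) {T' : Finset G}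
    (hT' : Subgroup.closure (T' : Set G) = ⊤) : ExpExt θ A T' := by
  refine ⟨h.surj, h.genA, hT', h.growth, ?_⟩
  obtain ⟨M, hM0, hM⟩ := geo1_len_comp h.genT hT'
  obtain ⟨C, hC⟩ := h.dist
  refine ⟨M * C, fun x hx => ?_⟩
  calc (len T' x : ℝ) ≤ M * len T x := hM x
    _ ≤ M * (C * (1 + Real.log (1 + len A x))) := mul_le_mul_of_nonneg_left (hC x hx) hM0
    _ = M * C * (1 + Real.log (1 + len A x)) := by ring

theorem geo1_co_one (i : Fin k) : co θ (1 : G) i = 0 := by
  simp [co]

theorem geo1_co_mul (x y : G) (i : Fin k) : co θ (x * y) i = co θ x i + co θ y i := by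
  simp [co]

theorem geo1_co_inv (x : G) (i : Fin k) : co θ x⁻¹ i = -co θ x i := by
  simp [co]

theorem co_lip (h : ExpExt θ A T) : ∃ C : ℝ, 0 ≤ C ∧ ∀ (x y : G) (i : Fin k),
    |co θ (x * y) i - co θ x i| ≤ C * len T y := by
  refine ⟨∑ t ∈ T, ∑ i, |co θ t i|, Finset.sum_nonneg fun t _ => Finset.sum_nonneg
    fun i _ => abs_nonneg _, fun x y i => ?_⟩
  rw [geo1_co_mul, add_sub_cancel_left]
  refine geo1_le_len h.genT (fun g => |co θ g i|) ?_ ?_ ?_ y
  · simp [geo1_co_one]
  · intro a b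
    simp only [geo1_co_mul]
    exact abs_add_le _ _
  · have key : ∀ t ∈ T, |co θ t i| ≤ ∑ t ∈ T, ∑ i, |co θ t i| := by
      intro t ht
      have h1 : |co θ t i| ≤ ∑ i, |co θ t i| :=
        Finset.single_le_sum (f := fun i => |co θ t i|) (fun i _ => abs_nonneg _)
          (Finset.mem_univ i)
      have h2 : ∑ i, |co θ t i| ≤ ∑ t ∈ T, ∑ i, |co θ t i| :=
        Finset.single_le_sum (f := fun t => ∑ i, |co θ t i|)
          (fun t _ => Finset.sum_nonneg fun i _ => abs_nonneg _) ht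
      exact h1.trans h2
    intro t ht
    rcases ht with ht | ht
    · exact key t ht
    · have := key _ ht
      rwa [geo1_co_inv, abs_neg] at this

end Geo

end Vale.Agent.P188.SG
end
end
end

section

section

section

/-! P188, Theorem S, T8: a section with control of the kernel part. -/

universe u v w

open Filter Topology

namespace Vale.Agent.P188.SG

section Geo2Words

variable {H : Type u} [Group H]

private theorem geo2_len_le_word (S : Finset H) (l : List H) (hl : ∀ a ∈ l, a ∈ S ∨ a⁻¹ ∈ S) :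
    len S l.prod ≤ l.length := by
  unfold len wordDist
  exact Nat.sInf_le ⟨l, rfl, fun a ha => by simpa only [SetLike.mem_coe] using hl a ha, by simp⟩

private theorem geo2_word_of_closure {S : Finset H} {g : H}
    (hg : g ∈ Subgroup.closure (S : Set H)) :
    ∃ l : List H, (∀ a ∈ l, a ∈ (S : Set H) ∨ a⁻¹ ∈ (S : Set H)) ∧ l.prod = g := by
  induction hg using Subgroup.closure_induction with
  | mem x hx => exact ⟨[x], by simpa only [List.mem_cons, List.not_mem_nil, or_false, SetLike.mem_coe, forall_eq] using Or.inl hx, by simp⟩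
  | one => exact ⟨[], by simp, by simp⟩
  | mul x y _ _ hx hy =>
    obtain ⟨l, h1, h2⟩ := hx
    obtain ⟨m, k1, k2⟩ := hy
    refine ⟨l ++ m, fun a ha => ?_, by rw [List.prod_append, h2, k2]⟩
    rcases List.mem_append.mp ha with h | h
    · exact h1 a h
    · exact k1 a h
  | inv x _ hx =>
    obtain ⟨l, h1, h2⟩ := hx
    refine ⟨(l.map fun a => a⁻¹).reverse, fun a ha => ?_, by
      rw [← List.prod_inv_reverse, h2]⟩
    rw [List.mem_reverse, List.mem_map] at ha
    obtain ⟨b, hb, rfl⟩ := ha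
    rw [inv_inv]
    exact (h1 b hb).symm

private theorem geo2_exists_word {S : Finset H} {g : H}
    (hg : g ∈ Subgroup.closure (S : Set H)) :
    ∃ l : List H, l.length = len S g ∧ (∀ a ∈ l, a ∈ S ∨ a⁻¹ ∈ S) ∧ l.prod = g := by
  have hne : {n : ℕ | ∃ l : List H, l.length = n ∧
      (∀ a ∈ l, a ∈ (S : Set H) ∨ a⁻¹ ∈ (S : Set H)) ∧ l.prod = (1 : H)⁻¹ * g}.Nonempty := by
    obtain ⟨l, hl, hp⟩ := geo2_word_of_closure hg
    exact ⟨l.length, l, rfl, hl, by simpa using hp⟩
  obtain ⟨l, h1, h2, h3⟩ := Nat.sInf_mem hne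
  exact ⟨l, h1, by simpa only [SetLike.mem_coe] using h2, by simpa only [inv_one, one_mul] using h3⟩

private theorem geo2_len_one (S : Finset H) : len S (1 : H) = 0 := by
  have := geo2_len_le_word S [] (by simp)
  simpa using this

private theorem geo2_len_mul {S : Finset H} {x y : H} (hx : x ∈ Subgroup.closure (S : Set H))
    (hy : y ∈ Subgroup.closure (S : Set H)) : len S (x * y) ≤ len S x + len S y := by
  obtain ⟨l, h1, h2, h3⟩ := geo2_exists_word hx
  obtain ⟨m, k1, k2, k3⟩ := geo2_exists_word hy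
  have := geo2_len_le_word S (l ++ m) (fun a ha => by
    rcases List.mem_append.mp ha with h | h
    · exact h2 a h
    · exact k2 a h)
  rw [List.prod_append, h3, k3, List.length_append, h1, k1] at this
  exact this

private theorem geo2_len_inv {S : Finset H} {x : H} (hx : x ∈ Subgroup.closure (S : Set H)) :
    len S x⁻¹ ≤ len S x := by
  obtain ⟨l, h1, h2, h3⟩ := geo2_exists_word hx
  have := geo2_len_le_word S (l.map fun a => a⁻¹).reverse (fun a ha => by
    rw [List.mem_reverse, List.mem_map] at ha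
    obtain ⟨b, hb, rfl⟩ := ha
    rw [inv_inv]
    exact (h2 b hb).symm)
  rw [← List.prod_inv_reverse, h3, List.length_reverse, List.length_map, h1] at this
  exact this

private theorem geo2_len_letter {S : Finset H} {a : H} (ha : a ∈ S ∨ a⁻¹ ∈ S) :
    len S a ≤ 1 := by
  have := geo2_len_le_word S [a] (by simpa only [List.mem_cons, List.not_mem_nil, or_false, forall_eq] using ha)
  simpa only [ge_iff_le, List.prod_cons, List.prod_nil, mul_one, List.length_cons, List.length_nil,     zero_add] using this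

private theorem geo2_len_pow {S : Finset H} {x : H} (hx : x ∈ Subgroup.closure (S : Set H))
    (n : ℕ) : len S (x ^ n) ≤ n * len S x := by
  induction n with
  | zero => simp [geo2_len_one]
  | succ n ih =>
    rw [pow_succ]
    calc len S (x ^ n * x) ≤ len S (x ^ n) + len S x :=
          geo2_len_mul (Subgroup.pow_mem _ hx n) hx
      _ ≤ n * len S x + len S x := by omega
      _ = (n + 1) * len S x := by ring

private theorem geo2_len_zpow {S : Finset H} {x : H} (hx : x ∈ Subgroup.closure (S : Set H))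
    (n : ℤ) : len S (x ^ n) ≤ n.natAbs * len S x := by
  rcases Int.natAbs_eq n with h | h
  · rw [h, zpow_natCast, Int.natAbs_natCast]
    exact geo2_len_pow hx _
  · rw [h, zpow_neg, zpow_natCast, Int.natAbs_neg, Int.natAbs_natCast]
    exact (geo2_len_inv (Subgroup.pow_mem _ hx _)).trans (geo2_len_pow hx _)

private theorem geo2_len_map {ι : Type*} {S : Finset H}
    (hS : Subgroup.closure (S : Set H) = ⊤) (L : List ι) (t : ι → H) (z : ι → ℤ) (c : ℕ)
    (hc : ∀ i, len S (t i) ≤ c) :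
    len S (L.map fun i => t i ^ z i).prod ≤ c * (L.map fun i => (z i).natAbs).sum := by
  have hm : ∀ x : H, x ∈ Subgroup.closure (S : Set H) := fun x => by rw [hS]; trivial
  induction L with
  | nil => simp only [List.map_nil, List.prod_nil, geo2_len_one, List.sum_nil, mul_zero, Std.le_refl]
  | cons i L ih =>
    rw [List.map_cons, List.prod_cons, List.map_cons, List.sum_cons]
    have h1 := geo2_len_mul (hm (t i ^ z i)) (hm (L.map fun i => t i ^ z i).prod)
    have h2 := (geo2_len_zpow (hm (t i)) (z i)).trans (Nat.mul_le_mul_left _ (hc i))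
    calc _ ≤ _ := h1
      _ ≤ (z i).natAbs * c + c * (L.map fun i => (z i).natAbs).sum := Nat.add_le_add h2 ih
      _ = _ := by ring

end Geo2Words

section Geo2

variable {G : Type v} [Group G] {k : ℕ} {θ : G →* Multiplicative (Fin k → ℤ)} {A T B : Finset G}

/-- conjugation by one letter -/
private theorem geo2_conj_letter (hA : Subgroup.closure (A : Set G) = θ.ker) {s : G} {L : ℕ}
    (hL : ∀ a ∈ A, len A (s * a * s⁻¹) ≤ L) {x : G} (hx : θ x = 1) :
    len A (s * x * s⁻¹) ≤ L * len A x := by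
  have hm : ∀ y : G, θ y = 1 → y ∈ Subgroup.closure (A : Set G) := fun y hy => by
    rw [hA]; exact hy
  have hm' : ∀ y : G, y ∈ Subgroup.closure (A : Set G) → θ y = 1 := fun y hy => by
    rw [hA] at hy; exact hy
  have hc : ∀ y : G, θ y = 1 → θ (s * y * s⁻¹) = 1 := fun y hy => by simp only [map_mul, hy, mul_one, map_inv, mul_inv_cancel]
  obtain ⟨l, h1, h2, h3⟩ := geo2_exists_word (hm x hx)
  have key : ∀ l : List G, (∀ a ∈ l, a ∈ A ∨ a⁻¹ ∈ A) →
      θ l.prod = 1 ∧ len A (s * l.prod * s⁻¹) ≤ L * l.length := by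
    intro l
    induction l with
    | nil => intro _; simp only [List.prod_nil, map_one, mul_one, mul_inv_cancel, geo2_len_one, List.length_nil, mul_zero, Std.le_refl, and_self]
    | cons a l ih =>
      intro h
      obtain ⟨i1, i2⟩ := ih fun b hb => h b (List.mem_cons_of_mem _ hb)
      have ha := h a List.mem_cons_self
      have haθ : θ a = 1 := by
        rcases ha with ha | ha
        · exact hm' a (Subgroup.subset_closure ha)
        · have := hm' _ (Subgroup.subset_closure (show a⁻¹ ∈ (A : Set G) from ha))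
          simpa only [map_inv, inv_eq_one] using this
      have hal : len A (s * a * s⁻¹) ≤ L := by
        rcases ha with ha | ha
        · exact hL a ha
        · have e : s * a * s⁻¹ = (s * a⁻¹ * s⁻¹)⁻¹ := by group
          rw [e]
          exact (geo2_len_inv (hm _ (hc _ (by simp only [map_inv, haθ, inv_one])))).trans (hL _ ha)
      refine ⟨by rw [List.prod_cons, map_mul, haθ, i1, mul_one], ?_⟩
      have e : s * (a :: l).prod * s⁻¹ = (s * a * s⁻¹) * (s * l.prod * s⁻¹) := by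
        rw [List.prod_cons]; group
      rw [e, List.length_cons]
      calc _ ≤ len A (s * a * s⁻¹) + len A (s * l.prod * s⁻¹) :=
            geo2_len_mul (hm _ (hc _ haθ)) (hm _ (hc _ i1))
        _ ≤ L + L * l.length := Nat.add_le_add hal i2
        _ = L * (l.length + 1) := by ring
  have := (key l h2).2
  rw [h3, h1] at this
  exact this

/-- conjugation -/
private theorem geo2_conj (hA : Subgroup.closure (A : Set G) = θ.ker)
    (hB : Subgroup.closure (B : Set G) = ⊤) :
    ∃ L : ℕ, 1 ≤ L ∧ ∀ g x : G, θ x = 1 → len A (g * x * g⁻¹) ≤ L ^ len B g * len A x := by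
  classical
  set Bs : Finset G := B ∪ B.image fun b => b⁻¹ with hBs
  set L : ℕ := (Bs.sup fun s => A.sup fun a => len A (s * a * s⁻¹)) + 1 with hLdef
  have hletter : ∀ s, (s ∈ B ∨ s⁻¹ ∈ B) → s ∈ Bs := by
    intro s hs
    rw [hBs, Finset.mem_union, Finset.mem_image]
    rcases hs with hs | hs
    · exact Or.inl hs
    · exact Or.inr ⟨s⁻¹, hs, by simp⟩
  have hL : ∀ s, (s ∈ B ∨ s⁻¹ ∈ B) → ∀ a ∈ A, len A (s * a * s⁻¹) ≤ L := by
    intro s hs a ha
    have h1 : len A (s * a * s⁻¹) ≤ A.sup fun a => len A (s * a * s⁻¹) :=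
      Finset.le_sup (f := fun a => len A (s * a * s⁻¹)) ha
    have h2 : (A.sup fun a => len A (s * a * s⁻¹)) ≤
        Bs.sup fun s => A.sup fun a => len A (s * a * s⁻¹) :=
      Finset.le_sup (f := fun s => A.sup fun a => len A (s * a * s⁻¹)) (hletter s hs)
    omega
  refine ⟨L, by omega, fun g x hx => ?_⟩
  have hg : g ∈ Subgroup.closure (B : Set G) := by rw [hB]; trivial
  obtain ⟨l, h1, h2, h3⟩ := geo2_exists_word hg
  have key : ∀ l : List G, (∀ a ∈ l, a ∈ B ∨ a⁻¹ ∈ B) →
      len A (l.prod * x * l.prod⁻¹) ≤ L ^ l.length * len A x := by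
    intro l
    induction l with
    | nil => intro _; simp
    | cons a l ih =>
      intro h
      have ih' := ih fun b hb => h b (List.mem_cons_of_mem _ hb)
      have e : (a :: l).prod * x * (a :: l).prod⁻¹ = a * (l.prod * x * l.prod⁻¹) * a⁻¹ := by
        rw [List.prod_cons]; group
      rw [e, List.length_cons]
      calc _ ≤ L * len A (l.prod * x * l.prod⁻¹) :=
            geo2_conj_letter hA (hL a (h a List.mem_cons_self)) (by simp only [map_mul, hx, mul_one, map_inv, mul_inv_cancel])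
        _ ≤ L * (L ^ l.length * len A x) := Nat.mul_le_mul_left _ ih'
        _ = L ^ (l.length + 1) * len A x := by ring
  have := key l h2
  rw [h3, h1] at this
  exact this

/-- commutators with a letter -/
private theorem geo2_comm (hA : Subgroup.closure (A : Set G) = θ.ker)
    (hB : Subgroup.closure (B : Set G) = ⊤) {L : ℕ} (hL1 : 1 ≤ L)
    (hL : ∀ g x : G, θ x = 1 → len A (g * x * g⁻¹) ≤ L ^ len B g * len A x) :
    ∃ c : ℕ, ∀ g s : G, (s ∈ B ∨ s⁻¹ ∈ B) →
      len A (s * g * s⁻¹ * g⁻¹) ≤ c * len B g * L ^ len B g := by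
  classical
  set Bs : Finset G := B ∪ B.image fun b => b⁻¹ with hBs
  set c : ℕ := Bs.sup fun s => Bs.sup fun s' => len A (s * s' * s⁻¹ * s'⁻¹) with hc
  have hletter : ∀ s, (s ∈ B ∨ s⁻¹ ∈ B) → s ∈ Bs := by
    intro s hs
    rw [hBs, Finset.mem_union, Finset.mem_image]
    rcases hs with hs | hs
    · exact Or.inl hs
    · exact Or.inr ⟨s⁻¹, hs, by simp⟩
  have hc' : ∀ s s', (s ∈ B ∨ s⁻¹ ∈ B) → (s' ∈ B ∨ s'⁻¹ ∈ B) →
      len A (s * s' * s⁻¹ * s'⁻¹) ≤ c := by
    intro s s' hs hs'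
    have h1 : len A (s * s' * s⁻¹ * s'⁻¹) ≤ Bs.sup fun s' => len A (s * s' * s⁻¹ * s'⁻¹) :=
      Finset.le_sup (f := fun s' => len A (s * s' * s⁻¹ * s'⁻¹)) (hletter s' hs')
    have h2 : (Bs.sup fun s' => len A (s * s' * s⁻¹ * s'⁻¹)) ≤ c :=
      Finset.le_sup (f := fun s => Bs.sup fun s' => len A (s * s' * s⁻¹ * s'⁻¹)) (hletter s hs)
    exact h1.trans h2
  have hm : ∀ y : G, θ y = 1 → y ∈ Subgroup.closure (A : Set G) := fun y hy => by
    rw [hA]; exact hy
  have hcomm : ∀ a b : G, θ (a * b * a⁻¹ * b⁻¹) = 1 := by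
    intro a b
    simp only [map_mul, map_inv]
    rw [mul_comm (θ a) (θ b)]
    group
  refine ⟨c, fun g s hs => ?_⟩
  have hg : g ∈ Subgroup.closure (B : Set G) := by rw [hB]; trivial
  obtain ⟨l, h1, h2, h3⟩ := geo2_exists_word hg
  have key : ∀ l : List G, (∀ a ∈ l, a ∈ B ∨ a⁻¹ ∈ B) →
      len A (s * l.prod * s⁻¹ * l.prod⁻¹) ≤ c * l.length * L ^ l.length := by
    intro l
    induction l with
    | nil => intro _; simp [geo2_len_one]
    | cons a l ih =>
      intro h
      have ih' := ih fun b hb => h b (List.mem_cons_of_mem _ hb)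
      have ha := h a List.mem_cons_self
      have e : s * (a :: l).prod * s⁻¹ * (a :: l).prod⁻¹ =
          (s * a * s⁻¹ * a⁻¹) * (a * (s * l.prod * s⁻¹ * l.prod⁻¹) * a⁻¹) := by
        rw [List.prod_cons]; group
      rw [e, List.length_cons]
      have hb1 : L ^ len B a ≤ L := by
        calc L ^ len B a ≤ L ^ 1 := Nat.pow_le_pow_right hL1 (geo2_len_letter ha)
          _ = L := pow_one L
      have h5 : 1 ≤ L ^ (l.length + 1) := Nat.one_le_pow _ _ hL1
      calc _ ≤ len A (s * a * s⁻¹ * a⁻¹) + len A (a * (s * l.prod * s⁻¹ * l.prod⁻¹) * a⁻¹) :=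
            geo2_len_mul (hm _ (hcomm _ _)) (hm _ (by
              rw [map_mul, map_mul, hcomm]; simp only [mul_one, map_inv, mul_inv_cancel]))
        _ ≤ c + L * (c * l.length * L ^ l.length) := by
            refine Nat.add_le_add (hc' s a hs ha) ((hL a _ (hcomm _ _)).trans ?_)
            exact Nat.mul_le_mul hb1 ih'
        _ ≤ c * L ^ (l.length + 1) + L * (c * l.length * L ^ l.length) :=
            Nat.add_le_add_right (Nat.le_mul_of_pos_right c h5) _
        _ = c * (l.length + 1) * L ^ (l.length + 1) := by ring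
  have := key l h2
  rw [h3, h1] at this
  exact this

/-- change of the generating set -/
private theorem geo2_len_change (hT : Subgroup.closure (T : Set G) = ⊤)
    (hB : Subgroup.closure (B : Set G) = ⊤) :
    ∃ c : ℕ, ∀ g : G, len B g ≤ c * len T g := by
  have hm : ∀ x : G, x ∈ Subgroup.closure (B : Set G) := fun x => by rw [hB]; trivial
  refine ⟨T.sup fun t => len B t, fun g => ?_⟩
  set c : ℕ := T.sup fun t => len B t with hc
  have hg : g ∈ Subgroup.closure (T : Set G) := by rw [hT]; trivial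
  obtain ⟨l, h1, h2, h3⟩ := geo2_exists_word hg
  have key : ∀ l : List G, (∀ a ∈ l, a ∈ T ∨ a⁻¹ ∈ T) → len B l.prod ≤ c * l.length := by
    intro l
    induction l with
    | nil => intro _; simp [geo2_len_one]
    | cons a l ih =>
      intro h
      have ih' := ih fun b hb => h b (List.mem_cons_of_mem _ hb)
      have ha : len B a ≤ c := by
        rcases h a List.mem_cons_self with ha | ha
        · exact Finset.le_sup (f := fun t => len B t) ha
        · have h1 : len B a⁻¹ ≤ c := Finset.le_sup (f := fun t => len B t) ha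
          have h2 := geo2_len_inv (hm a⁻¹)
          rw [inv_inv] at h2
          exact h2.trans h1
      rw [List.prod_cons, List.length_cons]
      calc _ ≤ len B a + len B l.prod := geo2_len_mul (hm _) (hm _)
        _ ≤ c + c * l.length := Nat.add_le_add ha ih'
        _ = c * (l.length + 1) := by ring
  have := key l h2
  rw [h3, h1] at this
  exact this

/-- the section -/
private noncomputable def geo2_sec (t : Fin k → G) (z : Fin k → ℤ) : G :=
  ((List.finRange k).map fun i => t i ^ z i).prod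

/-- the size of `z` -/
private def geo2_nz (z : Fin k → ℤ) : ℕ := ((List.finRange k).map fun i => (z i).natAbs).sum

private theorem geo2_nz_eq (z : Fin k → ℤ) : geo2_nz z = ∑ i, (z i).natAbs := by
  unfold geo2_nz
  rw [Fin.sum_univ_def]

private theorem geo2_theta {t : Fin k → G}
    (ht : ∀ i, θ (t i) = Multiplicative.ofAdd (Pi.single i 1)) (z : Fin k → ℤ) :
    θ (geo2_sec t z) = Multiplicative.ofAdd z := by
  unfold geo2_sec
  rw [map_list_prod, List.map_map, ← Fin.prod_univ_def]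
  apply Multiplicative.toAdd.injective
  rw [toAdd_prod, toAdd_ofAdd]
  simp only [Function.comp_apply, map_zpow, ht, toAdd_zpow, toAdd_ofAdd]
  funext j
  rw [Finset.sum_apply]
  simp only [Pi.smul_apply, Pi.single_apply, Int.zsmul_eq_mul, mul_ite, mul_one, mul_zero, Finset.sum_ite_eq, Finset.mem_univ, ↓reduceIte]

private theorem geo2_theta_letter {t : Fin k → G}
    (ht : ∀ i, θ (t i) = Multiplicative.ofAdd (Pi.single i 1)) {i : Fin k} (e : ℤ) :
    Multiplicative.toAdd (θ (t i ^ e)) = Pi.single i e := by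
  rw [map_zpow, ht, toAdd_zpow, toAdd_ofAdd]
  funext j
  by_cases h : j = i
  · subst h; simp
  · simp [h]

private theorem geo2_split (t : Fin k → G) (z : Fin k → ℤ) (i : Fin k) (e : ℤ) :
    ∃ L1 L2 : List (Fin k),
      geo2_nz z = (L1.map fun j => (z j).natAbs).sum + (z i).natAbs +
        (L2.map fun j => (z j).natAbs).sum ∧
      geo2_sec t z = (L1.map fun j => t j ^ z j).prod * t i ^ z i *
        (L2.map fun j => t j ^ z j).prod ∧
      geo2_sec t (z + Pi.single i e) = (L1.map fun j => t j ^ z j).prod * t i ^ z i * t i ^ e *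
        (L2.map fun j => t j ^ z j).prod := by
  obtain ⟨L1, L2, hL⟩ := List.append_of_mem (List.mem_finRange i)
  have hnd : (L1 ++ i :: L2).Nodup := by rw [← hL]; exact List.nodup_finRange k
  have hi1 : i ∉ L1 := by
    intro h
    have := (List.nodup_append.mp hnd).2.2 i h i List.mem_cons_self
    exact this rfl
  have hi2 : i ∉ L2 := (List.nodup_cons.mp (List.nodup_append.mp hnd).2.1).1
  have hz : ∀ M : List (Fin k), i ∉ M →
      (M.map fun j => t j ^ (z + Pi.single i e : Fin k → ℤ) j) = M.map fun j => t j ^ z j := by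
    intro M hM
    refine List.map_congr_left fun j hj => ?_
    have hji : j ≠ i := fun h => hM (h ▸ hj)
    simp [hji]
  refine ⟨L1, L2, ?_, ?_, ?_⟩
  · unfold geo2_nz
    rw [hL, List.map_append, List.sum_append, List.map_cons, List.sum_cons, ← add_assoc]
  · unfold geo2_sec
    rw [hL, List.map_append, List.prod_append, List.map_cons, List.prod_cons, ← mul_assoc]
  · unfold geo2_sec
    rw [hL, List.map_append, List.prod_append, List.map_cons, List.prod_cons, hz L1 hi1,
      hz L2 hi2]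
    simp only [Pi.add_apply, Pi.single_eq_same, zpow_add]
    group

/-- the letters -/
private theorem geo2_letter (hA : Subgroup.closure (A : Set G) = θ.ker)
    (hB : Subgroup.closure (B : Set G) = ⊤) {t : Fin k → G}
    (ht : ∀ i, θ (t i) = Multiplicative.ofAdd (Pi.single i 1)) (htB : ∀ i, t i ∈ B)
    (hBt : ∀ b ∈ B, b ∈ A ∨ ∃ i, b = t i) {L : ℕ} (hL1 : 1 ≤ L)
    (hL : ∀ g x : G, θ x = 1 → len A (g * x * g⁻¹) ≤ L ^ len B g * len A x) {c : ℕ}
    (hc : ∀ g s : G, (s ∈ B ∨ s⁻¹ ∈ B) →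
      len A (s * g * s⁻¹ * g⁻¹) ≤ c * len B g * L ^ len B g)
    (z : Fin k → ℤ) (s : G) (hs : s ∈ B ∨ s⁻¹ ∈ B) :
    len A (geo2_sec t z * s * (geo2_sec t (z + Multiplicative.toAdd (θ s)))⁻¹) ≤
        (c + 1) * (geo2_nz z + 1) * L ^ (2 * geo2_nz z) ∧
      geo2_nz (z + Multiplicative.toAdd (θ s)) ≤ geo2_nz z + 1 := by
  have hmA : ∀ y : G, θ y = 1 → y ∈ Subgroup.closure (A : Set G) := fun y hy => by
    rw [hA]; exact hy
  have hmA' : ∀ y : G, y ∈ Subgroup.closure (A : Set G) → θ y = 1 := fun y hy => by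
    rw [hA] at hy; exact hy
  have hlt : ∀ i, len B (t i) ≤ 1 := fun i => geo2_len_letter (Or.inl (htB i))
  have hpow : ∀ m, m ≤ geo2_nz z → L ^ m ≤ L ^ geo2_nz z := fun m hm =>
    Nat.pow_le_pow_right hL1 hm
  have hpow1 : 1 ≤ L ^ geo2_nz z := Nat.one_le_pow _ _ hL1
  have h2 : L ^ (2 * geo2_nz z) = L ^ geo2_nz z * L ^ geo2_nz z := by rw [two_mul, pow_add]
  -- the kernel letters
  have hker : θ s = 1 → len A s ≤ 1 → 
      len A (geo2_sec t z * s * (geo2_sec t (z + Multiplicative.toAdd (θ s)))⁻¹) ≤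
        (c + 1) * (geo2_nz z + 1) * L ^ (2 * geo2_nz z) ∧
      geo2_nz (z + Multiplicative.toAdd (θ s)) ≤ geo2_nz z + 1 := by
    intro h1 hl
    rw [h1, toAdd_one, add_zero]
    refine ⟨?_, Nat.le_succ _⟩
    have hsz : len B (geo2_sec t z) ≤ geo2_nz z := by
      have := geo2_len_map hB (List.finRange k) t z 1 hlt
      rw [one_mul] at this
      exact this
    calc _ ≤ L ^ len B (geo2_sec t z) * len A s := hL _ _ h1
      _ ≤ L ^ geo2_nz z * 1 := Nat.mul_le_mul (hpow _ hsz) hl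
      _ ≤ L ^ geo2_nz z * L ^ geo2_nz z := Nat.mul_le_mul_left _ hpow1
      _ = 1 * 1 * L ^ (2 * geo2_nz z) := by rw [h2]; ring
      _ ≤ (c + 1) * (geo2_nz z + 1) * L ^ (2 * geo2_nz z) := by
          refine Nat.mul_le_mul_right _ (Nat.mul_le_mul ?_ ?_) <;> omega
  -- the other letters
  have hoth : ∀ (i : Fin k) (e : ℤ), e.natAbs ≤ 1 → s = t i ^ e →
      len A (geo2_sec t z * s * (geo2_sec t (z + Multiplicative.toAdd (θ s)))⁻¹) ≤
        (c + 1) * (geo2_nz z + 1) * L ^ (2 * geo2_nz z) ∧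
      geo2_nz (z + Multiplicative.toAdd (θ s)) ≤ geo2_nz z + 1 := by
    intro i e he hse
    have hth : Multiplicative.toAdd (θ s) = Pi.single i e := by
      rw [hse]; exact geo2_theta_letter ht e
    rw [hth]
    constructor
    · obtain ⟨L1, L2, hn, hz1, hz2⟩ := geo2_split t z i e
      set P : G := (L1.map fun j => t j ^ z j).prod * t i ^ z i with hP
      set R : G := (L2.map fun j => t j ^ z j).prod with hR
      have hm : ∀ x : G, x ∈ Subgroup.closure (B : Set G) := fun x => by rw [hB]; trivial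
      have hlR : len B R ≤ (L2.map fun j => (z j).natAbs).sum := by
        have := geo2_len_map hB L2 t z 1 hlt
        rw [one_mul] at this
        exact this
      have hlP : len B P ≤ (L1.map fun j => (z j).natAbs).sum + (z i).natAbs := by
        have h3 := geo2_len_map hB L1 t z 1 hlt
        rw [one_mul] at h3
        have h4 : len B (t i ^ z i) ≤ (z i).natAbs := by
          have h5 := geo2_len_zpow (hm (t i)) (z i)
          have h6 := Nat.mul_le_mul_left (z i).natAbs (hlt i)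
          omega
        exact (geo2_len_mul (hm _) (hm _)).trans (Nat.add_le_add h3 h4)
      rw [hz1, hz2, ← hse]
      have e1 : P * R * s * (P * s * R)⁻¹ = P * (s * R * s⁻¹ * R⁻¹)⁻¹ * P⁻¹ := by group
      have hcm : θ (s * R * s⁻¹ * R⁻¹) = 1 := by
        simp only [map_mul, map_inv]
        rw [mul_comm (θ s) (θ R)]
        group
      rw [e1]
      calc _ ≤ L ^ len B P * len A (s * R * s⁻¹ * R⁻¹)⁻¹ := hL _ _ (by rw [map_inv, hcm, inv_one])
        _ ≤ L ^ len B P * (c * len B R * L ^ len B R) :=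
            Nat.mul_le_mul_left _ ((geo2_len_inv (hmA _ hcm)).trans (hc R s hs))
        _ ≤ L ^ geo2_nz z * ((c + 1) * (geo2_nz z + 1) * L ^ geo2_nz z) := by
            refine Nat.mul_le_mul (hpow _ (by omega)) ?_
            refine Nat.mul_le_mul (Nat.mul_le_mul (by omega) (by omega)) (hpow _ (by omega))
        _ = (c + 1) * (geo2_nz z + 1) * L ^ (2 * geo2_nz z) := by rw [h2]; ring
    · rw [geo2_nz_eq, geo2_nz_eq]
      have h7 : ∀ j, ((z + Pi.single i e : Fin k → ℤ) j).natAbs ≤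
          (z j).natAbs + if j = i then 1 else 0 := by
        intro j
        by_cases h : j = i
        · subst h
          simp only [Pi.add_apply, Pi.single_eq_same, if_true]
          (clear * - he; omega)
        · simp [h]
      calc _ ≤ ∑ j, ((z j).natAbs + if j = i then 1 else 0) := Finset.sum_le_sum fun j _ => h7 j
        _ = _ := by rw [Finset.sum_add_distrib]; simp only [Finset.sum_ite_eq', Finset.mem_univ, ↓reduceIte, Nat.add_left_cancel_iff]
  rcases hs with hs' | hs'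
  · rcases hBt s hs' with ha | ⟨i, hi⟩
    · exact hker (hmA' _ (Subgroup.subset_closure ha)) (geo2_len_letter (Or.inl ha))
    · exact hoth i 1 (by simp) (by rw [hi, zpow_one])
  · rcases hBt s⁻¹ hs' with ha | ⟨i, hi⟩
    · refine hker ?_ (geo2_len_letter (Or.inr ha))
      have := hmA' _ (Subgroup.subset_closure (show s⁻¹ ∈ (A : Set G) from ha))
      simpa only [map_inv, inv_eq_one] using this
    · refine hoth i (-1) (by simp only [Int.reduceNeg, IsUnit.neg_iff, isUnit_one, Int.natAbs_of_isUnit, Std.le_refl]) ?_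
      rw [zpow_neg, zpow_one, ← hi, inv_inv]

/-- words -/
private theorem geo2_words (hA : Subgroup.closure (A : Set G) = θ.ker)
    (hB : Subgroup.closure (B : Set G) = ⊤) {t : Fin k → G}
    (ht : ∀ i, θ (t i) = Multiplicative.ofAdd (Pi.single i 1)) (htB : ∀ i, t i ∈ B)
    (hBt : ∀ b ∈ B, b ∈ A ∨ ∃ i, b = t i) {L : ℕ} (hL1 : 1 ≤ L)
    (hL : ∀ g x : G, θ x = 1 → len A (g * x * g⁻¹) ≤ L ^ len B g * len A x) {c : ℕ}
    (hc : ∀ g s : G, (s ∈ B ∨ s⁻¹ ∈ B) →
      len A (s * g * s⁻¹ * g⁻¹) ≤ c * len B g * L ^ len B g)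
    (z : Fin k → ℤ) (g : G) :
    len A (geo2_sec t z * g * (geo2_sec t (z + Multiplicative.toAdd (θ g)))⁻¹) ≤
      len B g * ((c + 1) * (geo2_nz z + len B g + 1) * L ^ (2 * (geo2_nz z + len B g))) := by
  have hmA : ∀ y : G, θ y = 1 → y ∈ Subgroup.closure (A : Set G) := fun y hy => by
    rw [hA]; exact hy
  have hg : g ∈ Subgroup.closure (B : Set G) := by rw [hB]; trivial
  obtain ⟨l, h1, h2, h3⟩ := geo2_exists_word hg
  have hD : ∀ (z : Fin k → ℤ) (g : G),
      θ (geo2_sec t z * g * (geo2_sec t (z + Multiplicative.toAdd (θ g)))⁻¹) = 1 := by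
    intro z g
    rw [map_mul, map_mul, map_inv, geo2_theta ht, geo2_theta ht, ofAdd_add, ofAdd_toAdd]
    group
  have hF : ∀ m n : ℕ, m ≤ n → (c + 1) * (m + 1) * L ^ (2 * m) ≤
      (c + 1) * (n + 1) * L ^ (2 * n) := by
    intro m n hmn
    exact Nat.mul_le_mul (Nat.mul_le_mul_left _ (by omega)) (Nat.pow_le_pow_right hL1 (by omega))
  have key : ∀ l : List G, (∀ a ∈ l, a ∈ B ∨ a⁻¹ ∈ B) → ∀ z : Fin k → ℤ,
      len A (geo2_sec t z * l.prod * (geo2_sec t (z + Multiplicative.toAdd (θ l.prod)))⁻¹) ≤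
      l.length * ((c + 1) * (geo2_nz z + l.length + 1) * L ^ (2 * (geo2_nz z + l.length))) := by
    intro l
    induction l with
    | nil =>
      intro _ z
      simp [geo2_len_one]
    | cons a l ih =>
      intro h z
      have ih' := ih (fun b hb => h b (List.mem_cons_of_mem _ hb))
        (z + Multiplicative.toAdd (θ a))
      obtain ⟨k1, k2⟩ := geo2_letter hA hB ht htB hBt hL1 hL hc z a (h a List.mem_cons_self)
      have e : geo2_sec t z * (a :: l).prod *
          (geo2_sec t (z + Multiplicative.toAdd (θ (a :: l).prod)))⁻¹ =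
          (geo2_sec t z * a * (geo2_sec t (z + Multiplicative.toAdd (θ a)))⁻¹) *
          (geo2_sec t (z + Multiplicative.toAdd (θ a)) * l.prod *
            (geo2_sec t (z + Multiplicative.toAdd (θ a) + Multiplicative.toAdd (θ l.prod)))⁻¹) := by
        rw [List.prod_cons, map_mul, toAdd_mul, ← add_assoc]
        group
      rw [e, List.length_cons]
      calc _ ≤ len A (geo2_sec t z * a * (geo2_sec t (z + Multiplicative.toAdd (θ a)))⁻¹) +
            len A (geo2_sec t (z + Multiplicative.toAdd (θ a)) * l.prod *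
            (geo2_sec t (z + Multiplicative.toAdd (θ a) + Multiplicative.toAdd (θ l.prod)))⁻¹) :=
            geo2_len_mul (hmA _ (hD _ _)) (hmA _ (hD _ _))
        _ ≤ (c + 1) * (geo2_nz z + (l.length + 1) + 1) * L ^ (2 * (geo2_nz z + (l.length + 1))) +
            l.length * ((c + 1) * (geo2_nz z + (l.length + 1) + 1) *
              L ^ (2 * (geo2_nz z + (l.length + 1)))) := by
            refine Nat.add_le_add (k1.trans (hF _ _ (by omega))) (ih'.trans ?_)
            exact Nat.mul_le_mul_left _ (hF _ _ (by omega))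
        _ = _ := by ring
  have := key l h2 z
  rw [h3, h1] at this
  exact this

end Geo2

section Main

variable {G : Type v} [Group G] {k : ℕ} {θ : G →* Multiplicative (Fin k → ℤ)} {A T : Finset G}

private theorem geo2_real (n c m L N c' : ℕ) (h : n ≤ c' * N) :
    ((n * ((c + 1) * (m + n + 1) * L ^ (2 * (m + n))) : ℕ) : ℝ) ≤
      Real.exp (((c : ℝ) + (2 + 2 * L) * (1 + c')) * (1 + m + N)) := by
  have h1 : (n : ℝ) ≤ Real.exp n := by
    have := Real.add_one_le_exp (n : ℝ)
    linarith only [this]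
  have h2 : (c : ℝ) + 1 ≤ Real.exp c := Real.add_one_le_exp _
  have h3 : (m : ℝ) + n + 1 ≤ Real.exp (m + n) := Real.add_one_le_exp _
  have h4 : (L : ℝ) ≤ Real.exp L := by
    have := Real.add_one_le_exp (L : ℝ)
    linarith only [this]
  have h5 : (L : ℝ) ^ (2 * (m + n)) ≤ Real.exp ((2 * (m + n) : ℕ) * L) := by
    rw [Real.exp_nat_mul]
    exact pow_le_pow_left₀ (Nat.cast_nonneg _) h4 _
  have hn : (n : ℝ) ≤ c' * N := by exact_mod_cast h
  push_cast at h5 ⊢
  calc (n : ℝ) * (((c : ℝ) + 1) * (m + n + 1) * (L : ℝ) ^ (2 * (m + n)))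
      ≤ Real.exp n * (Real.exp c * Real.exp (m + n) * Real.exp (2 * (m + n) * L)) := by gcongr
    _ = Real.exp (n + (c + (m + n) + 2 * (m + n) * L)) := by
        rw [← Real.exp_add, ← Real.exp_add, ← Real.exp_add]
    _ ≤ _ := by
        apply Real.exp_le_exp.mpr
        have hc0 : (0 : ℝ) ≤ c := Nat.cast_nonneg _
        have hm0 : (0 : ℝ) ≤ m := Nat.cast_nonneg _
        have hL0 : (0 : ℝ) ≤ L := Nat.cast_nonneg _
        have hN0 : (0 : ℝ) ≤ N := Nat.cast_nonneg _
        have hn0 : (0 : ℝ) ≤ n := Nat.cast_nonneg _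
        have hc'0 : (0 : ℝ) ≤ c' := Nat.cast_nonneg _
        have e1 : (n : ℝ) + (c + (m + n) + 2 * (m + n) * L) ≤ c + (2 + 2 * L) * (m + n) := by
          linarith only []
        have e2 : (m : ℝ) + n ≤ (1 + c') * (1 + m + N) := by
          linarith only [mul_nonneg hc'0 hm0, hN0, hn]
        have e3 : (2 + 2 * (L : ℝ)) * (m + n) ≤ (2 + 2 * L) * ((1 + c') * (1 + m + N)) :=
          mul_le_mul_of_nonneg_left e2 (by (clear * -; positivity))
        have e4 : (c : ℝ) ≤ c * (1 + m + N) := by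
          linarith only [mul_nonneg hc0 hN0, mul_nonneg hc0 hm0]
        calc _ ≤ (c : ℝ) + (2 + 2 * L) * (m + n) := e1
          _ ≤ c * (1 + m + N) + (2 + 2 * L) * ((1 + c') * (1 + m + N)) := add_le_add e4 e3
          _ = _ := by ring

/-- a section with control of the kernel part -/
theorem exists_section (h : ExpExt θ A T) : ∃ (σ : (Fin k → ℤ) → G) (C : ℝ), 0 ≤ C ∧ σ 0 = 1 ∧
    (∀ z, Multiplicative.toAdd (θ (σ z)) = z) ∧
    (∀ z, (len T (σ z) : ℝ) ≤ C * ∑ i, |(z i : ℝ)|) ∧
    ∀ (z : Fin k → ℤ) (g : G),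
      (len A (σ z * g * (σ (z + Multiplicative.toAdd (θ g)))⁻¹) : ℝ) ≤
        Real.exp (C * (1 + ∑ i, |(z i : ℝ)| + len T g)) := by
  classical
  choose t ht using fun i : Fin k => h.surj (Multiplicative.ofAdd (Pi.single i 1))
  set B : Finset G := A ∪ Finset.univ.image t with hBdef
  have htB : ∀ i, t i ∈ B := fun i => by
    rw [hBdef]
    exact Finset.mem_union_right _ (Finset.mem_image_of_mem _ (Finset.mem_univ i))
  have hBt : ∀ b ∈ B, b ∈ A ∨ ∃ i, b = t i := by
    intro b hb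
    rw [hBdef, Finset.mem_union, Finset.mem_image] at hb
    rcases hb with hb | ⟨i, -, hi⟩
    · exact Or.inl hb
    · exact Or.inr ⟨i, hi.symm⟩
  have hAB : Subgroup.closure (A : Set G) ≤ Subgroup.closure (B : Set G) :=
    Subgroup.closure_mono (by rw [hBdef]; exact_mod_cast Finset.subset_union_left)
  have hsecB : ∀ z, geo2_sec t z ∈ Subgroup.closure (B : Set G) := by
    intro z
    unfold geo2_sec
    refine Subgroup.list_prod_mem _ fun x hx => ?_
    rw [List.mem_map] at hx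
    obtain ⟨i, -, rfl⟩ := hx
    exact Subgroup.zpow_mem _ (Subgroup.subset_closure (htB i)) _
  have hB : Subgroup.closure (B : Set G) = ⊤ := by
    rw [eq_top_iff]
    intro g _
    have h1 : g * (geo2_sec t (Multiplicative.toAdd (θ g)))⁻¹ ∈ θ.ker := by
      rw [MonoidHom.mem_ker, map_mul, map_inv, geo2_theta ht, ofAdd_toAdd, mul_inv_cancel]
    rw [← h.genA] at h1
    have h2 := Subgroup.mul_mem _ (hAB h1) (hsecB (Multiplicative.toAdd (θ g)))
    simpa only [inv_mul_cancel_right] using h2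
  obtain ⟨L, hL1, hL⟩ := geo2_conj h.genA hB
  obtain ⟨c, hc⟩ := geo2_comm h.genA hB hL1 hL
  obtain ⟨c', hc'⟩ := geo2_len_change h.genT hB
  set c2 : ℕ := Finset.univ.sup fun i => len T (t i) with hc2
  have hnz : ∀ z : Fin k → ℤ, ((geo2_nz z : ℕ) : ℝ) = ∑ i, |(z i : ℝ)| := by
    intro z
    rw [geo2_nz_eq, Nat.cast_sum]
    refine Finset.sum_congr rfl fun i _ => ?_
    rw [Nat.cast_natAbs, Int.cast_abs]
  have hnz0 : ∀ z : Fin k → ℤ, (0 : ℝ) ≤ ∑ i, |(z i : ℝ)| := fun z =>
    Finset.sum_nonneg fun i _ => abs_nonneg _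
  have hC0 : (0 : ℝ) ≤ (c : ℝ) + (2 + 2 * L) * (1 + c') := by (clear * - hL1; positivity)
  have hc20 : (0 : ℝ) ≤ c2 := Nat.cast_nonneg _
  refine ⟨geo2_sec t, (c : ℝ) + (2 + 2 * L) * (1 + c') + c2, by (clear * - hL1; positivity), ?_, ?_, ?_, ?_⟩
  · unfold geo2_sec
    simp
  · intro z
    rw [geo2_theta ht, toAdd_ofAdd]
  · intro z
    have h1 := geo2_len_map h.genT (List.finRange k) t z c2
      (fun i => Finset.le_sup (f := fun i => len T (t i)) (Finset.mem_univ i))
    have h2 : len T (geo2_sec t z) ≤ c2 * geo2_nz z := h1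
    have h3 : (len T (geo2_sec t z) : ℝ) ≤ c2 * (geo2_nz z : ℝ) := by exact_mod_cast h2
    rw [hnz z] at h3
    refine h3.trans (mul_le_mul_of_nonneg_right (by linarith only [hC0]) (hnz0 z))
  · intro z g
    have h1 := geo2_words h.genA hB ht htB hBt hL1 hL hc z g
    have h2 : (len A (geo2_sec t z * g *
        (geo2_sec t (z + Multiplicative.toAdd (θ g)))⁻¹) : ℝ) ≤
        ((len B g * ((c + 1) * (geo2_nz z + len B g + 1) *
          L ^ (2 * (geo2_nz z + len B g))) : ℕ) : ℝ) := by exact_mod_cast h1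
    refine h2.trans ((geo2_real _ c (geo2_nz z) L (len T g) c' (hc' g)).trans ?_)
    rw [hnz z]
    apply Real.exp_le_exp.mpr
    refine mul_le_mul_of_nonneg_right (by linarith only [hc20]) ?_
    have := hnz0 z
    (clear * -; (clear * -; positivity))

end Main

end Vale.Agent.P188.SG
end
end
end

section

section

section

/-!
P188, Theorem S+ (the kernel of one isometric action on `ℝ^d`, `d ≤ k`): definitions.
-/

universe u v w

open Filter Topology

namespace Vale.Agent.P188.SG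

variable {H : Type u} [Group H] {V : Type v} [NormedAddCommGroup V] [InnerProductSpace ℝ V]

/-- The orbit of `v` is totally bounded. -/
def TB (π : H →* (V ≃ₗᵢ[ℝ] V)) (v : V) : Prop :=
  ∀ η : ℝ, 0 < η → ∃ F : Finset H, ∀ g : H, ∃ r ∈ F, ‖π g v - π r v‖ ≤ η

/-- The vector `v` is asymptotically realized at cost `ρ`: for all large `n` there is `g` of length
about at most `ρ n` with `c g` about `n v`. -/
def Rel (S : Finset H) (c : H → V) (v : V) (ρ : ℝ) : Prop :=
  ∀ η : ℝ, 0 < η → ∃ n₀ : ℕ, ∀ n : ℕ, n₀ ≤ n → ∃ g : H,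
    (len S g : ℝ) ≤ (ρ + η) * n ∧ ‖c g - (n : ℝ) • v‖ ≤ η * n

/-- The same for infinitely many `n`. -/
def RelSub (S : Finset H) (c : H → V) (v : V) (ρ : ℝ) : Prop :=
  ∀ η : ℝ, 0 < η → ∀ n₀ : ℕ, ∃ n : ℕ, n₀ ≤ n ∧ ∃ g : H,
    (len S g : ℝ) ≤ (ρ + η) * n ∧ ‖c g - (n : ℝ) • v‖ ≤ η * n

/-- The closed span of all finite-dimensional invariant subspaces. -/
def fdSpan (π : H →* (V ≃ₗᵢ[ℝ] V)) : Submodule ℝ V :=
  (sSup {W : Submodule ℝ V | FiniteDimensional ℝ W ∧ Inv π W}).topologicalClosure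

/-- Vector valued functions with bounded coordinates. -/
def VBdd {k : ℕ} (φ : H → Fin k → ℝ) : Prop := ∀ i, Bdd (fun y => φ y i)

end Vale.Agent.P188.SG
end
end
end

section

section

section

/-! P188, Theorem S: a cocycle is the sum of a harmonic cocycle and a limit of coboundaries. -/

universe u v w

open Filter Topology

namespace Vale.Agent.P188.SG

section Harm

variable {H : Type u} [Group H] {S : Finset H}
variable {V : Type v} [NormedAddCommGroup V] [InnerProductSpace ℝ V]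

theorem harm_one {π : H →* (V ≃ₗᵢ[ℝ] V)} {c : H → V} (hc : IsCocycle π c) : c 1 = 0 := by
  have h := hc 1 1
  rw [mul_one, map_one] at h
  have h2 : (1 : V ≃ₗᵢ[ℝ] V) (c 1) = c 1 := rfl
  rw [h2] at h
  exact left_eq_add.mp h

theorem harm_cobound (π : H →* (V ≃ₗᵢ[ℝ] V)) (v : V) : IsCocycle π (fun g => π g v - v) := by
  intro g h
  have e : π (g * h) v = π g (π h v) := by rw [map_mul]; rfl
  change π (g * h) v - v = π g v - v + π g (π h v - v)
  rw [e, map_sub]
  abel

theorem harm_sub {π : H →* (V ≃ₗᵢ[ℝ] V)} {c d : H → V} (hc : IsCocycle π c)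
    (hd : IsCocycle π d) : IsCocycle π (fun g => c g - d g) := by
  intro g h
  change c (g * h) - d (g * h) = c g - d g + π g (c h - d h)
  rw [hc, hd, map_sub]
  abel

theorem harm_bound (hS : SymGen S) {π : H →* (V ≃ₗᵢ[ℝ] V)} {c : H → V} (hc : IsCocycle π c)
    {M : ℝ} (hM : ∀ s ∈ S, ‖c s‖ ≤ M) (g : H) : ‖c g‖ ≤ M * len S g := by
  obtain ⟨l, h1, h2, h3⟩ := len_list hS.gen g
  rw [← h1, ← h3]
  clear h1 h3
  induction l with
  | nil => simp [harm_one hc]
  | cons a l ih =>
    have ha : a ∈ S := by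
      rcases h2 a List.mem_cons_self with h | h
      · exact h
      · have := hS.inv _ h
        rwa [inv_inv] at this
    have ih' := ih fun b hb => h2 b (List.mem_cons_of_mem _ hb)
    rw [List.prod_cons, hc, List.length_cons]
    calc ‖c a + π a (c l.prod)‖ ≤ ‖c a‖ + ‖π a (c l.prod)‖ := norm_add_le _ _
      _ = ‖c a‖ + ‖c l.prod‖ := by rw [LinearIsometryEquiv.norm_map]
      _ ≤ M + M * l.length := add_le_add (hM a ha) ih'
      _ = M * ((l.length + 1 : ℕ) : ℝ) := by push_cast; ring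

/-- the coboundary operator, restricted to `S` -/
noncomputable def harm_D (S : Finset H) (π : H →* (V ≃ₗᵢ[ℝ] V)) :
    V →ₗ[ℝ] PiLp 2 (fun _ : S => V) where
  toFun v := WithLp.toLp 2 (fun s : S => π s v - v)
  map_add' v w := by
    ext s
    simp only [map_add, PiLp.add_apply]
    abel
  map_smul' r v := by
    ext s
    simp only [map_smul, PiLp.smul_apply, RingHom.id_apply, smul_sub]

theorem harm_D_bound (hS : SymGen S) (π : H →* (V ≃ₗᵢ[ℝ] V)) (v : V) (g : H) :
    ‖π g v - v‖ ≤ ‖harm_D S π v‖ * len S g :=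
  harm_bound hS (harm_cobound π v)
    (fun s hs => PiLp.norm_apply_le (harm_D S π v) ⟨s, hs⟩) g

theorem harm_sum_inv (hS : SymGen S) (f : H → V) : ∑ s ∈ S, f s⁻¹ = ∑ s ∈ S, f s := by
  refine Finset.sum_nbij' (fun s => s⁻¹) (fun s => s⁻¹) (fun s hs => hS.inv s hs)
    (fun s hs => hS.inv s hs) (fun s _ => inv_inv s) (fun s _ => inv_inv s) (fun s _ => rfl)

theorem harm_sum_zero (hS : SymGen S) {π : H →* (V ≃ₗᵢ[ℝ] V)} {h : H → V}
    (hh : IsCocycle π h) (ho : ∀ v : V, ∑ s ∈ S, inner ℝ (h s) (π s v - v) = 0) :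
    ∑ s ∈ S, h s = 0 := by
  have key : ∀ (s : H) (v : V), inner ℝ (h s) (π s v) = - inner ℝ (h s⁻¹) v := by
    intro s v
    have e1 : h s⁻¹ = - π s⁻¹ (h s) := by
      have := hh s⁻¹ s
      rw [inv_mul_cancel, harm_one hh] at this
      exact eq_neg_of_add_eq_zero_left this.symm
    have e2 : π s (π s⁻¹ (h s)) = h s := by
      have : (π s * π s⁻¹) (h s) = h s := by rw [← map_mul, mul_inv_cancel, map_one]; rfl
      exact this
    rw [e1, inner_neg_left, neg_neg]
    conv_lhs => rw [← e2]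
    exact LinearIsometryEquiv.inner_map_map _ _ _
  have h2 : ∀ v : V, inner ℝ (∑ s ∈ S, h s) v = 0 := by
    intro v
    have h3 := ho v
    simp only [inner_sub_right, key] at h3
    rw [Finset.sum_sub_distrib, Finset.sum_neg_distrib, ← sum_inner, ← sum_inner,
      harm_sum_inv hS] at h3
    (clear * - h3; linarith)
  exact inner_self_eq_zero.mp (h2 _)

end Harm

end Vale.Agent.P188.SG
end
end
end

section

section

attribute [-instance] ProperSMul.toContinuousSMul IsTopologicalTorsor.toContinuousSMul IdemSemiring.toCanonicallyOrderedAdd IdemSemiring.toMulLeftMono IdemSemiring.toMulRightMono AddQuantale.instAddLeftMono AddQuantale.instAddRightMono Quantale.instMulLeftMono Quantale.instMulRightMono FiniteDimensional.rclike_to_real IsScalarTower.complexToReal FiniteDimensional.complexToReal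

section

/-!
P188, Theorem S: the top eigenspace of a positive operator of bounded trace.
-/

universe u v w

open Filter Topology

namespace Vale.Agent.P188.SG

section Rep

variable {V : Type v} [NormedAddCommGroup V] [InnerProductSpace ℝ V]

private theorem trace_cs (B : V →L[ℝ] V)
    (hsa : ∀ v w : V, inner ℝ (B v) w = inner ℝ v (B w)) (hpos : ∀ v : V, 0 ≤ inner ℝ (B v) v)
    (v w : V) : (inner ℝ (B v) w) ^ 2 ≤ inner ℝ (B v) v * inner ℝ (B w) w := by
  have h1 : ∀ x : ℝ, 0 ≤ inner ℝ (B v) v * (x * x) + (2 * inner ℝ (B v) w) * x +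
      inner ℝ (B w) w := by
    intro x
    have h2 := hpos (x • v + w)
    have h3 : inner ℝ (B w) v = inner ℝ (B v) w := by
      rw [hsa w v, real_inner_comm]
    simp only [map_add, map_smul, inner_add_left, inner_add_right, inner_smul_left,
      inner_smul_right, h3, conj_trivial] at h2
    linarith only [h2]
  have h2 := discrim_le_zero h1
  rw [discrim] at h2
  linarith only [h2]

private theorem trace_fin (B : V →L[ℝ] V) (c lam : ℝ) (hlam : 0 < lam)
    (htr : ∀ (m : ℕ) (e : Fin m → V), Orthonormal ℝ e → ∑ i, inner ℝ (B (e i)) (e i) ≤ c)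
    (W : Submodule ℝ V) (hW : ∀ v ∈ W, inner ℝ (B v) v = lam * ‖v‖ ^ 2) :
    FiniteDimensional ℝ W := by
  by_contra hfin
  have h1 : Cardinal.aleph0 ≤ Module.rank ℝ W := by
    by_contra h2
    exact hfin (Module.rank_lt_aleph0_iff.1 (not_le.1 h2))
  obtain ⟨m, hm⟩ := exists_nat_gt (c / lam)
  obtain ⟨f, hf⟩ := exists_linearIndependent_of_le_rank
    ((Cardinal.natCast_lt_aleph0 (n := m)).le.trans h1)
  have h2 : Orthonormal ℝ (InnerProductSpace.gramSchmidtNormed ℝ f) :=
    InnerProductSpace.gramSchmidtNormed_orthonormal hf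
  have h3 : Orthonormal ℝ (fun i => ((InnerProductSpace.gramSchmidtNormed ℝ f i : W) : V)) :=
    h2.comp_linearIsometry W.subtypeₗᵢ
  have h4 := htr m _ h3
  have h5 : ∀ i : Fin m, inner ℝ (B ((InnerProductSpace.gramSchmidtNormed ℝ f i : W) : V))
      ((InnerProductSpace.gramSchmidtNormed ℝ f i : W) : V) = lam := by
    intro i
    rw [hW _ (InnerProductSpace.gramSchmidtNormed ℝ f i).2, h3.1 i]
    ring
  simp only [h5, Finset.sum_const, Finset.card_univ, Fintype.card_fin, nsmul_eq_mul] at h4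
  rw [div_lt_iff₀ hlam] at hm
  linarith only [hm, h4]

private theorem trace_cons {m : ℕ} {e : Fin m → V} (he : Orthonormal ℝ e) {r : V} (hr : ‖r‖ = 1)
    (h : ∀ i, inner ℝ (e i) r = 0) :
    Orthonormal ℝ (Fin.cons r e : Fin (m + 1) → V) := by
  constructor
  · intro i
    refine Fin.cases ?_ (fun i => ?_) i
    · simpa using hr
    · simpa using he.1 i
  · intro i j hij
    revert hij
    refine Fin.cases ?_ (fun i => ?_) i <;> refine Fin.cases ?_ (fun j => ?_) j
    · intro h0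
      exact absurd rfl h0
    · intro _
      rw [Fin.cons_zero, Fin.cons_succ, real_inner_comm]
      exact h j
    · intro _
      rw [Fin.cons_zero, Fin.cons_succ]
      exact h i
    · intro hij
      rw [Fin.cons_succ, Fin.cons_succ]
      exact he.2 fun h0 => hij (congrArg Fin.succ h0)

variable [CompleteSpace V]

theorem top_eigenspace (B : V →L[ℝ] V) (hsa : ∀ v w : V, inner ℝ (B v) w = inner ℝ v (B w))
    (hpos : ∀ v : V, 0 ≤ inner ℝ (B v) v) (c : ℝ)
    (htr : ∀ (m : ℕ) (e : Fin m → V), Orthonormal ℝ e → ∑ i, inner ℝ (B (e i)) (e i) ≤ c)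
    (hB : B ≠ 0) :
    ∃ (lam : ℝ) (W : Submodule ℝ V), 0 < lam ∧ FiniteDimensional ℝ W ∧ W ≠ ⊥ ∧
      (∀ v, inner ℝ (B v) v ≤ lam * ‖v‖ ^ 2) ∧
      (∀ v, inner ℝ (B v) v = lam * ‖v‖ ^ 2 ↔ v ∈ W) := by
  obtain ⟨v₀, hv₀⟩ : ∃ v, B v ≠ 0 := by
    by_contra h
    rw [not_exists] at h
    exact hB (ContinuousLinearMap.ext fun v => not_not.1 (h v))
  have hv₀' : v₀ ≠ 0 := by
    rintro rfl
    exact hv₀ (map_zero B)
  have hqB : ∀ v, inner ℝ (B v) v ≤ ‖B‖ * ‖v‖ ^ 2 := fun v => by
    calc inner ℝ (B v) v ≤ ‖B v‖ * ‖v‖ := real_inner_le_norm _ _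
      _ ≤ (‖B‖ * ‖v‖) * ‖v‖ := by gcongr; exact B.le_opNorm v
      _ = ‖B‖ * ‖v‖ ^ 2 := by ring
  set S : Set ℝ := {x | ∃ v : V, ‖v‖ = 1 ∧ inner ℝ (B v) v = x} with hS
  have hSb : BddAbove S := by
    refine ⟨‖B‖, ?_⟩
    rintro x ⟨v, hv, rfl⟩
    have := hqB v
    rw [hv] at this
    linarith only [this]
  have hSn : S.Nonempty := ⟨_, ‖v₀‖⁻¹ • v₀, norm_smul_inv_norm hv₀', rfl⟩
  set lam := sSup S with hlam
  have hle : ∀ v, inner ℝ (B v) v ≤ lam * ‖v‖ ^ 2 := by
    intro v
    by_cases hv : v = 0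
    · simp [hv]
    · have h1 : inner ℝ (B (‖v‖⁻¹ • v)) (‖v‖⁻¹ • v) ≤ lam :=
        le_csSup hSb ⟨_, norm_smul_inv_norm hv, rfl⟩
      rw [map_smul, inner_smul_left, inner_smul_right, conj_trivial] at h1
      have h2 : 0 < ‖v‖ := norm_pos_iff.2 hv
      calc inner ℝ (B v) v = (‖v‖⁻¹ * (‖v‖⁻¹ * inner ℝ (B v) v)) * ‖v‖ ^ 2 := by
            (clear * - hv; field_simp)
        _ ≤ lam * ‖v‖ ^ 2 := by (clear * - h1 hv; gcongr)
  have hlam0 : 0 ≤ lam := by
    obtain ⟨x, hx⟩ := hSn
    obtain ⟨v, hv, rfl⟩ := hx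
    exact (hpos v).trans (le_csSup hSb ⟨v, hv, rfl⟩)
  have hBv : ∀ v, ‖B v‖ ^ 2 ≤ lam * inner ℝ (B v) v := by
    intro v
    by_cases hv : B v = 0
    · rw [hv]
      simp
    · have h1 := trace_cs B hsa hpos v (B v)
      rw [real_inner_self_eq_norm_sq] at h1
      have h2 := hle (B v)
      have h3 : 0 < ‖B v‖ ^ 2 := by
        have : 0 < ‖B v‖ := norm_pos_iff.2 hv
        positivity
      have h4 : (‖B v‖ ^ 2) ^ 2 ≤ inner ℝ (B v) v * (lam * ‖B v‖ ^ 2) :=
        h1.trans (mul_le_mul_of_nonneg_left h2 (hpos v))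
      have h5 : ‖B v‖ ^ 2 * ‖B v‖ ^ 2 ≤ (lam * inner ℝ (B v) v) * ‖B v‖ ^ 2 := by
        calc ‖B v‖ ^ 2 * ‖B v‖ ^ 2 = (‖B v‖ ^ 2) ^ 2 := by ring
          _ ≤ inner ℝ (B v) v * (lam * ‖B v‖ ^ 2) := h4
          _ = (lam * inner ℝ (B v) v) * ‖B v‖ ^ 2 := by ring
      exact le_of_mul_le_mul_right h5 h3
  have hlampos : 0 < lam := by
    rcases hlam0.eq_or_lt with h | h
    · exfalso
      have h1 := hBv v₀
      rw [← h, zero_mul] at h1
      have h2 : 0 < ‖B v₀‖ := norm_pos_iff.2 hv₀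
      have h3 : 0 < ‖B v₀‖ ^ 2 := by positivity
      linarith only [h1, h3]
    · exact h
  have hdef : ∀ v, ‖lam • v - B v‖ ^ 2 ≤ lam * (lam * ‖v‖ ^ 2 - inner ℝ (B v) v) := by
    intro v
    have h1 : ‖lam • v - B v‖ ^ 2 =
        lam ^ 2 * ‖v‖ ^ 2 - 2 * lam * inner ℝ (B v) v + ‖B v‖ ^ 2 := by
      rw [norm_sub_sq_real, norm_smul, inner_smul_left, conj_trivial, mul_pow, Real.norm_eq_abs,
        sq_abs, real_inner_comm]
      ring
    rw [h1]
    have := hBv v
    linarith only [this]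
  -- a maximizing sequence
  have hseq : ∀ n : ℕ, ∃ v : V, ‖v‖ = 1 ∧ lam - 1 / ((n : ℝ) + 1) < inner ℝ (B v) v := by
    intro n
    have h1 : lam - 1 / ((n : ℝ) + 1) < sSup S := by
      have : (0 : ℝ) < 1 / ((n : ℝ) + 1) := by (clear * -; positivity)
      linarith only [this]
    obtain ⟨x, ⟨v, hv, rfl⟩, hx⟩ := exists_lt_of_lt_csSup hSn h1
    exact ⟨v, hv, hx⟩
  choose v hv1 hvq using hseq
  have hd0 : Tendsto (fun n => ‖lam • v n - B (v n)‖) atTop (𝓝 0) := by
    have h1 : Tendsto (fun n : ℕ => Real.sqrt (lam * (1 / ((n : ℝ) + 1)))) atTop (𝓝 0) := by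
      have h2 : Tendsto (fun n : ℕ => lam * (1 / ((n : ℝ) + 1))) atTop (𝓝 (lam * 0)) :=
        tendsto_one_div_add_atTop_nhds_zero_nat.const_mul lam
      rw [mul_zero] at h2
      have h3 := (Real.continuous_sqrt.tendsto 0).comp h2
      rwa [Real.sqrt_zero] at h3
    refine squeeze_zero (fun n => norm_nonneg _) (fun n => ?_) h1
    refine Real.le_sqrt_of_sq_le ((hdef (v n)).trans ?_)
    rw [hv1 n]
    have := hvq n
    gcongr
    linarith only [this]
  -- a finite family carrying almost all of the trace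
  set T : Set ℝ := {x | ∃ (m : ℕ) (e : Fin m → V), Orthonormal ℝ e ∧
    ∑ i, inner ℝ (B (e i)) (e i) = x} with hT
  have hTb : BddAbove T := by
    refine ⟨c, ?_⟩
    rintro x ⟨m, e, he, rfl⟩
    exact htr m e he
  have hTn : T.Nonempty := ⟨_, 0, Fin.elim0, ⟨fun i => i.elim0, fun i => i.elim0⟩, rfl⟩
  obtain ⟨x, ⟨m, e, he, rfl⟩, hx⟩ := exists_lt_of_lt_csSup hTn
    (show sSup T - lam / 2 < sSup T by linarith only [hlampos])
  have hr : ∀ r, (∀ i, inner ℝ (e i) r = 0) → inner ℝ (B r) r ≤ lam / 2 * ‖r‖ ^ 2 := by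
    intro r hr
    by_cases h0 : r = 0
    · simp [h0]
    · have h1 := trace_cons he (r := ‖r‖⁻¹ • r) (norm_smul_inv_norm h0) fun i => by
        rw [inner_smul_right, hr i, mul_zero]
      have h2 : ∑ i, inner ℝ (B ((Fin.cons (‖r‖⁻¹ • r) e : Fin (m + 1) → V) i))
          ((Fin.cons (‖r‖⁻¹ • r) e : Fin (m + 1) → V) i) ≤ sSup T :=
        le_csSup hTb ⟨m + 1, _, h1, rfl⟩
      rw [Fin.sum_univ_succ] at h2
      simp only [Fin.cons_zero, Fin.cons_succ] at h2
      rw [map_smul, inner_smul_left, inner_smul_right, conj_trivial] at h2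
      have h3 : 0 < ‖r‖ := norm_pos_iff.2 h0
      have h4 : ‖r‖⁻¹ * (‖r‖⁻¹ * inner ℝ (B r) r) ≤ lam / 2 := by linarith only [h2, hx]
      calc inner ℝ (B r) r = (‖r‖⁻¹ * (‖r‖⁻¹ * inner ℝ (B r) r)) * ‖r‖ ^ 2 := by
            (clear * - h0; field_simp)
        _ ≤ lam / 2 * ‖r‖ ^ 2 := by (clear * - h4 h0; gcongr)
  -- key inequality
  have hkey : ∀ w : V, ‖w‖ ≤ 2 → lam / 2 * ‖w‖ ^ 2 ≤ 2 * ‖lam • w - B w‖ +
      6 * ‖B‖ * ∑ i, |inner ℝ (e i) w| := by
    intro w hw
    set p : V := ∑ i, inner ℝ (e i) w • e i with hp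
    set r : V := w - p with hr'
    have h1 : ∀ i, inner ℝ (e i) r = 0 := by
      intro i
      rw [hr', hp, inner_sub_right, he.inner_right_fintype, sub_self]
    have h2 : inner ℝ p r = 0 := by
      rw [hp, sum_inner]
      refine Finset.sum_eq_zero fun i _ => ?_
      rw [inner_smul_left, h1 i, mul_zero]
    have h3 : w = r + p := by rw [hr']; abel
    have h4 : ‖w‖ ^ 2 = ‖r‖ ^ 2 + ‖p‖ ^ 2 := by
      rw [h3, norm_add_sq_real, real_inner_comm, h2]
      ring
    have hrw : ‖r‖ ≤ ‖w‖ := by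
      refine abs_le_of_sq_le_sq' ?_ (norm_nonneg _) |>.2
      linarith only [sq_nonneg ‖p‖, h4]
    have hpw : ‖p‖ ≤ ‖w‖ := by
      refine abs_le_of_sq_le_sq' ?_ (norm_nonneg _) |>.2
      linarith only [sq_nonneg ‖r‖, h4]
    have hps : ‖p‖ ≤ ∑ i, |inner ℝ (e i) w| := by
      refine (norm_sum_le _ _).trans (Finset.sum_le_sum fun i _ => ?_)
      rw [norm_smul, he.1 i, mul_one, Real.norm_eq_abs]
    have h5 : inner ℝ (B w) w = inner ℝ (B r) r + 2 * inner ℝ (B p) r + inner ℝ (B p) p := by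
      have h6 : inner ℝ (B r) p = inner ℝ (B p) r := by rw [hsa r p, real_inner_comm]
      conv_lhs => rw [h3]
      rw [map_add, inner_add_left, inner_add_right, inner_add_right, h6]
      ring
    have h6 : inner ℝ (B p) r ≤ ‖B‖ * ‖p‖ * 2 := by
      calc inner ℝ (B p) r ≤ ‖B p‖ * ‖r‖ := real_inner_le_norm _ _
        _ ≤ (‖B‖ * ‖p‖) * 2 := by
          gcongr
          · exact B.le_opNorm p
          · exact hrw.trans hw
    have h7 : inner ℝ (B p) p ≤ ‖B‖ * ‖p‖ * 2 := by
      calc inner ℝ (B p) p ≤ ‖B p‖ * ‖p‖ := real_inner_le_norm _ _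
        _ ≤ (‖B‖ * ‖p‖) * 2 := by
          gcongr
          · exact B.le_opNorm p
          · exact hpw.trans hw
    have h8 := hr r h1
    have h9 : lam * ‖w‖ ^ 2 - inner ℝ (B w) w ≤ 2 * ‖lam • w - B w‖ := by
      have h10 : lam * ‖w‖ ^ 2 - inner ℝ (B w) w = inner ℝ (lam • w - B w) w := by
        rw [inner_sub_left, inner_smul_left, conj_trivial, real_inner_self_eq_norm_sq]
      rw [h10]
      calc inner ℝ (lam • w - B w) w ≤ ‖lam • w - B w‖ * ‖w‖ := real_inner_le_norm _ _
        _ ≤ ‖lam • w - B w‖ * 2 := by (clear * - hw; gcongr)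
        _ = 2 * ‖lam • w - B w‖ := by ring
    have h10 : lam / 2 * ‖r‖ ^ 2 ≤ lam / 2 * ‖w‖ ^ 2 := by (clear * - hrw hlampos; gcongr)
    have h11 : 6 * ‖B‖ * ‖p‖ ≤ 6 * ‖B‖ * ∑ i, |inner ℝ (e i) w| := by (clear * - hps hB; gcongr)
    linarith only [h11, h10, h9, h8, h7, h6, h5]
  -- a convergent subsequence
  have hcomp : ∃ (φ : ℕ → ℕ), StrictMono φ ∧ ∃ α : Fin m → ℝ,
      Tendsto (fun n => fun i => inner ℝ (e i) (v (φ n))) atTop (𝓝 α) := by
    have h1 : ∀ n, (fun i => inner ℝ (e i) (v n) : Fin m → ℝ) ∈ Metric.closedBall 0 1 := by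
      intro n
      rw [mem_closedBall_zero_iff, pi_norm_le_iff_of_nonneg zero_le_one]
      intro i
      have h2 := norm_inner_le_norm (𝕜 := ℝ) (e i) (v n)
      rwa [he.1 i, hv1 n, mul_one] at h2
    obtain ⟨α, -, φ, hφ, hα⟩ := (isCompact_closedBall (0 : Fin m → ℝ) 1).tendsto_subseq h1
    exact ⟨φ, hφ, α, hα⟩
  obtain ⟨φ, hφ, α, hα⟩ := hcomp
  have hcauchy : CauchySeq (fun n => v (φ n)) := by
    have hα' : ∀ i, Tendsto (fun n => inner ℝ (e i) (v (φ n))) atTop (𝓝 (α i)) := by
      intro i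
      exact (tendsto_pi_nhds.1 hα) i
    have h1 : Tendsto (fun n => ∑ i, |inner ℝ (e i) (v (φ n)) - α i|) atTop (𝓝 0) := by
      have h2 : Tendsto (fun n => ∑ i, |inner ℝ (e i) (v (φ n)) - α i|) atTop
          (𝓝 (∑ i, |α i - α i|)) :=
        tendsto_finsetSum _ fun i _ => ((hα' i).sub_const (α i)).abs
      simpa only [sub_self, abs_zero, Finset.sum_const_zero] using h2
    have h2 : Tendsto (fun n => ‖lam • v (φ n) - B (v (φ n))‖) atTop (𝓝 0) :=
      hd0.comp hφ.tendsto_atTop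
    have h3 : Tendsto (fun n => 2 * ‖lam • v (φ n) - B (v (φ n))‖ +
        6 * ‖B‖ * ∑ i, |inner ℝ (e i) (v (φ n)) - α i|) atTop (𝓝 0) := by
      have := (h2.const_mul 2).add (h1.const_mul (6 * ‖B‖))
      simpa only [mul_zero, add_zero] using this
    rw [Metric.cauchySeq_iff]
    intro ε hε
    have h4 : ∀ᶠ n in atTop, 2 * ‖lam • v (φ n) - B (v (φ n))‖ +
        6 * ‖B‖ * ∑ i, |inner ℝ (e i) (v (φ n)) - α i| < lam / 4 * ε ^ 2 :=
      h3.eventually_lt_const (by (clear * - hlampos hε; positivity))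
    obtain ⟨N, hN⟩ := eventually_atTop.1 h4
    refine ⟨N, fun j hj l hl => ?_⟩
    have h5 := hN j hj
    have h6 := hN l hl
    have h7 := hkey (v (φ j) - v (φ l)) (by
      refine (norm_sub_le _ _).trans ?_
      rw [hv1, hv1]
      norm_num)
    have h8 : ‖lam • (v (φ j) - v (φ l)) - B (v (φ j) - v (φ l))‖ ≤
        ‖lam • v (φ j) - B (v (φ j))‖ + ‖lam • v (φ l) - B (v (φ l))‖ := by
      have h9 : lam • (v (φ j) - v (φ l)) - B (v (φ j) - v (φ l)) =
          (lam • v (φ j) - B (v (φ j))) - (lam • v (φ l) - B (v (φ l))) := by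
        rw [map_sub, smul_sub]
        abel
      rw [h9]
      exact norm_sub_le _ _
    have h9 : ∑ i, |inner ℝ (e i) (v (φ j) - v (φ l))| ≤
        ∑ i, |inner ℝ (e i) (v (φ j)) - α i| + ∑ i, |inner ℝ (e i) (v (φ l)) - α i| := by
      rw [← Finset.sum_add_distrib]
      refine Finset.sum_le_sum fun i _ => ?_
      rw [inner_sub_right]
      have h10 : (inner ℝ (e i) (v (φ j)) - inner ℝ (e i) (v (φ l)) : ℝ) =
          (inner ℝ (e i) (v (φ j)) - α i) - (inner ℝ (e i) (v (φ l)) - α i) := by ring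
      rw [h10]
      exact abs_sub _ _
    have h10 : lam / 2 * ‖v (φ j) - v (φ l)‖ ^ 2 < lam / 2 * ε ^ 2 := by
      have h11 := mul_le_mul_of_nonneg_left h9 (show 0 ≤ 6 * ‖B‖ by (clear * - hB; positivity))
      linarith only [h11, h8, h7, h6, h5]
    have h11 : ‖v (φ j) - v (φ l)‖ ^ 2 < ε ^ 2 := lt_of_mul_lt_mul_left h10 (by (clear * - hlampos; positivity))
    rw [dist_eq_norm]
    exact lt_of_pow_lt_pow_left₀ 2 hε.le h11
  obtain ⟨z, hz⟩ := cauchySeq_tendsto_of_complete hcauchy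
  have hz1 : ‖z‖ = 1 := by
    have h1 : Tendsto (fun n => ‖v (φ n)‖) atTop (𝓝 ‖z‖) := hz.norm
    simp only [hv1] at h1
    exact tendsto_nhds_unique h1 tendsto_const_nhds |>.trans rfl |>.symm ▸ rfl
  have hzB : lam • z - B z = 0 := by
    have h1 : Tendsto (fun n => ‖lam • v (φ n) - B (v (φ n))‖) atTop (𝓝 ‖lam • z - B z‖) :=
      ((hz.const_smul lam).sub ((B.continuous.tendsto z).comp hz)).norm
    have h2 := tendsto_nhds_unique h1 (hd0.comp hφ.tendsto_atTop)
    exact norm_eq_zero.1 h2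
  have hmem : ∀ v, inner ℝ (B v) v = lam * ‖v‖ ^ 2 ↔
      v ∈ LinearMap.ker (lam • ContinuousLinearMap.id ℝ V - B : V →L[ℝ] V).toLinearMap := by
    intro v
    rw [LinearMap.mem_ker]
    change _ ↔ lam • v - B v = 0
    constructor
    · intro h
      have h1 := hdef v
      rw [h, sub_self, mul_zero] at h1
      have h2 : ‖lam • v - B v‖ = 0 := by
        have := norm_nonneg (lam • v - B v)
        nlinarith only [h1]
      exact norm_eq_zero.1 h2
    · intro h
      have h1 : B v = lam • v := (sub_eq_zero.1 h).symm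
      rw [h1, inner_smul_left, conj_trivial, real_inner_self_eq_norm_sq]
  refine ⟨lam, LinearMap.ker (lam • ContinuousLinearMap.id ℝ V - B : V →L[ℝ] V).toLinearMap,
    hlampos, ?_, ?_, hle, hmem⟩
  · exact trace_fin B c lam hlampos htr _ fun v hv => (hmem v).2 hv
  · intro h0
    have h1 : z ∈ LinearMap.ker (lam • ContinuousLinearMap.id ℝ V - B : V →L[ℝ] V).toLinearMap :=
      hzB
    rw [h0, Submodule.mem_bot] at h1
    rw [h1, norm_zero] at hz1
    exact zero_ne_one hz1

end Rep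

end Vale.Agent.P188.SG
end
end
end

section

section

attribute [-instance] ProperSMul.toContinuousSMul IsTopologicalTorsor.toContinuousSMul IdemSemiring.toCanonicallyOrderedAdd IdemSemiring.toMulLeftMono IdemSemiring.toMulRightMono AddQuantale.instAddLeftMono AddQuantale.instAddRightMono Quantale.instMulLeftMono Quantale.instMulRightMono FiniteDimensional.rclike_to_real IsScalarTower.complexToReal FiniteDimensional.complexToReal

section

/-!
P188, Theorem S, the concrete family: a hyperbolic integral matrix has a power annihilated by an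
integral polynomial with a dominant coefficient.
-/

open Filter Topology

namespace Vale.Agent.P188.SG

open Polynomial in
theorem Dominant_roots {d : ℕ} (A : Matrix (Fin d) (Fin d) ℂ) :
    ∃ a : Fin d → ℂ, A.charpoly = ∏ i, (X - C (a i)) := by
  have hm : A.charpoly.Monic := A.charpoly_monic
  have hs : A.charpoly.Splits := IsAlgClosed.splits _
  have h1 := hs.eq_prod_roots_of_monic hm
  have hcard : A.charpoly.roots.card = d := by
    rw [splits_iff_card_roots.mp hs, Matrix.charpoly_natDegree_eq_dim, Fintype.card_fin]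
  obtain ⟨l, hl⟩ := Quotient.exists_rep A.charpoly.roots
  rw [← hl] at h1 hcard
  change (l : Multiset ℂ).card = d at hcard
  rw [Multiset.coe_card] at hcard
  subst hcard
  refine ⟨fun i => l[i.1], ?_⟩
  rw [h1]
  change (Multiset.map (fun a => X - C a) (l : Multiset ℂ)).prod = _
  rw [Multiset.map_coe, Multiset.prod_coe, ← Fin.prod_univ_getElem]
  refine Fintype.prod_equiv (finCongr (by simp)) _ _ fun i => ?_
  simp

open Polynomial in
theorem Dominant_sq {d : ℕ} (A : Matrix (Fin d) (Fin d) ℂ) (a : Fin d → ℂ)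
    (h : A.charpoly = ∏ i, (X - C (a i))) :
    (A ^ 2).charpoly = ∏ i, (X - C (a i ^ 2)) := by
  have hev : ∀ z : ℂ, (Matrix.scalar (Fin d) z - A).det = ∏ i, (z - a i) := by
    intro z
    rw [← Matrix.eval_charpoly, h, eval_prod]
    simp only [eval_sub, eval_X, eval_C]
  refine Polynomial.funext fun w => ?_
  obtain ⟨z, hz⟩ := IsAlgClosed.exists_pow_nat_eq w (n := 2) (by norm_num)
  rw [Matrix.eval_charpoly, eval_prod, ← hz]
  have h1 : Matrix.scalar (Fin d) (z ^ 2) - A ^ 2 =
      (Matrix.scalar (Fin d) z - A) * -(Matrix.scalar (Fin d) (-z) - A) := by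
    rw [map_neg, map_pow]
    have hc : Matrix.scalar (Fin d) z * A = A * Matrix.scalar (Fin d) z :=
      (Matrix.scalar_commute z (fun r => mul_comm _ _) A).eq
    rw [pow_two, pow_two, mul_neg, sub_mul, mul_sub, mul_sub, mul_neg, mul_neg, hc]
    abel
  rw [h1, Matrix.det_mul, Matrix.det_neg, hev, hev, Fintype.card_fin]
  have h2 : ∏ i, (-z - a i) = (-1) ^ d * ∏ i, (z + a i) := by
    rw [show (-1 : ℂ) ^ d = ∏ _i : Fin d, (-1 : ℂ) by simp only [Finset.prod_const, Finset.card_univ, Fintype.card_fin], ← Finset.prod_mul_distrib]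
    exact Finset.prod_congr rfl fun i _ => by ring
  rw [h2, ← mul_assoc ((-1 : ℂ) ^ d), ← mul_pow]
  norm_num
  rw [← Finset.prod_mul_distrib]
  exact Finset.prod_congr rfl fun i _ => by ring

open Polynomial in
theorem Dominant_pow {d : ℕ} (A : Matrix (Fin d) (Fin d) ℂ) (a : Fin d → ℂ)
    (h : A.charpoly = ∏ i, (X - C (a i))) (m : ℕ) :
    (A ^ (2 ^ m)).charpoly = ∏ i, (X - C (a i ^ (2 ^ m))) := by
  induction m with
  | zero => simpa only [pow_zero, pow_one] using h
  | succ m ih =>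
    have := Dominant_sq _ _ ih
    rw [← pow_mul] at this
    rw [pow_succ, this]
    exact Finset.prod_congr rfl fun i _ => by rw [pow_mul]

open Polynomial in
theorem Dominant_tendsto {ι : Type*} (s : Finset ι) (f : ι → ℕ → Polynomial ℂ)
    (g : ι → Polynomial ℂ)
    (h : ∀ i ∈ s, ∀ k, Tendsto (fun n => (f i n).coeff k) atTop (𝓝 ((g i).coeff k))) (k : ℕ) :
    Tendsto (fun n => (∏ i ∈ s, f i n).coeff k) atTop (𝓝 ((∏ i ∈ s, g i).coeff k)) := by
  classical
  induction s using Finset.induction_on generalizing k with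
  | empty => simp only [Finset.prod_empty, tendsto_const_nhds_iff]
  | insert a s ha ih =>
    have ih' := ih (fun i hi => h i (Finset.mem_insert_of_mem hi))
    simp only [Finset.prod_insert ha, coeff_mul]
    exact tendsto_finsetSum _ fun x _ => (h a (Finset.mem_insert_self _ _) x.1).mul (ih' x.2)

open Polynomial in
/-- the two kinds of factors -/
theorem Dominant_factor (z : ℂ) (hz : ‖z‖ ≠ 1) (k : ℕ) :
    Tendsto (fun n : ℕ => (if 1 < ‖z‖ then 1 - C ((z ^ (2 ^ n))⁻¹) * X
      else X - C (z ^ (2 ^ n)) : Polynomial ℂ).coeff k) atTop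
      (𝓝 ((if 1 < ‖z‖ then 1 else X : Polynomial ℂ).coeff k)) := by
  have hpow : Tendsto (fun n : ℕ => 2 ^ n) atTop atTop :=
    tendsto_pow_atTop_atTop_of_one_lt (by norm_num)
  by_cases h : 1 < ‖z‖
  · simp only [if_pos h, coeff_sub, coeff_C_mul]
    have h1 : Tendsto (fun n : ℕ => (z ^ (2 ^ n))⁻¹) atTop (𝓝 0) := by
      have h2 : ‖z⁻¹‖ < 1 := by
        rw [norm_inv]
        exact inv_lt_one_of_one_lt₀ h
      have h3 := (tendsto_pow_atTop_nhds_zero_of_norm_lt_one h2).comp hpow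
      refine h3.congr fun n => ?_
      simp
    have h4 := (tendsto_const_nhds (x := (1 : Polynomial ℂ).coeff k)).sub
      (h1.mul_const ((X : Polynomial ℂ).coeff k))
    simpa only [zero_mul, sub_zero] using h4
  · simp only [if_neg h, coeff_sub, coeff_C]
    have h1 : Tendsto (fun n : ℕ => z ^ (2 ^ n)) atTop (𝓝 0) :=
      (tendsto_pow_atTop_nhds_zero_of_norm_lt_one (lt_of_le_of_ne (not_lt.mp h) hz)).comp hpow
    have h2 : Tendsto (fun n : ℕ => if k = 0 then z ^ (2 ^ n) else 0) atTop (𝓝 0) := by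
      by_cases hk : k = 0
      · simpa only [hk, ↓reduceIte] using h1
      · simp [hk]
    have h4 := (tendsto_const_nhds (x := (X : Polynomial ℂ).coeff k)).sub h2
    simpa only [sub_zero] using h4

open Polynomial in
/-- a hyperbolic integral matrix has a power annihilated by an integral polynomial with a dominant
coefficient -/
theorem exists_dominant {d : ℕ} (M : Matrix (Fin d) (Fin d) ℤ)
    (hyp : ∀ μ : ℂ, (M.map (Int.castRingHom ℂ)).charpoly.IsRoot μ → ‖μ‖ ≠ 1) :
    ∃ n : ℕ, 0 < n ∧ ∃ (q : Polynomial ℤ) (j : ℕ), Polynomial.aeval (M ^ n) q = 0 ∧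
      ∑ i ∈ q.support.erase j, |q.coeff i| < |q.coeff j| := by
  classical
  obtain ⟨a, ha⟩ := Dominant_roots (M.map (Int.castRingHom ℂ))
  have ha1 : ∀ i, ‖a i‖ ≠ 1 := by
    intro i
    apply hyp
    rw [IsRoot.def, ha, eval_prod]
    exact Finset.prod_eq_zero (Finset.mem_univ i) (by simp)
  set f : Fin d → ℕ → Polynomial ℂ := fun i n => if 1 < ‖a i‖ then 1 - C ((a i ^ (2 ^ n))⁻¹) * X
    else X - C (a i ^ (2 ^ n)) with hf
  set g : Fin d → Polynomial ℂ := fun i => if 1 < ‖a i‖ then 1 else X with hg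
  have hlim := Dominant_tendsto Finset.univ f g (fun i _ k => Dominant_factor (a i) (ha1 i) k)
  set s : ℕ := (Finset.univ.filter fun i => ¬ 1 < ‖a i‖).card with hs
  have hgs : ∏ i, g i = X ^ s := by
    rw [hg, Finset.prod_ite]
    simp only [Finset.prod_const_one, not_lt, Finset.prod_const, one_mul, hs]
  rw [hgs] at hlim
  -- domination of the coefficient `s`
  have hT1 : Tendsto (fun n => ∑ k ∈ (Finset.range (d + 1)).erase s, ‖(∏ i, f i n).coeff k‖) atTop
      (𝓝 0) := by
    have h1 : Tendsto (fun n => ∑ k ∈ (Finset.range (d + 1)).erase s, ‖(∏ i, f i n).coeff k‖) atTop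
        (𝓝 (∑ k ∈ (Finset.range (d + 1)).erase s, ‖((X : Polynomial ℂ) ^ s).coeff k‖)) :=
      tendsto_finsetSum _ fun k _ => (hlim k).norm
    have h2 : ∑ k ∈ (Finset.range (d + 1)).erase s, ‖((X : Polynomial ℂ) ^ s).coeff k‖ = 0 := by
      refine Finset.sum_eq_zero fun k hk => ?_
      rw [coeff_X_pow, if_neg (Finset.ne_of_mem_erase hk), norm_zero]
    rwa [h2] at h1
  have hT2 : Tendsto (fun n => ‖(∏ i, f i n).coeff s‖) atTop (𝓝 1) := by
    have h1 := (hlim s).norm
    rwa [coeff_X_pow, if_pos rfl, norm_one] at h1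
  obtain ⟨n, hn⟩ := (hT1.eventually_lt hT2 (by norm_num)).exists
  refine ⟨2 ^ n, by positivity, (M ^ (2 ^ n)).charpoly, s, Matrix.aeval_self_charpoly _, ?_⟩
  -- comparison of the characteristic polynomial with the product of the `f i n`
  set q := (M ^ (2 ^ n)).charpoly with hq
  set c : ℂ := ∏ i, (if 1 < ‖a i‖ then -(a i ^ (2 ^ n)) else 1) with hc
  have hc0 : c ≠ 0 := by
    rw [hc, Finset.prod_ne_zero_iff]
    intro i _
    split_ifs with h
    · have h1 : a i ≠ 0 := by
        intro h0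
        rw [h0, norm_zero] at h
        linarith only [h]
      exact neg_ne_zero.mpr (pow_ne_zero _ h1)
    · exact one_ne_zero
  have hqC : q.map (Int.castRingHom ℂ) = C c * ∏ i, f i n := by
    have h1 : q.map (Int.castRingHom ℂ) = ((M.map (Int.castRingHom ℂ)) ^ (2 ^ n)).charpoly := by
      rw [hq, ← Matrix.charpoly_map, Matrix.map_pow]
    rw [h1, Dominant_pow _ _ ha, hc, map_prod, ← Finset.prod_mul_distrib]
    refine Finset.prod_congr rfl fun i _ => ?_
    simp only [hf]
    split_ifs with h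
    · have h1 : a i ^ (2 ^ n) ≠ 0 := by
        apply pow_ne_zero
        intro h0
        rw [h0, norm_zero] at h
        linarith only [h]
      rw [mul_sub, ← mul_assoc, ← C_mul, neg_mul, mul_inv_cancel₀ h1]
      simp only [map_pow, map_neg, mul_one, map_one, neg_mul, one_mul, sub_neg_eq_add]
      ring
    · simp only [map_pow, map_one, one_mul]
  have hcoef : ∀ k, ((|q.coeff k| : ℤ) : ℝ) = ‖c‖ * ‖(∏ i, f i n).coeff k‖ := by
    intro k
    rw [← norm_mul, ← coeff_C_mul, ← hqC, coeff_map]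
    simp [Complex.norm_intCast]
  have hcn : 0 < ‖c‖ := norm_pos_iff.mpr hc0
  have hsub : q.support.erase s ⊆ (Finset.range (d + 1)).erase s := by
    refine Finset.erase_subset_erase _ fun k hk => ?_
    rw [Finset.mem_range, Nat.lt_succ_iff]
    have h1 := le_natDegree_of_mem_supp k hk
    rwa [hq, Matrix.charpoly_natDegree_eq_dim, Fintype.card_fin] at h1
  have hfin : ((∑ i ∈ q.support.erase s, |q.coeff i| : ℤ) : ℝ) < ((|q.coeff s| : ℤ) : ℝ) := by
    rw [hcoef, Int.cast_sum]
    calc ∑ i ∈ q.support.erase s, ((|q.coeff i| : ℤ) : ℝ)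
        ≤ ∑ i ∈ (Finset.range (d + 1)).erase s, ((|q.coeff i| : ℤ) : ℝ) :=
          Finset.sum_le_sum_of_subset_of_nonneg hsub fun i _ _ => by (clear * -; positivity)
      _ = ‖c‖ * ∑ i ∈ (Finset.range (d + 1)).erase s, ‖(∏ i, f i n).coeff i‖ := by
          rw [Finset.mul_sum]
          exact Finset.sum_congr rfl fun i _ => hcoef i
      _ < ‖c‖ * ‖(∏ i, f i n).coeff s‖ := mul_lt_mul_of_pos_left hn hcn
  exact_mod_cast hfin

end Vale.Agent.P188.SG
end
end
end

section

section

section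

/-!
P188, Theorem S: weak mixing of the random walk on vectors orthogonal to the finite-dimensional
invariant subspaces.
-/

universe u v w

open Filter Topology

namespace Vale.Agent.P188.SG

/-- bounded real sequences converge along ultrafilters -/
theorem weakMix_lim (U : Ultrafilter ℕ) (x : ℕ → ℝ) (M : ℝ) (h : ∀ n, |x n| ≤ M) :
    ∃ l, Tendsto x U (𝓝 l) := by
  have hc : IsCompact (Set.Icc (-M) M) := isCompact_Icc
  obtain ⟨l, -, hl⟩ := hc.ultrafilter_le_nhds (U.map x) (by
    rw [le_principal_iff, Ultrafilter.coe_map, mem_map]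
    exact Filter.univ_mem' (fun n => abs_le.mp (h n)))
  exact ⟨l, hl⟩

/-- the bounded operator of a bounded bilinear form -/
theorem weakMix_op {V : Type v} [NormedAddCommGroup V] [InnerProductSpace ℝ V] [CompleteSpace V]
    (B : V → V → ℝ) (h1 : ∀ x y z, B (x + y) z = B x z + B y z)
    (h2 : ∀ (a : ℝ) x z, B (a • x) z = a * B x z)
    (h3 : ∀ x y z, B x (y + z) = B x y + B x z)
    (h4 : ∀ (a : ℝ) x z, B x (a • z) = a * B x z)
    (C : ℝ) (hC : 0 ≤ C) (h5 : ∀ x y, |B x y| ≤ C * ‖x‖ * ‖y‖) :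
    ∃ T : V →L[ℝ] V, ∀ x y, inner ℝ (T x) y = B x y := by
  have hφ : ∀ x : V, ∃ φ : V →L[ℝ] ℝ, ∀ y, φ y = B x y := by
    intro x
    refine ⟨LinearMap.mkContinuous
      { toFun := B x
        map_add' := h3 x
        map_smul' := fun a z => by simpa using h4 a x z } (C * ‖x‖) (fun y => ?_), fun y => rfl⟩
    simpa only [LinearMap.coe_mk, AddHom.coe_mk, Real.norm_eq_abs] using h5 x y
  choose φ hφ using hφ
  have hin : ∀ x y, inner ℝ ((InnerProductSpace.toDual ℝ V).symm (φ x)) y = B x y := by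
    intro x y
    rw [InnerProductSpace.toDual_symm_apply, hφ]
  have hnorm : ∀ x, ‖(InnerProductSpace.toDual ℝ V).symm (φ x)‖ ≤ C * ‖x‖ := by
    intro x
    rw [LinearIsometryEquiv.norm_map]
    refine ContinuousLinearMap.opNorm_le_bound _ (by (clear * - hC; positivity)) (fun y => ?_)
    rw [hφ, Real.norm_eq_abs]
    exact h5 x y
  refine ⟨LinearMap.mkContinuous
    { toFun := fun x => (InnerProductSpace.toDual ℝ V).symm (φ x)
      map_add' := fun x y => ?_
      map_smul' := fun a x => ?_ } C hnorm, fun x y => hin x y⟩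
  · refine ext_inner_right ℝ (fun z => ?_)
    rw [inner_add_left, hin, hin, hin, h1]
  · refine ext_inner_right ℝ (fun z => ?_)
    rw [hin, h2, RingHom.id_apply, real_inner_smul_left, hin]

section Rep

variable {H : Type u} [Group H] {S : Finset H}
variable {V : Type v} [NormedAddCommGroup V] [InnerProductSpace ℝ V]

/-- the averaged form `B_n` -/
noncomputable def weakMixB (S : Finset H) (π : H →* (V ≃ₗᵢ[ℝ] V)) (u : V) (n : ℕ) (x y : V) : ℝ :=
  (n : ℝ)⁻¹ * ∑ j ∈ Finset.range n, Ex S j (fun g => inner ℝ (π g u) x * inner ℝ (π g u) y)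

theorem weakMixB_comm (π : H →* (V ≃ₗᵢ[ℝ] V)) (u : V) (n : ℕ) (x y : V) :
    weakMixB S π u n x y = weakMixB S π u n y x := by
  unfold weakMixB
  simp only [mul_comm (inner ℝ (π _ u) x)]

theorem weakMixB_add (π : H →* (V ≃ₗᵢ[ℝ] V)) (u : V) (n : ℕ) (x y z : V) :
    weakMixB S π u n (x + y) z = weakMixB S π u n x z + weakMixB S π u n y z := by
  unfold weakMixB
  rw [← mul_add, ← Finset.sum_add_distrib]
  congr 1
  refine Finset.sum_congr rfl (fun j _ => ?_)
  rw [← Ex_add]
  congr 1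
  funext g
  rw [inner_add_right]
  ring

theorem weakMixB_smul (π : H →* (V ≃ₗᵢ[ℝ] V)) (u : V) (n : ℕ) (a : ℝ) (x z : V) :
    weakMixB S π u n (a • x) z = a * weakMixB S π u n x z := by
  unfold weakMixB
  rw [mul_left_comm a]
  congr 1
  rw [Finset.mul_sum]
  refine Finset.sum_congr rfl (fun j _ => ?_)
  rw [← Ex_smul]
  congr 1
  funext g
  rw [real_inner_smul_right]
  ring

/-- averages of bounded quantities are bounded -/
theorem weakMix_avg_le (n : ℕ) (f : ℕ → ℝ) (M : ℝ) (hM : 0 ≤ M) (h : ∀ j, f j ≤ M) :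
    (n : ℝ)⁻¹ * ∑ j ∈ Finset.range n, f j ≤ M := by
  have h1 : ∑ j ∈ Finset.range n, f j ≤ n * M := by
    have := Finset.sum_le_card_nsmul (Finset.range n) f M (fun j _ => h j)
    simpa only [ge_iff_le, Finset.card_range, nsmul_eq_mul] using this
  rcases Nat.eq_zero_or_pos n with rfl | hn
  · simpa only [CharP.cast_eq_zero, inv_zero, Finset.range_zero, Finset.sum_empty, mul_zero, ge_iff_le] using hM
  · have hn' : (0 : ℝ) < n := by exact_mod_cast hn
    calc (n : ℝ)⁻¹ * ∑ j ∈ Finset.range n, f j ≤ (n : ℝ)⁻¹ * (n * M) :=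
          mul_le_mul_of_nonneg_left h1 (by (clear * - hn; positivity))
      _ = M := by (clear * - hn; field_simp)

theorem weakMixB_abs (hS : S.Nonempty) (π : H →* (V ≃ₗᵢ[ℝ] V)) (u : V) (n : ℕ) (x y : V) :
    |weakMixB S π u n x y| ≤ ‖u‖ ^ 2 * ‖x‖ * ‖y‖ := by
  have hb : ∀ j, |Ex S j (fun g => inner ℝ (π g u) x * inner ℝ (π g u) y)| ≤
      ‖u‖ ^ 2 * ‖x‖ * ‖y‖ := by
    intro j
    refine Ex_abs_le hS j (fun g => ?_)
    rw [abs_mul]
    have h1 := abs_real_inner_le_norm (π g u) x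
    have h2 := abs_real_inner_le_norm (π g u) y
    rw [LinearIsometryEquiv.norm_map] at h1 h2
    calc |inner ℝ (π g u) x| * |inner ℝ (π g u) y| ≤ (‖u‖ * ‖x‖) * (‖u‖ * ‖y‖) :=
          mul_le_mul h1 h2 (abs_nonneg _) (by (clear * -; positivity))
      _ = ‖u‖ ^ 2 * ‖x‖ * ‖y‖ := by ring
  unfold weakMixB
  rw [abs_le]
  constructor
  · have := weakMix_avg_le n (fun j => -Ex S j (fun g => inner ℝ (π g u) x * inner ℝ (π g u) y))
      (‖u‖ ^ 2 * ‖x‖ * ‖y‖) (by (clear * -; positivity)) (fun j => by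
        have := neg_abs_le (Ex S j (fun g => inner ℝ (π g u) x * inner ℝ (π g u) y))
        have := hb j
        linarith)
    rw [Finset.sum_neg_distrib, mul_neg] at this
    linarith
  · exact weakMix_avg_le n _ _ (by (clear * -; positivity)) (fun j => (le_abs_self _).trans (hb j))

theorem weakMixB_nonneg (π : H →* (V ≃ₗᵢ[ℝ] V)) (u : V) (n : ℕ) (x : V) :
    0 ≤ weakMixB S π u n x x := by
  unfold weakMixB
  refine mul_nonneg (by (clear * -; positivity)) (Finset.sum_nonneg (fun j _ => ?_))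
  exact Ex_nonneg j (fun g => mul_self_nonneg _)

theorem weakMixB_trace (hS : S.Nonempty) (π : H →* (V ≃ₗᵢ[ℝ] V)) (u : V) (n : ℕ) (m : ℕ)
    (e : Fin m → V) (he : Orthonormal ℝ e) :
    ∑ i, weakMixB S π u n (e i) (e i) ≤ ‖u‖ ^ 2 := by
  unfold weakMixB
  rw [← Finset.mul_sum, Finset.sum_comm]
  refine weakMix_avg_le n _ _ (by (clear * -; positivity)) (fun j => ?_)
  rw [← Ex_sum]
  rw [← Ex_const (S := S) hS j (‖u‖ ^ 2)]
  refine Ex_mono j (fun g => ?_)
  have h1 := Orthonormal.sum_inner_products_le (π g u) he (s := Finset.univ)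
  rw [LinearIsometryEquiv.norm_map] at h1
  refine le_trans (le_of_eq ?_) h1
  refine Finset.sum_congr rfl (fun i _ => ?_)
  rw [Real.norm_eq_abs, sq_abs, real_inner_comm (e i) (π g u)]
  ring

/-- stationarity -/
theorem weakMixB_stat (hS : S.Nonempty) (π : H →* (V ≃ₗᵢ[ℝ] V)) (u : V) (x : V) :
    Tendsto (fun n => (S.card : ℝ)⁻¹ * ∑ s ∈ S,
      weakMixB S π u n ((π s)⁻¹ x) ((π s)⁻¹ x) - weakMixB S π u n x x) atTop (𝓝 0) := by
  set φ : H → ℝ := fun g => inner ℝ (π g u) x * inner ℝ (π g u) x with hφ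
  have hb : ∀ g, |φ g| ≤ (‖u‖ * ‖x‖) ^ 2 := by
    intro g
    have h1 := abs_real_inner_le_norm (π g u) x
    rw [LinearIsometryEquiv.norm_map] at h1
    rw [hφ]
    simp only [abs_mul]
    rw [sq]
    exact mul_le_mul h1 h1 (abs_nonneg _) (by (clear * -; positivity))
  have hkey : ∀ n, (S.card : ℝ)⁻¹ * ∑ s ∈ S,
      weakMixB S π u n ((π s)⁻¹ x) ((π s)⁻¹ x) - weakMixB S π u n x x =
      (n : ℝ)⁻¹ * (Ex S n φ - Ex S 0 φ) := by
    intro n
    have e1 : ∀ s ∈ S, weakMixB S π u n ((π s)⁻¹ x) ((π s)⁻¹ x) =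
        (n : ℝ)⁻¹ * ∑ j ∈ Finset.range n, Ex S j (fun g => φ (s * g)) := by
      intro s _
      unfold weakMixB
      congr 1
      refine Finset.sum_congr rfl (fun j _ => ?_)
      congr 1
      funext g
      have e2 : inner ℝ (π g u) ((π s)⁻¹ x) = inner ℝ (π (s * g) u) x := by
        rw [← LinearIsometryEquiv.inner_map_map (π s) (π g u) ((π s)⁻¹ x), map_mul]
        congr 1
        show (π s * (π s)⁻¹) x = x
        rw [mul_inv_cancel]
        rfl
      rw [hφ]
      simp only [e2]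
    rw [Finset.sum_congr rfl e1, ← Finset.mul_sum, Finset.sum_comm, mul_left_comm,
      Finset.mul_sum (Finset.range n)]
    have e3 : ∑ j ∈ Finset.range n, (S.card : ℝ)⁻¹ * ∑ s ∈ S, Ex S j (fun g => φ (s * g)) =
        ∑ j ∈ Finset.range n, Ex S (j + 1) φ :=
      Finset.sum_congr rfl (fun j _ => (Ex_succ' j φ).symm)
    rw [e3]
    have e4 : weakMixB S π u n x x = (n : ℝ)⁻¹ * ∑ j ∈ Finset.range n, Ex S j φ := rfl
    rw [e4, ← mul_sub, ← Finset.sum_sub_distrib, Finset.sum_range_sub (fun j => Ex S j φ)]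
  simp only [hkey]
  refine squeeze_zero_norm (a := fun n : ℕ => (n : ℝ)⁻¹ * (2 * (‖u‖ * ‖x‖) ^ 2)) (fun n => ?_) ?_
  · rw [norm_mul, Real.norm_eq_abs, Real.norm_eq_abs, abs_of_nonneg (by (clear * -; positivity))]
    refine mul_le_mul_of_nonneg_left ?_ (by (clear * -; positivity))
    have h1 := Ex_abs_le hS n hb
    have h2 := Ex_abs_le hS 0 hb
    have h3 := abs_sub (Ex S n φ) (Ex S 0 φ)
    linarith only [h1, h2, h3]
  · have := (tendsto_inv_atTop_nhds_zero_nat (𝕜 := ℝ)).mul_const (2 * (‖u‖ * ‖x‖) ^ 2)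
    simpa only [zero_mul] using this

variable [CompleteSpace V]

theorem weak_mixing (hS : SymGen S) (π : H →* (V ≃ₗᵢ[ℝ] V)) (u v : V) (hu : FDOrth π u) :
    Tendsto (fun n : ℕ => (n : ℝ)⁻¹ *
      ∑ j ∈ Finset.range n, Ex S j (fun g => (inner ℝ (π g u) v) ^ 2)) atTop (𝓝 0) := by
  have hrw : (fun n : ℕ => (n : ℝ)⁻¹ *
      ∑ j ∈ Finset.range n, Ex S j (fun g => (inner ℝ (π g u) v) ^ 2)) =
      fun n => weakMixB S π u n v v := by
    funext n
    simp only [weakMixB, sq]
  rw [hrw]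
  by_contra hcon
  rw [Metric.tendsto_nhds] at hcon
  push Not at hcon
  obtain ⟨ε, hε, hfr⟩ := hcon
  rw [frequently_iff_neBot] at hfr
  set U : Ultrafilter ℕ := Ultrafilter.of (atTop ⊓ 𝓟 {n | ε ≤ dist (weakMixB S π u n v v) 0}) with hU
  have hUle : (U : Filter ℕ) ≤ atTop ⊓ 𝓟 {n | ε ≤ dist (weakMixB S π u n v v) 0} :=
    Ultrafilter.of_le _
  have hUtop : (U : Filter ℕ) ≤ atTop := hUle.trans inf_le_left
  have hUε : ∀ᶠ n in (U : Filter ℕ), ε ≤ weakMixB S π u n v v := by
    have : ∀ᶠ n in (U : Filter ℕ), ε ≤ dist (weakMixB S π u n v v) 0 :=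
      hUle.trans inf_le_right (mem_principal_self _)
    filter_upwards [this] with n hn
    rwa [Real.dist_eq, sub_zero, abs_of_nonneg (weakMixB_nonneg π u n v)] at hn
  have hlim : ∀ x y : V, ∃ l, Tendsto (fun n => weakMixB S π u n x y) U (𝓝 l) := fun x y =>
    weakMix_lim U _ _ (fun n => weakMixB_abs hS.ne π u n x y)
  choose B hB using hlim
  have hadd : ∀ x y z, B (x + y) z = B x z + B y z := fun x y z => by
    refine tendsto_nhds_unique (hB (x + y) z) ?_
    simp only [weakMixB_add]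
    exact (hB x z).add (hB y z)
  have hsmul : ∀ (a : ℝ) x z, B (a • x) z = a * B x z := fun a x z => by
    refine tendsto_nhds_unique (hB (a • x) z) ?_
    simp only [weakMixB_smul]
    exact (hB x z).const_mul a
  have hcomm : ∀ x y, B x y = B y x := fun x y => by
    refine tendsto_nhds_unique (hB x y) ?_
    simp only [weakMixB_comm π u _ x y]
    exact hB y x
  have hBabs : ∀ x y, |B x y| ≤ ‖u‖ ^ 2 * ‖x‖ * ‖y‖ := fun x y =>
    le_of_tendsto (hB x y).abs (Eventually.of_forall (fun n => weakMixB_abs hS.ne π u n x y))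
  obtain ⟨T, hT⟩ := weakMix_op B hadd hsmul (fun x y z => by
      rw [hcomm x, hadd, hcomm y, hcomm z]) (fun a x z => by rw [hcomm x, hsmul, hcomm z])
      (‖u‖ ^ 2) (by (clear * -; positivity)) hBabs
  have hpos : ∀ x, 0 ≤ B x x := fun x =>
    ge_of_tendsto (hB x x) (Eventually.of_forall (fun n => weakMixB_nonneg π u n x))
  have htr : ∀ (m : ℕ) (e : Fin m → V), Orthonormal ℝ e →
      ∑ i, inner ℝ (T (e i)) (e i) ≤ ‖u‖ ^ 2 := by
    intro m e he
    simp only [hT]
    have h1 : Tendsto (fun n => ∑ i, weakMixB S π u n (e i) (e i)) U (𝓝 (∑ i, B (e i) (e i))) :=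
      tendsto_finsetSum _ (fun i _ => hB (e i) (e i))
    exact le_of_tendsto h1 (Eventually.of_forall (fun n => weakMixB_trace hS.ne π u n m e he))
  have hvv : ε ≤ B v v := ge_of_tendsto (hB v v) hUε
  have hT0 : T ≠ 0 := by
    intro h0
    have := hT v v
    rw [h0, zero_apply, inner_zero_left] at this
    linarith only [this, hvv, hε]
  obtain ⟨lam, W, hlam, hW, hW0, hle, hiff⟩ := top_eigenspace T
    (fun x y => by rw [hT, real_inner_comm, hT, hcomm]) (fun x => by rw [hT]; exact hpos x)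
    (‖u‖ ^ 2) htr hT0
  have hstat : ∀ x, (S.card : ℝ)⁻¹ * ∑ s ∈ S, B ((π s)⁻¹ x) ((π s)⁻¹ x) = B x x := by
    intro x
    have h1 : Tendsto (fun n => (S.card : ℝ)⁻¹ * ∑ s ∈ S,
        weakMixB S π u n ((π s)⁻¹ x) ((π s)⁻¹ x) - weakMixB S π u n x x) U
        (𝓝 ((S.card : ℝ)⁻¹ * ∑ s ∈ S, B ((π s)⁻¹ x) ((π s)⁻¹ x) - B x x)) :=
      ((tendsto_finsetSum _ (fun s _ => hB _ _)).const_mul _).sub (hB x x)
    have h2 := tendsto_nhds_unique h1 ((weakMixB_stat hS.ne π u x).mono_left hUtop)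
    linarith only [h2]
  have hcard : (0 : ℝ) < S.card := by exact_mod_cast hS.ne.card_pos
  have hinv1 : ∀ s ∈ S, ∀ x ∈ W, (π s)⁻¹ x ∈ W := by
    intro s hs x hx
    have h1 : B x x = lam * ‖x‖ ^ 2 := by rw [← hT]; exact (hiff x).2 hx
    have h2 : ∀ t ∈ S, B ((π t)⁻¹ x) ((π t)⁻¹ x) ≤ lam * ‖x‖ ^ 2 := by
      intro t _
      have := hle ((π t)⁻¹ x)
      rw [hT, LinearIsometryEquiv.norm_map] at this
      exact this
    have h3 : ∑ t ∈ S, B ((π t)⁻¹ x) ((π t)⁻¹ x) = ∑ _t ∈ S, lam * ‖x‖ ^ 2 := by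
      have h4 := hstat x
      rw [h1] at h4
      rw [Finset.sum_const, nsmul_eq_mul]
      field_simp at h4
      linarith only [h4]
    have h5 := (Finset.sum_eq_sum_iff_of_le h2).1 h3 s hs
    rw [← hiff, hT, LinearIsometryEquiv.norm_map]
    exact h5
  have hinv2 : ∀ s ∈ S, ∀ x ∈ W, π s x ∈ W := by
    intro s hs x hx
    have := hinv1 s⁻¹ (hS.inv s hs) x hx
    rwa [map_inv, inv_inv] at this
  have hInv : Inv π W := by
    intro g
    have hg : g ∈ Subgroup.closure (S : Set H) := by rw [hS.gen]; trivial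
    induction hg using Subgroup.closure_induction'' with
    | mem s hs => exact hinv2 s hs
    | inv_mem s hs => 
      intro x hx
      rw [map_inv]
      exact hinv1 s hs x hx
    | one => 
      intro x hx
      rw [map_one]
      exact hx
    | mul a b _ _ ha hb =>
      intro x hx
      rw [map_mul]
      exact ha _ (hb x hx)
  have horth : ∀ x ∈ W, ∀ g, inner ℝ (π g u) x = 0 := by
    intro x hx g
    have h1 := hu W hW hInv _ (hInv g⁻¹ x hx)
    rw [← LinearIsometryEquiv.inner_map_map (π g)] at h1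
    rw [real_inner_comm]
    have h2 : π g (π g⁻¹ x) = x := by
      show (π g * π g⁻¹) x = x
      rw [← map_mul, mul_inv_cancel, map_one]
      rfl
    rwa [h2] at h1
  obtain ⟨x, hx, hx0⟩ := Submodule.exists_mem_ne_zero_of_ne_bot hW0
  have h1 : B x x = 0 := by
    have : ∀ n, weakMixB S π u n x x = 0 := by
      intro n
      unfold weakMixB
      have : (fun g => inner ℝ (π g u) x * inner ℝ (π g u) x) = fun _ : H => (0 : ℝ) := by
        funext g
        rw [horth x hx g, mul_zero]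
      simp only [this, Ex_const hS.ne, Finset.sum_const_zero, mul_zero]
    refine tendsto_nhds_unique (hB x x) ?_
    simp only [this]
    exact tendsto_const_nhds
  have h2 : B x x = lam * ‖x‖ ^ 2 := by rw [← hT]; exact (hiff x).2 hx
  have h3 : 0 < ‖x‖ := norm_pos_iff.2 hx0
  have h4 : 0 < lam * ‖x‖ ^ 2 := by (clear * - hlam hx0; positivity)
  linarith only [h1, h2, h4]

end Rep

end Vale.Agent.P188.SG
end
end
end

section

section

section

/-!
P188, Theorem S, the Erschler–Ozawa argument: over a group with a cautious random walk, a harmonic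
cocycle whose values on the generators are orthogonal to all finite-dimensional invariant
subspaces vanishes.
-/

universe u v w

open Filter Topology

namespace Vale.Agent.P188.SG

section EO

variable {H : Type u} [Group H] {S : Finset H}
variable {V : Type v} [NormedAddCommGroup V] [InnerProductSpace ℝ V]
variable {π : H →* (V ≃ₗᵢ[ℝ] V)} {b : H → V}

theorem EO_one (hb : IsCocycle π b) : b 1 = 0 := by
  have h := hb 1 1
  rw [mul_one, map_one] at h
  simpa only [LinearIsometryEquiv.coe_one, id_eq, left_eq_add] using h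

theorem EO_inv (hb : IsCocycle π b) (g : H) : b g = -π g (b g⁻¹) := by
  have h := hb g g⁻¹
  rw [mul_inv_cancel, EO_one hb] at h
  exact eq_neg_of_add_eq_zero_left h.symm

theorem EO_inner_sq (hb : IsCocycle π b) (g : H) (u : V) :
    (inner ℝ (b g) (π g u)) ^ 2 = (inner ℝ (b g⁻¹) u) ^ 2 := by
  rw [EO_inv hb g, inner_neg_left, LinearIsometryEquiv.inner_map_map, neg_sq]

omit [Group H] in
/-- the variance identity -/
theorem EO_var (hS : S.Nonempty) (A : ℝ) (d : H → ℝ) (hd : ∑ s ∈ S, d s = 0) :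
    (S.card : ℝ)⁻¹ * ∑ s ∈ S, (A + d s) ^ 2 = A ^ 2 + (S.card : ℝ)⁻¹ * ∑ s ∈ S, d s ^ 2 := by
  have hc : (S.card : ℝ) ≠ 0 := by exact_mod_cast hS.card_pos.ne'
  have h1 : ∀ s ∈ S, (A + d s) ^ 2 = A ^ 2 + 2 * A * d s + d s ^ 2 := fun s _ => by ring
  rw [Finset.sum_congr rfl h1, Finset.sum_add_distrib, Finset.sum_add_distrib, Finset.sum_const,
    nsmul_eq_mul, ← Finset.mul_sum, hd, mul_zero, add_zero, mul_add, inv_mul_cancel_left₀ hc]

theorem EO_q_succ (hS : SymGen S) (hb : IsCocycle π b) (hh : ∑ s ∈ S, b s = 0) (n : ℕ) (v : V) :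
    Ex S (n + 1) (fun g => (inner ℝ (b g) v) ^ 2) = Ex S n (fun g => (inner ℝ (b g) v) ^ 2) +
      (S.card : ℝ)⁻¹ * ∑ s ∈ S, Ex S n (fun g => (inner ℝ (π g (b s)) v) ^ 2) := by
  have h : avg S (fun g => (inner ℝ (b g) v) ^ 2) = fun g => (inner ℝ (b g) v) ^ 2 +
      (S.card : ℝ)⁻¹ * ∑ s ∈ S, (inner ℝ (π g (b s)) v) ^ 2 := by
    funext g
    have h0 : ∑ s ∈ S, inner ℝ (π g (b s)) v = 0 := by
      rw [← sum_inner, ← map_sum, hh, map_zero, inner_zero_left]
    rw [← EO_var hS.ne _ _ h0]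
    simp only [avg, hb g, inner_add_left]
  rw [Ex_succ, h, Ex_add, Ex_smul, Ex_sum]

theorem EO_q_mono (hS : SymGen S) (hb : IsCocycle π b) (hh : ∑ s ∈ S, b s = 0) (n : ℕ) (v : V) :
    Ex S n (fun g => (inner ℝ (b g) v) ^ 2) ≤ Ex S (n + 1) (fun g => (inner ℝ (b g) v) ^ 2) := by
  rw [EO_q_succ hS hb hh]
  have h : 0 ≤ (S.card : ℝ)⁻¹ * ∑ s ∈ S, Ex S n (fun g => (inner ℝ (π g (b s)) v) ^ 2) :=
    mul_nonneg (by (clear * -; positivity)) (Finset.sum_nonneg fun s _ => Ex_nonneg n fun g => sq_nonneg _)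
  linarith

theorem EO_q_lim [CompleteSpace V] (hS : SymGen S) (hb : IsCocycle π b) (hh : ∑ s ∈ S, b s = 0)
    (ho : ∀ s ∈ S, FDOrth π (b s)) (v : V) :
    Tendsto (fun n : ℕ => (n : ℝ)⁻¹ * Ex S n (fun g => (inner ℝ (b g) v) ^ 2)) atTop (𝓝 0) := by
  have h1 : ∀ n : ℕ, Ex S n (fun g => (inner ℝ (b g) v) ^ 2) = (S.card : ℝ)⁻¹ *
      ∑ s ∈ S, ∑ j ∈ Finset.range n, Ex S j (fun g => (inner ℝ (π g (b s)) v) ^ 2) := by
    intro n
    induction n with
    | zero => simp only [Ex_zero, EO_one hb, inner_zero_left, ne_eq, OfNat.ofNat_ne_zero, not_false_eq_true, zero_pow, Finset.range_zero, Finset.sum_empty, Finset.sum_const_zero, mul_zero]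
    | succ n ih =>
      rw [EO_q_succ hS hb hh, ih]
      simp only [Finset.sum_range_succ, Finset.sum_add_distrib, mul_add]
  have h2 : (fun n : ℕ => (n : ℝ)⁻¹ * Ex S n (fun g => (inner ℝ (b g) v) ^ 2)) = fun n : ℕ =>
      (S.card : ℝ)⁻¹ * ∑ s ∈ S, ((n : ℝ)⁻¹ *
        ∑ j ∈ Finset.range n, Ex S j (fun g => (inner ℝ (π g (b s)) v) ^ 2)) := by
    funext n
    rw [h1, ← Finset.mul_sum]
    ring
  rw [h2]
  have h3 := tendsto_finsetSum S (fun s hs => weak_mixing hS π (b s) v (ho s hs))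
  have h4 := h3.const_mul (S.card : ℝ)⁻¹
  simpa only [Finset.sum_const_zero, mul_zero] using h4

/-- the error term in the recursion for the fourth moment -/
noncomputable def EO_r (S : Finset H) (b : H → V) (n : ℕ) : ℝ :=
  (S.card : ℝ)⁻¹ * ∑ s ∈ S, 8 * Ex S n (fun g => (inner ℝ (b g) (b s)) ^ 2)

/-- the mean square of the increments -/
noncomputable def EO_sig (S : Finset H) (b : H → V) : ℝ :=
  (S.card : ℝ)⁻¹ * ∑ s ∈ S, ‖b s‖ ^ 2

/-- the constant in the recursion for the fourth moment -/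
noncomputable def EO_C (S : Finset H) (b : H → V) : ℝ :=
  (S.card : ℝ)⁻¹ * ∑ s ∈ S, 2 * (‖b s‖ ^ 2 - EO_sig S b) ^ 2

theorem EO_r_mono (hS : SymGen S) (hb : IsCocycle π b) (hh : ∑ s ∈ S, b s = 0) (n : ℕ) :
    EO_r S b n ≤ EO_r S b (n + 1) := by
  unfold EO_r
  refine mul_le_mul_of_nonneg_left (Finset.sum_le_sum fun s _ => ?_) (by (clear * -; positivity))
  exact mul_le_mul_of_nonneg_left (EO_q_mono hS hb hh n _) (by norm_num)

theorem EO_r_lim [CompleteSpace V] (hS : SymGen S) (hb : IsCocycle π b) (hh : ∑ s ∈ S, b s = 0)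
    (ho : ∀ s ∈ S, FDOrth π (b s)) :
    Tendsto (fun n : ℕ => (n : ℝ)⁻¹ * EO_r S b n) atTop (𝓝 0) := by
  have h2 : (fun n : ℕ => (n : ℝ)⁻¹ * EO_r S b n) = fun n : ℕ =>
      (S.card : ℝ)⁻¹ * ∑ s ∈ S, (8 * ((n : ℝ)⁻¹ *
        Ex S n (fun g => (inner ℝ (b g) (b s)) ^ 2))) := by
    funext n
    unfold EO_r
    simp only [Finset.mul_sum]
    exact Finset.sum_congr rfl fun s _ => by ring
  rw [h2]
  have h3 := tendsto_finsetSum S
    (fun s (_ : s ∈ S) => (EO_q_lim hS hb hh ho (b s)).const_mul 8)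
  have h4 := h3.const_mul (S.card : ℝ)⁻¹
  simpa only [mul_zero, Finset.sum_const_zero] using h4

theorem EO_M_succ (hS : SymGen S) (hb : IsCocycle π b) (hh : ∑ s ∈ S, b s = 0) (n : ℕ) (t : ℝ) :
    Ex S (n + 1) (fun g => (‖b g‖ ^ 2 - (t + 1) * EO_sig S b) ^ 2) ≤
      Ex S n (fun g => (‖b g‖ ^ 2 - t * EO_sig S b) ^ 2) + (EO_C S b + EO_r S b n) := by
  have hc : (S.card : ℝ) ≠ 0 := by exact_mod_cast hS.ne.card_pos.ne'
  have h : avg S (fun g => (‖b g‖ ^ 2 - (t + 1) * EO_sig S b) ^ 2) = fun g =>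
      (‖b g‖ ^ 2 - t * EO_sig S b) ^ 2 + (S.card : ℝ)⁻¹ *
        ∑ s ∈ S, (‖b s‖ ^ 2 - EO_sig S b + 2 * inner ℝ (b g) (π g (b s))) ^ 2 := by
    funext g
    have h0 : ∑ s ∈ S, (‖b s‖ ^ 2 - EO_sig S b + 2 * inner ℝ (b g) (π g (b s))) = 0 := by
      rw [Finset.sum_add_distrib, ← Finset.mul_sum, ← inner_sum, ← map_sum, hh, map_zero,
        inner_zero_right, mul_zero, add_zero, Finset.sum_sub_distrib, Finset.sum_const,
        nsmul_eq_mul, EO_sig, mul_inv_cancel_left₀ hc, sub_self]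
    rw [← EO_var hS.ne _ _ h0]
    simp only [avg]
    congr 1
    refine Finset.sum_congr rfl fun s _ => ?_
    rw [hb g s, norm_add_sq_real, LinearIsometryEquiv.norm_map]
    ring
  rw [Ex_succ, h, Ex_add]
  refine add_le_add le_rfl ?_
  have h1 : ∀ g : H, (S.card : ℝ)⁻¹ *
        ∑ s ∈ S, (‖b s‖ ^ 2 - EO_sig S b + 2 * inner ℝ (b g) (π g (b s))) ^ 2 ≤
      EO_C S b + (S.card : ℝ)⁻¹ * ∑ s ∈ S, 8 * (inner ℝ (b g⁻¹) (b s)) ^ 2 := by
    intro g
    unfold EO_C
    rw [← mul_add, ← Finset.sum_add_distrib]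
    refine mul_le_mul_of_nonneg_left (Finset.sum_le_sum fun s _ => ?_) (by (clear * - hc; positivity))
    rw [← EO_inner_sq hb g (b s)]
    linarith only [sq_nonneg (‖b s‖ ^ 2 - EO_sig S b - 2 * inner ℝ (b g) (π g (b s)))]
  refine (Ex_mono n h1).trans (le_of_eq ?_)
  rw [Ex_add, Ex_const hS.ne, Ex_smul, Ex_sum]
  unfold EO_r
  congr 2
  refine Finset.sum_congr rfl fun s _ => ?_
  rw [Ex_smul, Ex_inv hS.inv n (fun g => (inner ℝ (b g) (b s)) ^ 2)]

theorem EO_M_le (hS : SymGen S) (hb : IsCocycle π b) (hh : ∑ s ∈ S, b s = 0) (n : ℕ) :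
    Ex S n (fun g => (‖b g‖ ^ 2 - n * EO_sig S b) ^ 2) ≤ n * (EO_C S b + EO_r S b n) := by
  induction n with
  | zero => simp [Ex_zero, EO_one hb]
  | succ n ih =>
    have h1 := EO_M_succ hS hb hh n n
    have h2 := EO_r_mono hS hb hh n
    have h3 : (0 : ℝ) ≤ n := Nat.cast_nonneg n
    push_cast
    linarith only [mul_nonneg (sub_nonneg.2 h2) (sub_nonneg.2 h3), h2, h1, ih]

/-- cocycles are Lipschitz -/
theorem EO_lip (hS : SymGen S) (hb : IsCocycle π b) (g : H) :
    ‖b g‖ ≤ (∑ s ∈ S, ‖b s‖) * len S g := by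
  set L := ∑ s ∈ S, ‖b s‖ with hL
  have hL0 : 0 ≤ L := Finset.sum_nonneg fun s _ => norm_nonneg _
  have hLs : ∀ s ∈ S, ‖b s‖ ≤ L := fun s hs =>
    Finset.single_le_sum (f := fun s => ‖b s‖) (fun t _ => norm_nonneg _) hs
  obtain ⟨p, hp0, hp1, -, -, hp⟩ := exists_path hS.gen g
  have key : ∀ i : ℕ, ‖b (p i)‖ ≤ L * i := by
    intro i
    induction i with
    | zero => simp [hp0, EO_one hb]
    | succ i ih =>
      push_cast
      rcases hp i with h | ⟨s, hs, h⟩
      · rw [h]
        linarith only [ih, hL0]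
      · have hs' : s ∈ S := by
          rcases hs with hs | hs
          · exact hs
          · simpa using hS.inv _ hs
        rw [h, hb (p i) s]
        refine (norm_add_le _ _).trans ?_
        rw [LinearIsometryEquiv.norm_map]
        linarith only [hLs s hs', ih]
  have := key (len S g)
  rwa [hp1] at this

theorem harmonic_eq_zero [CompleteSpace V] (hS : SymGen S) (hc : Cautious S)
    (π : H →* (V ≃ₗᵢ[ℝ] V)) (b : H → V)
    (hb : IsCocycle π b) (hh : ∑ s ∈ S, b s = 0) (ho : ∀ s ∈ S, FDOrth π (b s)) :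
    ∀ g, b g = 0 := by
  set L := ∑ s ∈ S, ‖b s‖ with hL
  have hL0 : 0 ≤ L := Finset.sum_nonneg fun s _ => norm_nonneg _
  have hcard : 0 < (S.card : ℝ) := by exact_mod_cast hS.ne.card_pos
  have hsig0 : 0 ≤ EO_sig S b :=
    mul_nonneg (by (clear * - hcard; (clear * - hcard; positivity))) (Finset.sum_nonneg fun s _ => sq_nonneg _)
  rcases hsig0.eq_or_lt with hsig | hsig
  · -- all increments vanish
    have h1 : ∑ s ∈ S, ‖b s‖ ^ 2 = 0 := by
      rcases mul_eq_zero.mp hsig.symm with h | h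
      · exact absurd h (inv_ne_zero hcard.ne')
      · exact h
    have h2 : ∀ s ∈ S, ‖b s‖ ^ 2 = 0 :=
      (Finset.sum_eq_zero_iff_of_nonneg fun s _ => sq_nonneg _).mp h1
    have h3 : L = 0 := Finset.sum_eq_zero fun s hs => pow_eq_zero_iff (two_ne_zero) |>.mp (h2 s hs)
    intro g
    have h4 := EO_lip hS hb g
    rw [← hL, h3, zero_mul] at h4
    exact norm_le_zero_iff.mp h4
  · exfalso
    set c : ℝ := Real.sqrt (EO_sig S b / 2) / (L + 1) with hcdef
    have hc0 : 0 < c := by (clear * - hsig; (clear * - hsig; positivity))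
    have hLc : L ^ 2 * c ^ 2 ≤ EO_sig S b / 2 := by
      have h1 : L * c ≤ Real.sqrt (EO_sig S b / 2) := by
        rw [hcdef, mul_div_assoc', div_le_iff₀ (by (clear * -; positivity))]
        linarith only [Real.sqrt_nonneg (EO_sig S b / 2)]
      have h2 : (L * c) ^ 2 ≤ Real.sqrt (EO_sig S b / 2) ^ 2 :=
        pow_le_pow_left₀ (by (clear * - hsig; positivity)) h1 2
      rw [Real.sq_sqrt (by (clear * - hsig; positivity)), mul_pow] at h2
      exact h2
    obtain ⟨δ, hδ, hfreq⟩ := hc c hc0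
    -- the bound for the probability
    have hbound : ∀ n : ℕ, 0 < n →
        Ex S n (fun g => if (len S g : ℝ) ≤ c * Real.sqrt n then 1 else 0) ≤
          4 / EO_sig S b ^ 2 * ((n : ℝ)⁻¹ * EO_C S b + (n : ℝ)⁻¹ * EO_r S b n) := by
      intro n hn
      have hn' : (0 : ℝ) < n := by exact_mod_cast hn
      have ha : 0 < (n * EO_sig S b / 2) ^ 2 := by (clear * - hn hsig; positivity)
      have h1 : Ex S n (fun g => if (len S g : ℝ) ≤ c * Real.sqrt n then 1 else 0) ≤
          Ex S n (fun g => if (n * EO_sig S b / 2) ^ 2 ≤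
            (‖b g‖ ^ 2 - n * EO_sig S b) ^ 2 then 1 else 0) := by
        refine Ex_mono n fun g => ?_
        by_cases hg : (len S g : ℝ) ≤ c * Real.sqrt n
        · have h2 : ‖b g‖ ≤ L * (c * Real.sqrt n) :=
            (EO_lip hS hb g).trans (mul_le_mul_of_nonneg_left hg hL0)
          have h3 : ‖b g‖ ^ 2 ≤ n * EO_sig S b / 2 := by
            calc ‖b g‖ ^ 2 ≤ (L * (c * Real.sqrt n)) ^ 2 :=
                  pow_le_pow_left₀ (norm_nonneg _) h2 2
              _ = L ^ 2 * c ^ 2 * Real.sqrt n ^ 2 := by ring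
              _ = L ^ 2 * c ^ 2 * n := by rw [Real.sq_sqrt hn'.le]
              _ ≤ EO_sig S b / 2 * n := mul_le_mul_of_nonneg_right hLc hn'.le
              _ = n * EO_sig S b / 2 := by ring
          have h4 : (n * EO_sig S b / 2) ^ 2 ≤ (‖b g‖ ^ 2 - n * EO_sig S b) ^ 2 := by
            have h5 : 0 ≤ n * EO_sig S b / 2 := by (clear * - hn hsig; positivity)
            linarith only [mul_nonneg (sub_nonneg.2 h3) (sq_nonneg ‖b g‖), mul_nonneg (sub_nonneg.2 h3) (sub_nonneg.2 h3)]
          rw [if_pos hg, if_pos h4]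
        · rw [if_neg hg]
          split_ifs <;> norm_num
      refine h1.trans ((Ex_markov n (fun g => sq_nonneg _) ha).trans ?_)
      refine (mul_le_mul_of_nonneg_left (EO_M_le hS hb hh n) (by (clear * - hn hsig; positivity))).trans
        (le_of_eq ?_)
      field_simp
      ring
    have hlim : Tendsto (fun n : ℕ =>
        4 / EO_sig S b ^ 2 * ((n : ℝ)⁻¹ * EO_C S b + (n : ℝ)⁻¹ * EO_r S b n)) atTop (𝓝 0) := by
      have h1 : Tendsto (fun n : ℕ => (n : ℝ)⁻¹ * EO_C S b) atTop (𝓝 0) := by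
        have := (tendsto_inv_atTop_nhds_zero_nat (𝕜 := ℝ)).mul_const (EO_C S b)
        simpa only [zero_mul] using this
      have h2 := ((h1.add (EO_r_lim hS hb hh ho)).const_mul (4 / EO_sig S b ^ 2))
      simpa only [add_zero, mul_zero] using h2
    have hev : ∀ᶠ n : ℕ in atTop,
        4 / EO_sig S b ^ 2 * ((n : ℝ)⁻¹ * EO_C S b + (n : ℝ)⁻¹ * EO_r S b n) < δ :=
      hlim.eventually (gt_mem_nhds hδ)
    obtain ⟨n, hn1, hn2, hn3⟩ := (hfreq.and_eventually (hev.and (eventually_gt_atTop 0))).exists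
    exact absurd (hn1.trans (hbound n hn3)) (not_le.mpr hn2)

end EO

end Vale.Agent.P188.SG
end
end
end

section

section

section

/-!
P188, Theorem S: approximation of a cocycle by a finite-dimensional one (for cautious walks).
-/

universe u v

open Filter Topology

namespace Vale.Agent.P188.SG

variable {H : Type u} [Group H] {S : Finset H}

section Rep

variable {V : Type v} [NormedAddCommGroup V] [InnerProductSpace ℝ V]

/-- The projection onto an invariant subspace commutes with the representation. -/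
theorem fd_proj_comm (π : H →* (V ≃ₗᵢ[ℝ] V)) (W : Submodule ℝ V) [W.HasOrthogonalProjection]
    (hi : Inv π W) (g : H) (v : V) :
    W.starProjection (π g v) = π g (W.starProjection v) := by
  refine Submodule.eq_starProjection_of_mem_of_inner_eq_zero
    (hi g _ (W.starProjection_apply_mem v)) fun w hw => ?_
  have e : w = π g (π g⁻¹ w) := by
    have h : (π g * π g⁻¹) w = w := by
      rw [← map_mul, mul_inv_cancel, map_one]
      rfl
    exact h.symm
  rw [← map_sub, e, LinearIsometryEquiv.inner_map_map]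
  exact W.starProjection_inner_eq_zero v _ (hi g⁻¹ w hw)

theorem fd_inv_bot (π : H →* (V ≃ₗᵢ[ℝ] V)) : Inv π (⊥ : Submodule ℝ V) := by
  intro g w hw
  rw [Submodule.mem_bot] at hw ⊢
  rw [hw, map_zero]

theorem fd_inv_sup (π : H →* (V ≃ₗᵢ[ℝ] V)) {W₁ W₂ : Submodule ℝ V} (h₁ : Inv π W₁)
    (h₂ : Inv π W₂) : Inv π (W₁ ⊔ W₂) := by
  intro g w hw
  obtain ⟨x, hx, y, hy, rfl⟩ := Submodule.mem_sup.1 hw
  rw [map_add]
  exact Submodule.add_mem_sup (h₁ g x hx) (h₂ g y hy)

/-- The finite-dimensional invariant subspaces. -/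
def fdSet (π : H →* (V ≃ₗᵢ[ℝ] V)) : Set (Submodule ℝ V) :=
  {W | FiniteDimensional ℝ W ∧ Inv π W}

theorem fd_nonempty (π : H →* (V ≃ₗᵢ[ℝ] V)) : (fdSet π).Nonempty :=
  ⟨⊥, inferInstance, fd_inv_bot π⟩

theorem fd_directed (π : H →* (V ≃ₗᵢ[ℝ] V)) : DirectedOn (· ≤ ·) (fdSet π) := by
  rintro W₁ ⟨hf₁, hi₁⟩ W₂ ⟨hf₂, hi₂⟩
  exact ⟨W₁ ⊔ W₂, ⟨inferInstance, fd_inv_sup π hi₁ hi₂⟩, le_sup_left, le_sup_right⟩

theorem fd_inv_closure (π : H →* (V ≃ₗᵢ[ℝ] V)) :
    Inv π (sSup (fdSet π)).topologicalClosure := by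
  intro g w hw
  refine map_mem_closure (f := fun x => π g x) (π g).continuous hw fun x hx => ?_
  obtain ⟨W, hW, hxW⟩ := (Submodule.mem_sSup_of_directed (fd_nonempty π) (fd_directed π)).1 hx
  exact (le_sSup hW : W ≤ sSup (fdSet π)) (hW.2 g x hxW)

/-- A cocycle bounded on the generators grows linearly. -/
theorem fd_norm_le_len (hS : SymGen S) (π : H →* (V ≃ₗᵢ[ℝ] V)) (e : H → V)
    (he : IsCocycle π e) {δ : ℝ} (hδ : 0 ≤ δ) (hs : ∀ s ∈ S, ‖e s‖ ≤ δ) (g : H) :
    ‖e g‖ ≤ δ * len S g := by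
  obtain ⟨p, hp0, hp1, -, -, hp⟩ := exists_path hS.gen g
  have h1 : e 1 = 0 := by
    have h := he 1 1
    rw [mul_one, map_one] at h
    have h' : e 1 = e 1 + e 1 := h
    exact left_eq_add.1 h'
  have key : ∀ i : ℕ, ‖e (p i)‖ ≤ δ * i := by
    intro i
    induction i with
    | zero => rw [hp0, h1, norm_zero, Nat.cast_zero, mul_zero]
    | succ i ih =>
      push_cast
      rcases hp i with h | ⟨s, hs', h⟩
      · rw [h]
        linarith
      · have hsS : s ∈ S := by
          rcases hs' with hs' | hs'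
          · exact hs'
          · have := hS.inv _ hs'
            rwa [inv_inv] at this
        rw [h, he]
        refine (norm_add_le _ _).trans ?_
        rw [LinearIsometryEquiv.norm_map]
        have := hs s hsS
        linarith only [ih, this]
  have := key (len S g)
  rwa [hp1] at this

variable [CompleteSpace V]

end Rep

end Vale.Agent.P188.SG
end
end
end

section

section

section

/-!
P188, Theorem S+: harmonic cocycles take values in the closed span of the finite-dimensional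
invariant subspaces.
-/

universe u v

open Filter Topology

namespace Vale.Agent.P188.SG

section Rep

variable {H : Type u} [Group H] {S : Finset H}
variable {V : Type v} [NormedAddCommGroup V] [InnerProductSpace ℝ V] [CompleteSpace V]

theorem harmonic_mem_fdSpan (hS : SymGen S) (hc : Cautious S) (π : H →* (V ≃ₗᵢ[ℝ] V))
    (c : H → V) (hb : IsCocycle π c) (hh : ∑ s ∈ S, c s = 0) : ∀ g, c g ∈ fdSpan π := by
  intro g
  have hUi : Inv π (fdSpan π) := fd_inv_closure π
  have : CompleteSpace (fdSpan π) := (Submodule.isClosed_topologicalClosure _).completeSpace_coe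
  have h0 := harmonic_eq_zero hS hc π (fun g => c g - (fdSpan π).starProjection (c g)) ?_ ?_ ?_ g
  · rw [← Submodule.starProjection_eq_self_iff]
    exact (sub_eq_zero.1 h0).symm
  · intro g k
    show c (g * k) - (fdSpan π).starProjection (c (g * k)) = _
    rw [hb g k, map_add, fd_proj_comm π (fdSpan π) hUi, map_sub]
    exact add_sub_add_comm _ _ _ _
  · rw [Finset.sum_sub_distrib, ← map_sum, hh, map_zero, sub_zero]
  · intro s _ W hW hWi w hw
    have hwU : w ∈ fdSpan π := (Submodule.le_topologicalClosure _)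
      ((le_sSup (⟨hW, hWi⟩ : W ∈ fdSet π) : W ≤ sSup (fdSet π)) hw)
    rw [real_inner_comm]
    exact (fdSpan π).starProjection_inner_eq_zero (c s) w hwU

theorem cocycle_norm_le (hS : SymGen S) (π : H →* (V ≃ₗᵢ[ℝ] V)) (c : H → V)
    (hb : IsCocycle π c) : ∃ L : ℝ, 0 ≤ L ∧ ∀ g, ‖c g‖ ≤ L * len S g := by
  have h0 : 0 ≤ ∑ s ∈ S, ‖c s‖ := Finset.sum_nonneg fun s _ => norm_nonneg _
  exact ⟨∑ s ∈ S, ‖c s‖, h0, fun g => fd_norm_le_len hS π c hb h0
    (fun s hs => Finset.single_le_sum (f := fun s => ‖c s‖) (fun s _ => norm_nonneg _) hs) g⟩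

end Rep

end Vale.Agent.P188.SG
end
end
end

section

section

section

/-!
P188, Theorem S: controlled Følner pairs give a right-invariant mean.
-/

universe u v w

open Filter Topology

namespace Vale.Agent.P188.SG

section Fol2

variable {H : Type u} [Group H] {S : Finset H}

/-- The distance to the finite set `A`. -/
private noncomputable def fol2_d (S A : Finset H) (hA : A.Nonempty) (x : H) : ℕ :=
  A.inf' hA fun y => len S (y⁻¹ * x)

private theorem fol2_d_mul_le (hS : Subgroup.closure (S : Set H) = ⊤) (A : Finset H)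
    (hA : A.Nonempty) (x g : H) : fol2_d S A hA (x * g) ≤ fol2_d S A hA x + len S g := by
  obtain ⟨y, hy, hxy⟩ := Finset.exists_mem_eq_inf' hA fun y => len S (y⁻¹ * x)
  have h1 : fol2_d S A hA (x * g) ≤ len S (y⁻¹ * (x * g)) :=
    Finset.inf'_le (fun y => len S (y⁻¹ * (x * g))) hy
  have h2 := len_mul_le hS (y⁻¹ * x) g
  rw [mul_assoc] at h2
  have h3 : fol2_d S A hA x = len S (y⁻¹ * x) := hxy
  omega

private theorem fol2_d_le_mul (hS : Subgroup.closure (S : Set H) = ⊤) (A : Finset H)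
    (hA : A.Nonempty) (x g : H) : fol2_d S A hA x ≤ fol2_d S A hA (x * g) + len S g := by
  have h := fol2_d_mul_le hS A hA (x * g) g⁻¹
  rwa [mul_inv_cancel_right, len_inv hS] at h

private theorem fol2_abs_sub_le (hS : Subgroup.closure (S : Set H) = ⊤) (A : Finset H)
    (hA : A.Nonempty) (r : ℕ) (x g : H) :
    |((r - fol2_d S A hA (x * g) : ℕ) : ℝ) - ((r - fol2_d S A hA x : ℕ) : ℝ)| ≤ len S g := by
  have h1 := fol2_d_mul_le hS A hA x g
  have h2 := fol2_d_le_mul hS A hA x g
  have h3 : r - fol2_d S A hA (x * g) ≤ r - fol2_d S A hA x + len S g := by omega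
  have h4 : r - fol2_d S A hA x ≤ r - fol2_d S A hA (x * g) + len S g := by omega
  have h3' : ((r - fol2_d S A hA (x * g) : ℕ) : ℝ) ≤
      ((r - fol2_d S A hA x : ℕ) : ℝ) + len S g := by exact_mod_cast h3
  have h4' : ((r - fol2_d S A hA x : ℕ) : ℝ) ≤
      ((r - fol2_d S A hA (x * g) : ℕ) : ℝ) + len S g := by exact_mod_cast h4
  rw [abs_le]
  constructor <;> linarith only [h3', h4']

/-- The estimate for right translations. -/
private theorem fol2_est (hS : Subgroup.closure (S : Set H) = ⊤) (A E : Finset H)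
    (hA : A.Nonempty) (r : ℕ) (hE : ∀ x ∈ A, ∀ h : H, len S h ≤ r → x * h ∈ E)
    (g : H) {f : H → ℝ} {M : ℝ} (hM : ∀ x, |f x| ≤ M) :
    |∑ x ∈ E, ((r - fol2_d S A hA x : ℕ) : ℝ) * f (x * g) -
      ∑ x ∈ E, ((r - fol2_d S A hA x : ℕ) : ℝ) * f x| ≤ 2 * E.card * (len S g * M) := by
  classical
  set φ : H → ℝ := fun x => ((r - fol2_d S A hA x : ℕ) : ℝ) with hφ
  have hsupp : ∀ x, x ∉ E → φ x = 0 := by
    intro x hx
    by_contra hne
    have h1 : fol2_d S A hA x < r := by
      by_contra hlt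
      exact hne (by simp only [hφ, Nat.sub_eq_zero_of_le (not_lt.1 hlt), CharP.cast_eq_zero])
    obtain ⟨y, hy, hxy⟩ := Finset.exists_mem_eq_inf' hA fun y => len S (y⁻¹ * x)
    have h2 := hE y hy (y⁻¹ * x) (by
      have h3 : fol2_d S A hA x = len S (y⁻¹ * x) := hxy
      omega)
    rw [mul_inv_cancel_left] at h2
    exact hx h2
  set U : Finset H := E ∪ E.image (· * g) with hU
  have e1 : ∑ x ∈ E, φ x * f (x * g) = ∑ z ∈ U, φ (z * g⁻¹) * f z := by
    have h1 : ∑ z ∈ E.image (· * g), φ (z * g⁻¹) * f z = ∑ x ∈ E, φ x * f (x * g) := by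
      rw [Finset.sum_image (fun x _ y _ h => mul_right_cancel h)]
      simp only [mul_inv_cancel_right]
    rw [← h1]
    refine Finset.sum_subset Finset.subset_union_right fun z _ hz => ?_
    rw [hsupp (z * g⁻¹) fun h => hz (Finset.mem_image.2 ⟨_, h, inv_mul_cancel_right z g⟩), zero_mul]
  have e2 : ∑ x ∈ E, φ x * f x = ∑ z ∈ U, φ z * f z :=
    Finset.sum_subset Finset.subset_union_left fun z _ hz => by rw [hsupp z hz, zero_mul]
  have e3 : ∑ x ∈ E, φ x * f (x * g) - ∑ x ∈ E, φ x * f x =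
      ∑ z ∈ U, (φ (z * g⁻¹) - φ z) * f z := by
    rw [e1, e2, ← Finset.sum_sub_distrib]
    exact Finset.sum_congr rfl fun z _ => by ring
  have hM0 : 0 ≤ M := (abs_nonneg _).trans (hM 1)
  rw [e3]
  calc |∑ z ∈ U, (φ (z * g⁻¹) - φ z) * f z| ≤ ∑ z ∈ U, |(φ (z * g⁻¹) - φ z) * f z| :=
        Finset.abs_sum_le_sum_abs _ _
    _ ≤ ∑ _z ∈ U, (len S g * M : ℝ) := Finset.sum_le_sum fun z _ => by
        rw [abs_mul]
        refine mul_le_mul ?_ (hM z) (abs_nonneg _) (Nat.cast_nonneg _)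
        have := fol2_abs_sub_le hS A hA r z g⁻¹
        rwa [len_inv hS] at this
    _ = U.card * (len S g * M) := by rw [Finset.sum_const, nsmul_eq_mul]
    _ ≤ 2 * E.card * (len S g * M) := by
        refine mul_le_mul_of_nonneg_right ?_ (mul_nonneg (Nat.cast_nonneg _) hM0)
        have h1 : U.card ≤ 2 * E.card := by
          have h2 := Finset.card_union_le E (E.image (· * g))
          have h3 : (E.image (· * g)).card ≤ E.card := Finset.card_image_le
          rw [hU]
          omega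
        exact_mod_cast h1

theorem hasMean_of_folner (hS : SymGen S) (hF : Folner S) : HasMean H := by
  obtain ⟨C, hC⟩ := hF
  choose A E hA hAE _ hcard using hC
  set φ : ℕ → H → ℝ := fun n x => ((n + 1 - fol2_d S (A (n + 1)) (hA (n + 1)) x : ℕ) : ℝ) with hφ
  have hφ0 : ∀ n x, 0 ≤ φ n x := fun n x => Nat.cast_nonneg _
  set Φ : ℕ → ℝ := fun n => ∑ x ∈ E (n + 1), φ n x with hΦdef
  have hAsub : ∀ n, A n ⊆ E n := by
    intro n x hx
    have := hAE n x hx 1 (by rw [len_one]; exact Nat.zero_le _)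
    rwa [mul_one] at this
  have hΦ : ∀ n : ℕ, ((n : ℝ) + 1) * (A (n + 1)).card ≤ Φ n := by
    intro n
    have h1 : ∀ x ∈ A (n + 1), φ n x = (n : ℝ) + 1 := by
      intro x hx
      have h2 : fol2_d S (A (n + 1)) (hA (n + 1)) x ≤ len S (x⁻¹ * x) :=
        Finset.inf'_le (fun y => len S (y⁻¹ * x)) hx
      rw [inv_mul_cancel, len_one] at h2
      have h3 : fol2_d S (A (n + 1)) (hA (n + 1)) x = 0 := Nat.le_zero.1 h2
      simp only [hφ, h3, le_add_iff_nonneg_left, zero_le, Nat.cast_sub, Nat.cast_add, Nat.cast_one, CharP.cast_eq_zero, sub_zero]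
    calc ((n : ℝ) + 1) * (A (n + 1)).card = ∑ x ∈ A (n + 1), φ n x := by
          rw [Finset.sum_congr rfl h1, Finset.sum_const, nsmul_eq_mul, mul_comm]
      _ ≤ Φ n := Finset.sum_le_sum_of_subset_of_nonneg (hAsub (n + 1)) fun x _ _ => hφ0 n x
  have hApos : ∀ n : ℕ, (0 : ℝ) < (A n).card := fun n => by
    exact_mod_cast Finset.card_pos.2 (hA n)
  have hΦpos : ∀ n, 0 < Φ n := fun n =>
    lt_of_lt_of_le (mul_pos (by (clear * -; positivity)) (hApos (n + 1))) (hΦ n)
  set av : (H → ℝ) → ℕ → ℝ := fun f n => (∑ x ∈ E (n + 1), φ n x * f x) / Φ n with hav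
  have hbdd : ∀ f, Bdd f → Bdd (av f) := by
    rintro f ⟨M, hM⟩
    refine ⟨M, fun n => ?_⟩
    simp only [hav]
    rw [abs_div, abs_of_pos (hΦpos n), div_le_iff₀ (hΦpos n)]
    calc |∑ x ∈ E (n + 1), φ n x * f x| ≤ ∑ x ∈ E (n + 1), |φ n x * f x| :=
          Finset.abs_sum_le_sum_abs _ _
      _ ≤ ∑ x ∈ E (n + 1), φ n x * M := Finset.sum_le_sum fun x _ => by
          rw [abs_mul, abs_of_nonneg (hφ0 n x)]
          exact mul_le_mul_of_nonneg_left (hM x) (hφ0 n x)
      _ = M * Φ n := by rw [← Finset.sum_mul, mul_comm]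
  refine ⟨fun f => ulim (av f), ⟨?_, ?_, ?_, ?_⟩, ?_⟩
  · intro f g hf hg
    apply ulim_eq
    have h : av (f + g) = fun n => av f n + av g n := by
      funext n
      simp only [hav, Pi.add_apply, mul_add, Finset.sum_add_distrib, add_div]
    rw [h]
    exact (tendsto_ulim (hbdd f hf)).add (tendsto_ulim (hbdd g hg))
  · intro a f hf
    apply ulim_eq
    have h : av (fun x => a * f x) = fun n => a * av f n := by
      funext n
      simp only [hav]
      rw [← mul_div_assoc, Finset.mul_sum]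
      congr 1
      exact Finset.sum_congr rfl fun x _ => by ring
    rw [h]
    exact (tendsto_ulim (hbdd f hf)).const_mul a
  · intro f hf h
    apply ge_of_tendsto' (tendsto_ulim (hbdd f hf))
    intro n
    exact div_nonneg (Finset.sum_nonneg fun x _ => mul_nonneg (hφ0 n x) (h x)) (hΦpos n).le
  · apply ulim_eq
    have h : av (fun _ => (1 : ℝ)) = fun _ => 1 := by
      funext n
      simp only [hav, mul_one]
      exact div_self (hΦpos n).ne'
    rw [h]
    exact tendsto_const_nhds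
  · intro g f hf
    apply ulim_eq
    have h : av (fun x => f (x * g)) = fun n => av f n + (av (fun x => f (x * g)) n - av f n) := by
      funext n
      ring
    rw [h]
    have h2 : Tendsto (fun n : ℕ => av (fun x => f (x * g)) n - av f n) atTop (𝓝 0) := by
      obtain ⟨M, hM⟩ := hf
      have hM0 : 0 ≤ M := (abs_nonneg _).trans (hM 1)
      have h3 : Tendsto (fun n : ℕ => (2 * C * (len S g * M)) / ((n : ℝ) + 1)) atTop (𝓝 0) := by
        have := (tendsto_one_div_add_atTop_nhds_zero_nat (𝕜 := ℝ)).const_mul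
          (2 * C * (len S g * M))
        simpa only [div_eq_mul_inv, one_mul, mul_zero] using this
      apply squeeze_zero_norm _ h3
      intro n
      have h4 := fol2_est hS.gen (A (n + 1)) (E (n + 1)) (hA (n + 1)) (n + 1) (hAE (n + 1)) g hM
      have h5 : ((E (n + 1)).card : ℝ) ≤ C * (A (n + 1)).card := by
        exact_mod_cast hcard (n + 1)
      have hn : (0 : ℝ) < (n : ℝ) + 1 := by (clear * -; positivity)
      have hL : (0 : ℝ) ≤ len S g * M := mul_nonneg (Nat.cast_nonneg _) hM0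
      rw [Real.norm_eq_abs]
      simp only [hav]
      rw [← sub_div, abs_div, abs_of_pos (hΦpos n), div_le_div_iff₀ (hΦpos n) hn]
      calc _ ≤ 2 * (E (n + 1)).card * (len S g * M) * ((n : ℝ) + 1) :=
            mul_le_mul_of_nonneg_right h4 hn.le
        _ ≤ 2 * (C * (A (n + 1)).card) * (len S g * M) * ((n : ℝ) + 1) := by (clear * - h5 hM0; gcongr)
        _ = 2 * C * (len S g * M) * (((n : ℝ) + 1) * (A (n + 1)).card) := by ring
        _ ≤ 2 * C * (len S g * M) * Φ n := by
            gcongr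
            exact hΦ n
    have h3 : (hyperfilter ℕ : Filter ℕ) ≤ atTop := by
      rw [← Nat.cofinite_eq_atTop]
      exact Filter.hyperfilter_le_cofinite
    have := (tendsto_ulim (hbdd f hf)).add (h2.mono_left h3)
    rw [add_zero] at this
    exact this

end Fol2

end Vale.Agent.P188.SG
end
end
end

section

section

section

/-!
P188, Theorem S: the path lemma.
-/

universe u v w

open Filter Topology

namespace Vale.Agent.P188.SG

section Geo

variable {G : Type v} [Group G] {k : ℕ} {θ : G →* Multiplicative (Fin k → ℤ)} {A T : Finset G}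

theorem Geo3_list {S : Set G} {g : G} (hg : g ∈ Subgroup.closure S) :
    ∃ l : List G, l.length = wordDist S 1 g ∧ (∀ a ∈ l, a ∈ S ∨ a⁻¹ ∈ S) ∧ l.prod = g := by
  have hne : {n : ℕ | ∃ l : List G, l.length = n ∧ (∀ a ∈ l, a ∈ S ∨ a⁻¹ ∈ S) ∧
      l.prod = 1⁻¹ * g}.Nonempty := by
    have hmem : (1 : G)⁻¹ * g ∈ (Subgroup.closure S).toSubmonoid := by
      rw [inv_one, one_mul]; exact hg
    rw [Subgroup.closure_toSubmonoid] at hmem
    obtain ⟨l, hl, hp⟩ := Submonoid.exists_list_of_mem_closure hmem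
    exact ⟨l.length, l, rfl, fun a ha => hl a ha, hp⟩
  obtain ⟨l, h1, h2, h3⟩ := Nat.sInf_mem hne
  exact ⟨l, h1, h2, by rw [h3, inv_one, one_mul]⟩

theorem Geo3_len_mul {S : Finset G} {g h : G} (hg : g ∈ Subgroup.closure (S : Set G))
    (hh : h ∈ Subgroup.closure (S : Set G)) : len S (g * h) ≤ len S g + len S h := by
  obtain ⟨l, h1, h2, h3⟩ := Geo3_list hg
  obtain ⟨m, k1, k2, k3⟩ := Geo3_list hh
  unfold len
  rw [← h1, ← k1]
  refine Nat.sInf_le ⟨l ++ m, by simp, fun a ha => ?_, by simp [h3, k3]⟩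
  rcases List.mem_append.1 ha with h | h
  · exact h2 a h
  · exact k2 a h

theorem Geo3_len_one {S : Finset G} : len S (1 : G) = 0 :=
  Nat.le_zero.1 (Nat.sInf_le ⟨[], rfl, by simp, by simp⟩)

theorem path_lemma (h : ExpExt θ A T) (κ : ℕ) :
    ∃ C : ℝ, 0 ≤ C ∧ ∀ (L : ℕ) (E : ℝ) (p : ℕ → G),
    0 ≤ E → (∀ i < L, len T ((p i)⁻¹ * p (i + 1)) ≤ κ) →
    (∀ i ≤ L, ∀ j, |co θ (p i) j - co θ (p 0) j| ≤ E) →
    (len T ((p 0)⁻¹ * p L) : ℝ) ≤ C * (1 + E + Real.log (1 + L)) := by
  obtain ⟨σ, C0, hC0, hσ0, hσθ, hσT, hσA⟩ := exists_section h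
  obtain ⟨Cd, hCd⟩ := h.dist
  have hD0 : 0 ≤ max Cd 0 := le_max_right _ _
  refine ⟨max Cd 0 * (1 + C0 * (1 + κ) + C0 * k) + C0 * k, by (clear * - hC0; (clear * - hC0; positivity)), ?_⟩
  intro L E p hE hstep hexc
  -- the coordinates along the path
  set z : ℕ → Fin k → ℤ := fun i => Multiplicative.toAdd (θ ((p 0)⁻¹ * p i)) with hz
  have hz0 : z 0 = 0 := by simp [hz]
  have hzs : ∀ i, z (i + 1) = z i + Multiplicative.toAdd (θ ((p i)⁻¹ * p (i + 1))) := by
    intro i
    have : (p 0)⁻¹ * p (i + 1) = ((p 0)⁻¹ * p i) * ((p i)⁻¹ * p (i + 1)) := by group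
    simp only [hz]
    rw [this, map_mul θ ((p 0)⁻¹ * p i), toAdd_mul]
  have hzsum : ∀ i ≤ L, ∑ j, |((z i j : ℤ) : ℝ)| ≤ k * E := by
    intro i hi
    have h1 : ∀ j ∈ (Finset.univ : Finset (Fin k)), |((z i j : ℤ) : ℝ)| ≤ E := by
      intro j _
      have h2 := hexc i hi j
      have h3 : ((z i j : ℤ) : ℝ) = co θ (p i) j - co θ (p 0) j := by
        simp only [hz, map_mul, map_inv, toAdd_mul, toAdd_inv, Pi.add_apply, Pi.neg_apply, co]
        push_cast
        ring
      rw [h3]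
      exact h2
    have h4 := Finset.sum_le_card_nsmul _ _ _ h1
    simpa only [ge_iff_le, Finset.card_univ, Fintype.card_fin, nsmul_eq_mul] using h4
  -- the kernel part
  set n : ℕ → G := fun i => (p 0)⁻¹ * p i * (σ (z i))⁻¹ with hn
  set D : ℕ → G := fun i => σ (z i) * ((p i)⁻¹ * p (i + 1)) * (σ (z (i + 1)))⁻¹ with hDdef
  have hns : ∀ i, n (i + 1) = n i * D i := by
    intro i
    simp only [hn, hDdef]
    group
  have hθσ : ∀ w, θ (σ w) = Multiplicative.ofAdd w := fun w => by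
    rw [← hσθ w, ofAdd_toAdd, hσθ w]
  have hnker : ∀ i, n i ∈ θ.ker := by
    intro i
    rw [MonoidHom.mem_ker]
    simp only [hn]
    rw [map_mul, map_inv, hθσ]
    simp only [map_mul, map_inv, hz, toAdd_mul, toAdd_inv, ofAdd_add, ofAdd_neg, ofAdd_toAdd, mul_inv_rev, inv_inv, mul_mul_inv_mul_cancel, inv_mul_cancel]
  have hDker : ∀ i, D i ∈ θ.ker := by
    intro i
    have h1 : D i = (n i)⁻¹ * n (i + 1) := by rw [hns]; group
    rw [h1]
    exact θ.ker.mul_mem (θ.ker.inv_mem (hnker i)) (hnker (i + 1))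
  have hM0 : 0 ≤ C0 * (1 + k * E + κ) := by (clear * - hC0 hE; (clear * - hC0 hE; positivity))
  have hDlen : ∀ i < L, (len A (D i) : ℝ) ≤ Real.exp (C0 * (1 + k * E + κ)) := by
    intro i hi
    have h1 := hσA (z i) ((p i)⁻¹ * p (i + 1))
    rw [← hzs] at h1
    refine h1.trans (Real.exp_le_exp.2 (mul_le_mul_of_nonneg_left ?_ hC0))
    have h2 := hzsum i hi.le
    have h3 : (len T ((p i)⁻¹ * p (i + 1)) : ℝ) ≤ κ := by exact_mod_cast hstep i hi
    linarith only [h3, h2]
  have hnlen : ∀ i ≤ L, (len A (n i) : ℝ) ≤ i * Real.exp (C0 * (1 + k * E + κ)) := by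
    intro i
    induction i with
    | zero =>
      intro _
      have h1 : n 0 = 1 := by simp only [hn, inv_mul_cancel, hz0, hσ0, inv_one, mul_one]
      rw [h1, Geo3_len_one]
      simp
    | succ i ih =>
      intro hi
      have h1 := ih (by omega)
      have h2 := hDlen i (by omega)
      have h3 : len A (n (i + 1)) ≤ len A (n i) + len A (D i) := by
        rw [hns]
        exact Geo3_len_mul (by rw [h.genA]; exact hnker i) (by rw [h.genA]; exact hDker i)
      have h4 : (len A (n (i + 1)) : ℝ) ≤ len A (n i) + len A (D i) := by exact_mod_cast h3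
      push_cast
      linarith only [h4, h2, h1]
  -- conclusion
  have hsplit : (p 0)⁻¹ * p L = n L * σ (z L) := by simp only [hn]; group
  have h5 : (len T ((p 0)⁻¹ * p L) : ℝ) ≤ len T (n L) + len T (σ (z L)) := by
    rw [hsplit]
    exact_mod_cast Geo3_len_mul (by rw [h.genT]; trivial) (by rw [h.genT]; trivial)
  have h6 : (len T (σ (z L)) : ℝ) ≤ C0 * (k * E) :=
    (hσT (z L)).trans (mul_le_mul_of_nonneg_left (hzsum L le_rfl) hC0)
  have hL1 : (0 : ℝ) < 1 + L := by (clear * -; positivity)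
  have hlog0 : 0 ≤ Real.log (1 + L) := Real.log_nonneg (by
    have : (0 : ℝ) ≤ L := Nat.cast_nonneg L
    linarith only [])
  have h7 : Real.log (1 + len A (n L)) ≤ Real.log (1 + L) + C0 * (1 + k * E + κ) := by
    have h8 := hnlen L le_rfl
    have h9 : (1 : ℝ) ≤ Real.exp (C0 * (1 + k * E + κ)) := Real.one_le_exp hM0
    have h10 : (1 : ℝ) + len A (n L) ≤ (1 + L) * Real.exp (C0 * (1 + k * E + κ)) := by
      linarith only [h9, h8]
    have h11 := Real.log_le_log (by (clear * -; positivity)) h10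
    rwa [Real.log_mul hL1.ne' (Real.exp_pos _).ne', Real.log_exp] at h11
  have h12 : (len T (n L) : ℝ) ≤
      max Cd 0 * (1 + (Real.log (1 + L) + C0 * (1 + k * E + κ))) := by
    refine (hCd (n L) (hnker L)).trans ?_
    have h13 : 0 ≤ 1 + Real.log (1 + len A (n L)) := by
      have : 0 ≤ Real.log (1 + (len A (n L) : ℝ)) := Real.log_nonneg (by
        have : (0 : ℝ) ≤ len A (n L) := Nat.cast_nonneg _
        linarith only [])
      linarith only [this]
    refine (mul_le_mul_of_nonneg_right (le_max_left Cd 0) h13).trans ?_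
    exact mul_le_mul_of_nonneg_left (by (clear * - h7; linarith)) hD0
  refine h5.trans ((add_le_add h12 h6).trans ?_)
  have e1 : 0 ≤ max Cd 0 * E := by (clear * - hE; positivity)
  have e2 : 0 ≤ max Cd 0 * (C0 * (1 + κ)) * (E + Real.log (1 + L)) := by (clear * - hC0 hE hlog0; positivity)
  have e3 : 0 ≤ max Cd 0 * (C0 * k) * (1 + Real.log (1 + L)) := by (clear * - hC0 hlog0; positivity)
  have e4 : 0 ≤ C0 * k * (1 + Real.log (1 + L)) := by (clear * - hC0 hlog0; positivity)
  linarith only [e4, e3, e2, e1]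

end Geo

end Vale.Agent.P188.SG
end
end
end

section

section

section

/-!
P188, Theorem S: products of elements with small displacement of `co θ ∘ F`.
-/

universe u v w

open Filter Topology Pointwise

namespace Vale.Agent.P188.SG


section Rec

variable {H : Type u} [Group H] {S : Finset H}

/-- concatenation of geodesics -/
lemma Rec1_path (hS : Subgroup.closure (S : Set H) = ⊤) {M : ℝ} (l : List H)
    (hl : ∀ x ∈ l, (len S x : ℝ) ≤ M) (hM : 0 ≤ M) :
    ∃ (L : ℕ) (q : ℕ → H), q 0 = 1 ∧ q L = l.prod ∧ (L : ℝ) ≤ l.length * M ∧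
      (∀ i, len S ((q i)⁻¹ * q (i + 1)) ≤ 1) ∧
      ∀ i, ∃ j ≤ l.length, (len S ((l.take j).prod⁻¹ * q i) : ℝ) ≤ M := by
  have len_one' : len S (1 : H) = 0 := by
    have h1 : len S (1 : H) ≤ 0 := by
      unfold len wordDist
      exact Nat.sInf_le ⟨[], rfl, by simp only [List.not_mem_nil, SetLike.mem_coe, IsEmpty.forall_iff, implies_true], by simp⟩
    omega
  induction l with
  | nil =>
    refine ⟨0, fun _ => 1, rfl, by simp, by simp, fun i => by simp only [inv_one, mul_one, len_one', zero_le], fun i => ?_⟩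
    exact ⟨0, le_rfl, by simp only [List.take_nil, List.prod_nil, inv_one, mul_one, len_one', CharP.cast_eq_zero, hM]⟩
  | cons x l ih =>
    obtain ⟨L, q, hq0, hqL, hLM, hst, hnear⟩ := ih fun z hz => hl z (List.mem_cons_of_mem _ hz)
    obtain ⟨p, hp0, hpx, hpst, hplen, _⟩ := exists_path hS x
    have hx := hl x List.mem_cons_self
    refine ⟨len S x + L, fun i => if i < len S x then p i else x * q (i - len S x), ?_, ?_, ?_,
      ?_, ?_⟩
    · by_cases h0 : 0 < len S x
      · simp [h0, hp0]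
      · have h1 : len S x = 0 := by omega
        have h2 : x = 1 := by rw [← hpx, h1, hp0]
        have h3 : ¬ (0 < len S x) := h0
        simp only [h3, if_false]
        rw [h1, Nat.sub_zero, hq0, h2, mul_one]
    · have h1 : ¬ (len S x + L < len S x) := by omega
      simp only [h1, if_false]
      rw [Nat.add_sub_cancel_left, hqL, List.prod_cons]
    · rw [List.length_cons]
      push_cast
      have h1 : ((l.length : ℝ) + 1) * M = l.length * M + M := by ring
      rw [h1]
      linarith only [hLM, hx]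
    · intro i
      by_cases h1 : i + 1 < len S x
      · have h2 : i < len S x := by omega
        simp only [h1, h2, if_true]
        exact hpst i
      · by_cases h2 : i < len S x
        · have h3 : i + 1 = len S x := by omega
          have h4 : i + 1 - len S x = 0 := by omega
          simp only [h1, h2, if_true, if_false]
          rw [h4, hq0, mul_one]
          conv_lhs => rw [← hpx, ← h3]
          exact hpst i
        · have h3 : i + 1 - len S x = (i - len S x) + 1 := by omega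
          simp only [h1, h2, if_false]
          rw [h3]
          have h4 : (x * q (i - len S x))⁻¹ * (x * q (i - len S x + 1)) =
              (q (i - len S x))⁻¹ * q (i - len S x + 1) := by group
          rw [h4]
          exact hst _
    · intro i
      by_cases h1 : i < len S x
      · refine ⟨0, Nat.zero_le _, ?_⟩
        simp only [h1, if_true, List.take_zero, List.prod_nil, inv_one, one_mul]
        exact le_trans (by exact_mod_cast hplen i) hx
      · obtain ⟨j, hj, hj'⟩ := hnear (i - len S x)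
        refine ⟨j + 1, by simpa using hj, ?_⟩
        simp only [h1, if_false, List.take_succ_cons, List.prod_cons]
        have h4 : (x * (List.take j l).prod)⁻¹ * (x * q (i - len S x)) =
            (List.take j l).prod⁻¹ * q (i - len S x) := by group
        rw [h4]
        exact hj'

variable {G : Type v} [Group G] {k : ℕ} {θ : G →* Multiplicative (Fin k → ℤ)} {A T : Finset G}

/-- a point where the sum of the functions is at most the mean -/
lemma Rec1_exists {X : Type u} {μ : (X → ℝ) → ℝ} (hμ : IsMean μ) {f : X → ℝ} (hf : Bdd f)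
    {a e : ℝ} (he : 0 < e) (h : μ f ≤ a) : ∃ y, f y ≤ a + e := by
  by_contra hh
  push Not at hh
  have h1 := hμ.le (Bdd.const (a + e)) hf (fun x => (hh x).le)
  rw [hμ.const] at h1
  linarith only [he, h, h1]

/-- one step of the recursion -/
theorem product_len (h : ExpExt θ A T) (hS : Subgroup.closure (S : Set H) = ⊤)
    (K C : ℝ) (hK : 1 ≤ K) (hC : 0 ≤ C) (F : H → G)
    (hq : IsQuasiIsometry (wordDist (S : Set H)) (wordDist (T : Set G)) K C F)
    (μ : (H → ℝ) → ℝ) (hμ : IsMean μ)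
    (hinv : ∀ (g : H) (f : H → ℝ), Bdd f → μ (fun x => f (x * g)) = μ f) :
    ∃ C₁ : ℝ, 0 ≤ C₁ ∧ ∀ (n : ℕ) (M δ : ℝ) (l : List H), l.length = n → 0 ≤ M → 0 ≤ δ →
      (∀ x ∈ l, (len S x : ℝ) ≤ M) →
      (∀ x ∈ l, μ (fun y => ∑ i, (co θ (F (y * x)) i - co θ (F y) i) ^ 2) ≤ δ ^ 2) →
      (len S l.prod : ℝ) ≤ C₁ * (1 + M + n * δ + Real.log (1 + n * M)) := by
  obtain ⟨Lc, hLc, hLip⟩ := co_lip h
  obtain ⟨Cp, hCp, hpath⟩ := path_lemma h ⌊K + C⌋₊
  have hK0 : 0 < K := by linarith only [hK]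
  -- the quasi-isometry in terms of `len`
  have hup : ∀ y x : H, (len T ((F y)⁻¹ * F (y * x)) : ℝ) ≤ K * len S x + C := by
    intro y x
    have h2 := (hq.1 y (y * x)).2
    rw [wordDist_eq_len, wordDist_eq_len, inv_mul_cancel_left] at h2
    exact h2
  have hlow : ∀ y x : H, K⁻¹ * (len S x : ℝ) - C ≤ (len T ((F y)⁻¹ * F (y * x)) : ℝ) := by
    intro y x
    have h2 := (hq.1 y (y * x)).1
    rw [wordDist_eq_len, wordDist_eq_len, inv_mul_cancel_left] at h2
    exact h2
  have hco : ∀ (y x : H) (i : Fin k),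
      |co θ (F (y * x)) i - co θ (F y) i| ≤ Lc * (K * len S x + C) := by
    intro y x i
    have h1 := hLip (F y) ((F y)⁻¹ * F (y * x)) i
    rw [mul_inv_cancel_left] at h1
    exact h1.trans (mul_le_mul_of_nonneg_left (hup y x) hLc)
  refine ⟨K * (Cp * (2 + Lc * C + Lc * K + 1) + C), by (clear * - hK hCp hLc hC; (clear * - hK hCp hLc hC; positivity)), ?_⟩
  intro n M δ l hln hM hδ hlM hlδ
  set ψ : H → H → ℝ := fun x y => ∑ i, (co θ (F (y * x)) i - co θ (F y) i) ^ 2 with hψ
  have hψb : ∀ x, Bdd (ψ x) := by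
    intro x
    refine ⟨∑ _i : Fin k, (Lc * (K * len S x + C)) ^ 2, fun y => ?_⟩
    rw [abs_of_nonneg (Finset.sum_nonneg fun i _ => sq_nonneg _)]
    refine Finset.sum_le_sum fun i _ => ?_
    rw [← sq_abs]
    exact pow_le_pow_left₀ (abs_nonneg _) (hco y x i) 2
  set w : ℕ → H := fun j => (l.take j).prod with hw
  have hw0 : w 0 = 1 := by simp [hw]
  -- the function at the position `j`
  set φ : ℕ → H → ℝ := fun j y =>
    ∑ i, (co θ (F (y * w (j + 1))) i - co θ (F (y * w j)) i) ^ 2 with hφ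
  have hφψ : ∀ j (hj : j < n), φ j = fun y => ψ (l[j]'(by omega)) (y * w j) := by
    intro j hj
    funext y
    simp only [hφ, hψ, hw]
    refine Finset.sum_congr rfl fun i _ => ?_
    rw [List.take_succ_eq_append_getElem (by omega), List.prod_append, List.prod_singleton,
      mul_assoc y]
  have hφb : ∀ j ∈ Finset.range n, Bdd (φ j) := by
    intro j hj
    rw [hφψ j (Finset.mem_range.1 hj)]
    exact (hψb _).comp _
  have hφm : ∀ j ∈ Finset.range n, μ (φ j) ≤ δ ^ 2 := by
    intro j hj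
    rw [hφψ j (Finset.mem_range.1 hj), hinv _ _ (hψb _)]
    exact hlδ _ (List.getElem_mem _)
  obtain ⟨hsb, hsm⟩ := hμ.sum (Finset.range n) φ hφb
  have hsm' : μ (fun y => ∑ j ∈ Finset.range n, φ j y) ≤ n * δ ^ 2 := by
    rw [hsm]
    refine (Finset.sum_le_sum hφm).trans ?_
    simp
  obtain ⟨y, hy⟩ := Rec1_exists hμ hsb (e := 1 / ((n : ℝ) + 1)) (by (clear * -; positivity)) hsm'
  -- displacement
  have hdisp : ∀ j ≤ n, ∀ i, |co θ (F (y * w j)) i - co θ (F y) i| ≤ n * δ + 1 := by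
    intro j hj i
    set a : ℕ → ℝ := fun m => |co θ (F (y * w (m + 1))) i - co θ (F (y * w m)) i| with ha
    have h1 : ∀ m, |co θ (F (y * w m)) i - co θ (F y) i| ≤ ∑ t ∈ Finset.range m, a t := by
      intro m
      induction m with
      | zero => simp [hw0]
      | succ m ih =>
        rw [Finset.sum_range_succ]
        have h2 : co θ (F (y * w (m + 1))) i - co θ (F y) i =
            (co θ (F (y * w m)) i - co θ (F y) i) +
            (co θ (F (y * w (m + 1))) i - co θ (F (y * w m)) i) := by ring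
        rw [h2]
        exact (abs_add_le _ _).trans (add_le_add ih le_rfl)
    have h2 : ∑ t ∈ Finset.range j, a t ≤ ∑ t ∈ Finset.range n, a t :=
      Finset.sum_le_sum_of_subset_of_nonneg (Finset.range_mono hj) fun t _ _ => abs_nonneg _
    have h3 : (∑ t ∈ Finset.range n, a t) ^ 2 ≤ n * ∑ t ∈ Finset.range n, a t ^ 2 := by
      have := sq_sum_le_card_mul_sum_sq (s := Finset.range n) (f := a)
      rwa [Finset.card_range] at this
    have h4 : ∑ t ∈ Finset.range n, a t ^ 2 ≤ n * δ ^ 2 + 1 / ((n : ℝ) + 1) := by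
      refine le_trans (Finset.sum_le_sum fun t _ => ?_) hy
      simp only [ha, hφ, sq_abs]
      exact Finset.single_le_sum
        (f := fun i => (co θ (F (y * w (t + 1))) i - co θ (F (y * w t)) i) ^ 2)
        (fun i _ => sq_nonneg _) (Finset.mem_univ i)
    have hn0 : (0 : ℝ) ≤ n := Nat.cast_nonneg _
    have h5 : (∑ t ∈ Finset.range n, a t) ^ 2 ≤ (n * δ + 1) ^ 2 := by
      have h6 : (n : ℝ) * (1 / ((n : ℝ) + 1)) ≤ 1 := by
        rw [mul_one_div, div_le_one (by (clear * -; positivity))]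
        linarith only []
      have h7 : (n : ℝ) * (n * δ ^ 2 + 1 / ((n : ℝ) + 1)) =
          (n * δ) ^ 2 + (n : ℝ) * (1 / ((n : ℝ) + 1)) := by ring
      have h8 : 0 ≤ (n : ℝ) * δ := mul_nonneg hn0 hδ
      have h9 := mul_le_mul_of_nonneg_left h4 hn0
      have h10 : (n * δ + 1) ^ 2 = ((n : ℝ) * δ) ^ 2 + 2 * (n * δ) + 1 := by ring
      rw [h10]
      linarith only [h9, h8, h6, h3]
    have h6 : ∑ t ∈ Finset.range n, a t ≤ n * δ + 1 :=
      le_of_sq_le_sq h5 (by (clear * - hδ; positivity))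
    exact (h1 j).trans (h2.trans h6)
  -- the path
  obtain ⟨L, q, hq0, hqL, hLM, hst, hnear⟩ := Rec1_path hS l hlM hM
  have hE : 0 ≤ n * δ + 1 + Lc * (K * M + C) := by (clear * - hδ hLc hK hM hC; (clear * - hδ hLc hK hM hC; positivity))
  have key := hpath L (n * δ + 1 + Lc * (K * M + C)) (fun i => F (y * q i)) hE ?_ ?_
  · rw [hq0, mul_one, hqL] at key
    have h1 := (hlow y l.prod).trans key
    have hlog : Real.log (1 + L) ≤ Real.log (1 + n * M) := by
      refine Real.log_le_log (by (clear * -; positivity)) ?_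
      rw [hln] at hLM
      linarith only [hLM]
    have hlog0 : 0 ≤ Real.log (1 + n * M) := Real.log_nonneg (by
      have : (0 : ℝ) ≤ n * M := by (clear * - hM; positivity)
      linarith only [this])
    set lg := Real.log (1 + n * M) with hlg
    have h2 : Cp * (1 + (n * δ + 1 + Lc * (K * M + C)) + Real.log (1 + L)) ≤
        Cp * (1 + (n * δ + 1 + Lc * (K * M + C)) + lg) :=
      mul_le_mul_of_nonneg_left (by linarith only [hlog]) hCp
    have h3 : (len S l.prod : ℝ) ≤
        K * (Cp * (1 + (n * δ + 1 + Lc * (K * M + C)) + lg) + C) := by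
      have h4 : K⁻¹ * (len S l.prod : ℝ) ≤
          Cp * (1 + (n * δ + 1 + Lc * (K * M + C)) + lg) + C := by linarith only [h2, h1]
      have h5 := mul_le_mul_of_nonneg_left h4 hK0.le
      rwa [mul_inv_cancel_left₀ hK0.ne'] at h5
    refine h3.trans ?_
    rw [mul_assoc]
    refine mul_le_mul_of_nonneg_left ?_ hK0.le
    have hnδ : 0 ≤ (n : ℝ) * δ := by (clear * - hδ; positivity)
    set s := 1 + M + n * δ + lg with hs
    have hs1 : 1 ≤ s := by linarith only [hnδ, hlog0, hM]
    have hsM : M ≤ s := by linarith only [hnδ, hlog0]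
    have hsd : 1 + (n * δ) + 1 + lg ≤ 2 * s := by linarith only [hs1, hM]
    have e1 : 1 + (n * δ + 1 + Lc * (K * M + C)) + lg ≤ (2 + Lc * C + Lc * K + 1) * s := by
      have e2 : Lc * C ≤ Lc * C * s := le_mul_of_one_le_right (by (clear * - hLc hC; positivity)) hs1
      have e3 : Lc * K * M ≤ Lc * K * s := mul_le_mul_of_nonneg_left hsM (by (clear * - hLc hK; positivity))
      have e4 : (2 + Lc * C + Lc * K + 1) * s = 2 * s + Lc * C * s + Lc * K * s + s := by ring
      have e5 : Lc * (K * M + C) = Lc * K * M + Lc * C := by ring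
      rw [e4, e5]
      linarith only [e3, e2, hsd, hs1]
    have e2 : Cp * (1 + (n * δ + 1 + Lc * (K * M + C)) + lg) ≤
        Cp * ((2 + Lc * C + Lc * K + 1) * s) := mul_le_mul_of_nonneg_left e1 hCp
    have e3 : C ≤ C * s := le_mul_of_one_le_right hC hs1
    calc Cp * (1 + (n * δ + 1 + Lc * (K * M + C)) + lg) + C
        ≤ Cp * ((2 + Lc * C + Lc * K + 1) * s) + C * s := add_le_add e2 e3
      _ = (Cp * (2 + Lc * C + Lc * K + 1) + C) * s := by ring
  · intro i _
    refine Nat.le_floor ?_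
    have h1 := hup (y * q i) ((q i)⁻¹ * q (i + 1))
    rw [mul_assoc y, mul_inv_cancel_left] at h1
    refine h1.trans ?_
    have h2 : (len S ((q i)⁻¹ * q (i + 1)) : ℝ) ≤ 1 := by exact_mod_cast hst i
    have h3 : K * (len S ((q i)⁻¹ * q (i + 1)) : ℝ) ≤ K * 1 := mul_le_mul_of_nonneg_left h2 hK0.le
    linarith only [h3]
  · intro i _ j
    rw [hq0, mul_one]
    obtain ⟨m, hm, hm'⟩ := hnear i
    have h1 := hdisp m (by (clear * - hln hm; omega)) j
    have h2 := hco (y * w m) ((w m)⁻¹ * q i) j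
    rw [mul_assoc y, mul_inv_cancel_left] at h2
    have h3 : Lc * (K * (len S ((w m)⁻¹ * q i) : ℝ) + C) ≤ Lc * (K * M + C) := by
      refine mul_le_mul_of_nonneg_left ?_ hLc
      have := mul_le_mul_of_nonneg_left hm' hK0.le
      linarith only [this]
    have h4 : co θ (F (y * q i)) j - co θ (F y) j =
        (co θ (F (y * w m)) j - co θ (F y) j) +
        (co θ (F (y * q i)) j - co θ (F (y * w m)) j) := by ring
    rw [h4]
    refine (abs_add_le _ _).trans ?_
    linarith only [h3, h2, h1]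

end Rec

end Vale.Agent.P188.SG
end
end
end

section

section

attribute [-instance] ProperSMul.toContinuousSMul IsTopologicalTorsor.toContinuousSMul IdemSemiring.toCanonicallyOrderedAdd IdemSemiring.toMulLeftMono IdemSemiring.toMulRightMono AddQuantale.instAddLeftMono AddQuantale.instAddRightMono Quantale.instMulLeftMono Quantale.instMulRightMono FiniteDimensional.rclike_to_real IsScalarTower.complexToReal FiniteDimensional.complexToReal

section

/-!
P188, Theorem S+: preparatory lemmas for `no_indep` (means, nets, linear algebra).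
-/

universe u v w

open Filter Topology

namespace Vale.Agent.P188.SG

section Mean

variable {X : Type u} {μ : (X → ℝ) → ℝ}

theorem NoInd1_bdd_ind (P : X → Prop) [DecidablePred P] :
    Bdd (fun y => if P y then (1 : ℝ) else 0) :=
  ⟨1, fun y => by
    show |if P y then (1 : ℝ) else 0| ≤ 1
    split_ifs <;> simp⟩

theorem NoInd1_bdd_sum {ι : Type*} (s : Finset ι) (f : ι → X → ℝ) (hf : ∀ i ∈ s, Bdd (f i)) :
    Bdd (fun y => ∑ i ∈ s, f i y) := by
  classical
  induction s using Finset.induction_on with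
  | empty => simpa using (Bdd.const (X := X) 0)
  | insert a s ha ih =>
    have h1 := (hf a (Finset.mem_insert_self a s)).add
      (ih fun i hi => hf i (Finset.mem_insert_of_mem hi))
    refine (congrArg Bdd ?_).mp h1
    funext y
    rw [Pi.add_apply, Finset.sum_insert ha]

theorem NoInd1_mean_sum (hμ : IsMean μ) {ι : Type*} (s : Finset ι) (f : ι → X → ℝ)
    (hf : ∀ i ∈ s, Bdd (f i)) : μ (fun y => ∑ i ∈ s, f i y) = ∑ i ∈ s, μ (f i) := by
  classical
  induction s using Finset.induction_on with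
  | empty =>
    simp only [Finset.sum_empty]
    exact hμ.const 0
  | insert a s ha ih =>
    have h0 : (fun y => ∑ i ∈ insert a s, f i y) = f a + fun y => ∑ i ∈ s, f i y := by
      funext y
      rw [Pi.add_apply, Finset.sum_insert ha]
    rw [h0, hμ.add _ _ (hf a (Finset.mem_insert_self a s))
      (NoInd1_bdd_sum s f fun i hi => hf i (Finset.mem_insert_of_mem hi)),
      ih fun i hi => hf i (Finset.mem_insert_of_mem hi), Finset.sum_insert ha]

/-- Markov's inequality. -/
theorem NoInd1_markov (hμ : IsMean μ) {φ : X → ℝ} (hφ : Bdd φ) (h0 : ∀ y, 0 ≤ φ y) {a : ℝ}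
    (ha : 0 < a) : μ (fun y => if a < φ y then (1 : ℝ) else 0) ≤ a⁻¹ * μ φ := by
  rw [← hμ.smul a⁻¹ φ hφ]
  refine hμ.le (NoInd1_bdd_ind _) (hφ.const_mul _) fun y => ?_
  have h1 : 0 ≤ a⁻¹ * φ y := mul_nonneg (inv_nonneg.2 ha.le) (h0 y)
  split_ifs with h
  · rw [inv_mul_eq_div, le_div_iff₀ ha, one_mul]
    exact h.le
  · exact h1

/-- Markov's inequality for the complement. -/
theorem NoInd1_markov' (hμ : IsMean μ) {φ : X → ℝ} (hφ : Bdd φ) (h0 : ∀ y, 0 ≤ φ y) {a : ℝ}
    (ha : 0 < a) : 1 - a⁻¹ * μ φ ≤ μ (fun y => if φ y ≤ a then (1 : ℝ) else 0) := by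
  have h1 := NoInd1_markov hμ hφ h0 ha
  have h2 : μ (fun y => if φ y ≤ a then (1 : ℝ) else 0) +
      μ (fun y => if a < φ y then (1 : ℝ) else 0) = 1 := by
    have h3 : ((fun y => if φ y ≤ a then (1 : ℝ) else 0) + fun y => if a < φ y then (1 : ℝ) else 0)
        = fun _ => (1 : ℝ) := by
      funext y
      rw [Pi.add_apply]
      by_cases h : φ y ≤ a
      · rw [if_pos h, if_neg (not_lt.2 h), add_zero]
      · rw [if_neg h, if_pos (not_le.1 h), zero_add]
    rw [← hμ.add _ _ (NoInd1_bdd_ind _) (NoInd1_bdd_ind _), h3, hμ.one]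
  linarith only [h1, h2]

/-- A point of `Y` outside of finitely many bad sets of small mean. -/
theorem NoInd1_exists_good (hμ : IsMean μ) (Y : X → Prop) [DecidablePred Y] {ι : Type*}
    (s : Finset ι) (bad : ι → X → Prop) [∀ j, DecidablePred (bad j)]
    (h : ∑ j ∈ s, μ (fun y => if bad j y then (1 : ℝ) else 0) <
      μ (fun y => if Y y then (1 : ℝ) else 0)) : ∃ y, Y y ∧ ∀ j ∈ s, ¬ bad j y := by
  by_contra hcon
  push Not at hcon
  refine absurd h (not_lt.2 ?_)
  rw [← NoInd1_mean_sum hμ s _ fun j _ => NoInd1_bdd_ind (bad j)]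
  refine hμ.le (NoInd1_bdd_ind _) (NoInd1_bdd_sum s _ fun j _ => NoInd1_bdd_ind (bad j))
    fun y => ?_
  have hnn : ∀ j ∈ s, (0 : ℝ) ≤ if bad j y then (1 : ℝ) else 0 := fun j _ => by
    split_ifs <;> norm_num
  split_ifs with hY
  · obtain ⟨j, hj, hb⟩ := hcon y hY
    calc (1 : ℝ) = if bad j y then (1 : ℝ) else 0 := by rw [if_pos hb]
      _ ≤ ∑ j ∈ s, if bad j y then (1 : ℝ) else 0 := Finset.single_le_sum hnn hj
  · exact Finset.sum_nonneg hnn

/-- Pigeonhole for a finite covering. -/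
theorem NoInd1_pigeon (hμ : IsMean μ) (Y : X → Prop) [DecidablePred Y] {ι : Type*}
    (Q : Finset ι) (hQ : Q.Nonempty) (Yq : ι → X → Prop) [∀ q, DecidablePred (Yq q)] {c : ℝ}
    (hY : c ≤ μ (fun y => if Y y then (1 : ℝ) else 0)) (hcov : ∀ y, Y y → ∃ q ∈ Q, Yq q y) :
    ∃ q ∈ Q, c / Q.card ≤ μ (fun y => if Yq q y then (1 : ℝ) else 0) := by
  by_contra hcon
  push Not at hcon
  have hcard : (0 : ℝ) < Q.card := by exact_mod_cast hQ.card_pos
  have h1 : ∑ q ∈ Q, μ (fun y => if Yq q y then (1 : ℝ) else 0) < c := by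
    calc ∑ q ∈ Q, μ (fun y => if Yq q y then (1 : ℝ) else 0) < ∑ _q ∈ Q, c / Q.card :=
          Finset.sum_lt_sum_of_nonempty hQ hcon
      _ = c := by
          rw [Finset.sum_const, nsmul_eq_mul]
          (clear * - hQ; field_simp)
  obtain ⟨y, hy, hbad⟩ := NoInd1_exists_good hμ Y Q Yq (h1.trans_le hY)
  obtain ⟨q, hq, hqy⟩ := hcov y hy
  exact hbad q hq hqy

end Mean

/-- finite nets of the unit sphere. -/
theorem NoInd1_exists_net (k : ℕ) {η : ℝ} (hη : 0 < η) :
    ∃ Q : Finset (EuclideanSpace ℝ (Fin (k + 1))), Q.Nonempty ∧ (∀ q ∈ Q, ‖q‖ = 1) ∧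
      ∀ v : EuclideanSpace ℝ (Fin (k + 1)), ‖v‖ = 1 → ∃ q ∈ Q, ‖v - q‖ ≤ η := by
  obtain ⟨t, hts, htf, hcov⟩ :=
    (isCompact_sphere (0 : EuclideanSpace ℝ (Fin (k + 1))) 1).finite_cover_balls hη
  have key : ∀ v : EuclideanSpace ℝ (Fin (k + 1)), ‖v‖ = 1 →
      ∃ q ∈ htf.toFinset, ‖v - q‖ ≤ η := by
    intro v hv
    have h1 : v ∈ Metric.sphere (0 : EuclideanSpace ℝ (Fin (k + 1))) 1 := by
      rw [mem_sphere_zero_iff_norm]
      exact hv
    obtain ⟨q, hq, hvq⟩ := Set.mem_iUnion₂.1 (hcov h1)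
    refine ⟨q, htf.mem_toFinset.2 hq, ?_⟩
    rw [← dist_eq_norm]
    exact (Metric.mem_ball.1 hvq).le
  refine ⟨htf.toFinset, ?_, fun q hq => ?_, key⟩
  · obtain ⟨q, hq, -⟩ := key (EuclideanSpace.single 0 1) (by simp)
    exact ⟨q, hq⟩
  · have h1 := hts (htf.mem_toFinset.1 hq)
    rwa [mem_sphere_zero_iff_norm] at h1

/-- `k + 1` vectors of `ℝ^k` satisfy a relation with a unit vector of coefficients. -/
theorem NoInd1_exists_rel {k : ℕ} (E : Fin (k + 1) → Fin k → ℝ) :
    ∃ a : EuclideanSpace ℝ (Fin (k + 1)), ‖a‖ = 1 ∧ ∀ j, ∑ i, a i * E i j = 0 := by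
  let T : EuclideanSpace ℝ (Fin (k + 1)) →ₗ[ℝ] (Fin k → ℝ) :=
    { toFun := fun a j => ∑ i, a i * E i j
      map_add' := fun a b => by
        funext j
        rw [Pi.add_apply, ← Finset.sum_add_distrib]
        exact Finset.sum_congr rfl fun i _ => by rw [PiLp.add_apply]; ring
      map_smul' := fun c a => by
        funext j
        rw [RingHom.id_apply, Pi.smul_apply, smul_eq_mul, Finset.mul_sum]
        exact Finset.sum_congr rfl fun i _ => by rw [PiLp.smul_apply, smul_eq_mul]; ring }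
  have hker : LinearMap.ker T ≠ ⊥ := by
    apply LinearMap.ker_ne_bot_of_finrank_lt
    rw [finrank_euclideanSpace_fin, Module.finrank_fin_fun]
    exact Nat.lt_succ_self k
  obtain ⟨a, ha, ha0⟩ := (Submodule.ne_bot_iff _).1 hker
  have hT : T a = 0 := ha
  have hn : ‖a‖ ≠ 0 := norm_ne_zero_iff.2 ha0
  refine ⟨‖a‖⁻¹ • a, by rw [norm_smul, norm_inv, norm_norm, inv_mul_cancel₀ hn], fun j => ?_⟩
  have h1 : T (‖a‖⁻¹ • a) = 0 := by rw [map_smul, hT, smul_zero]
  exact congrFun h1 j

/-- the combination of the above. -/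
theorem NoInd1_exists_dir {X : Type u} {μ : (X → ℝ) → ℝ} (hμ : IsMean μ) {k : ℕ}
    (φ : Fin (k + 1) → X → Fin k → ℝ) (hφ : ∀ i j, Bdd (fun y => φ i y j))
    (h4 : ∀ i, μ (fun y => ∑ j, (φ i y j) ^ 2) ≤ 4) {τ : ℝ} (hτ : 0 < τ)
    (Q : Finset (EuclideanSpace ℝ (Fin (k + 1)))) (hQ : Q.Nonempty)
    (hnet : ∀ v : EuclideanSpace ℝ (Fin (k + 1)), ‖v‖ = 1 →
      ∃ q ∈ Q, ‖v - q‖ ≤ τ / (4 * Real.sqrt (k + 1))) :
    ∃ q ∈ Q, (3 / 4) / (Q.card : ℝ) ≤
      μ (fun y => if ∑ j, (∑ i, q i * φ i y j) ^ 2 ≤ τ ^ 2 then (1 : ℝ) else 0) := by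
  have hk : (0 : ℝ) < k + 1 := by (clear * -; positivity)
  have hsq : ∀ i j, Bdd (fun y => (φ i y j) ^ 2) := by
    intro i j
    obtain ⟨M, hM⟩ := hφ i j
    refine ⟨M ^ 2, fun y => ?_⟩
    rw [abs_pow]
    exact pow_le_pow_left₀ (abs_nonneg _) (hM y) 2
  have hsum : ∀ i, Bdd (fun y => ∑ j, (φ i y j) ^ 2) := fun i =>
    NoInd1_bdd_sum _ _ fun j _ => hsq i j
  have hΨ : Bdd (fun y => ∑ i, ∑ j, (φ i y j) ^ 2) := NoInd1_bdd_sum _ _ fun i _ => hsum i
  have hμΨ : μ (fun y => ∑ i, ∑ j, (φ i y j) ^ 2) ≤ 4 * (k + 1) := by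
    rw [NoInd1_mean_sum hμ _ _ fun i _ => hsum i]
    refine (Finset.sum_le_card_nsmul _ _ 4 fun i _ => h4 i).trans (le_of_eq ?_)
    rw [Finset.card_univ, Fintype.card_fin, nsmul_eq_mul]
    push_cast
    ring
  have hY := NoInd1_markov' hμ hΨ (fun y => Finset.sum_nonneg fun i _ =>
    Finset.sum_nonneg fun j _ => sq_nonneg _) (a := 16 * (k + 1)) (by (clear * -; positivity))
  refine NoInd1_pigeon hμ (fun y => ∑ i, ∑ j, (φ i y j) ^ 2 ≤ 16 * ((k : ℝ) + 1)) Q hQ
    (fun q y => ∑ j, (∑ i, q i * φ i y j) ^ 2 ≤ τ ^ 2) ?_ ?_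
  · refine le_trans ?_ hY
    have h1 : (16 * ((k : ℝ) + 1))⁻¹ * μ (fun y => ∑ i, ∑ j, (φ i y j) ^ 2) ≤
        (16 * ((k : ℝ) + 1))⁻¹ * (4 * (k + 1)) :=
      mul_le_mul_of_nonneg_left hμΨ (by (clear * -; positivity))
    have h2 : (16 * ((k : ℝ) + 1))⁻¹ * (4 * (k + 1)) = 1 / 4 := by
      field_simp
      (clear * -; norm_num)
    linarith only [h2, h1]
  · intro y hy
    obtain ⟨a, ha, ha0⟩ := NoInd1_exists_rel fun i => φ i y
    obtain ⟨q, hq, hqa⟩ := hnet a ha
    refine ⟨q, hq, ?_⟩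
    have h1 : ∀ j, (∑ i, q i * φ i y j) ^ 2 ≤ ‖a - q‖ ^ 2 * ∑ i, (φ i y j) ^ 2 := by
      intro j
      have h2 : ∑ i, q i * φ i y j = ∑ i, (q i - a i) * φ i y j := by
        rw [← sub_zero (∑ i, q i * φ i y j), ← ha0 j, ← Finset.sum_sub_distrib]
        exact Finset.sum_congr rfl fun i _ => by ring
      rw [h2]
      refine (Finset.sum_mul_sq_le_sq_mul_sq _ _ _).trans (le_of_eq ?_)
      congr 1
      rw [EuclideanSpace.norm_sq_eq]
      exact Finset.sum_congr rfl fun i _ => by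
        rw [Real.norm_eq_abs, sq_abs, PiLp.sub_apply]
        ring
    calc ∑ j, (∑ i, q i * φ i y j) ^ 2 ≤ ∑ j, ‖a - q‖ ^ 2 * ∑ i, (φ i y j) ^ 2 :=
          Finset.sum_le_sum fun j _ => h1 j
      _ = ‖a - q‖ ^ 2 * ∑ i, ∑ j, (φ i y j) ^ 2 := by
          rw [← Finset.mul_sum, Finset.sum_comm]
      _ ≤ (τ / (4 * Real.sqrt (k + 1))) ^ 2 * (16 * (k + 1)) := by
          refine mul_le_mul (pow_le_pow_left₀ (norm_nonneg _) hqa 2) hy ?_ (sq_nonneg _)
          exact Finset.sum_nonneg fun i _ => Finset.sum_nonneg fun j _ => sq_nonneg _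
      _ = τ ^ 2 := by
          rw [div_pow, mul_pow, Real.sq_sqrt hk.le]
          field_simp
          norm_num

end Vale.Agent.P188.SG
end
end
end

section

section

section

/-!
P188, Theorem S: controlled Følner pairs give a cautious random walk.
-/

universe u v w

open Filter Topology

namespace Vale.Agent.P188.SG

/-- The scalar product of finitely supported functions. -/
noncomputable def fol1_ip {H : Type u} (f g : H → ℝ) : ℝ := ∑ᶠ x, f x * g x

/-- finite support, as a predicate with a finset -/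
def fol1_fs {H : Type u} (f : H → ℝ) : Prop := ∃ F : Finset H, ∀ x, x ∉ F → f x = 0

theorem fol1_ip_eq {H : Type u} {f g : H → ℝ} {F : Finset H} (hF : ∀ x, x ∉ F → f x = 0) :
    fol1_ip f g = ∑ x ∈ F, f x * g x := by
  unfold fol1_ip
  refine finsum_eq_sum_of_support_subset _ ?_
  intro x hx
  by_contra hxF
  have h0 : f x = 0 := hF x (by simpa using hxF)
  exact hx (by simp [h0])

theorem fol1_fs_support {H : Type u} {f g : H → ℝ} (hf : fol1_fs f) :
    (Function.support fun x => f x * g x).Finite := by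
  obtain ⟨F, hF⟩ := hf
  refine F.finite_toSet.subset fun x hx => ?_
  by_contra hxF
  exact hx (by simp [hF x (by simpa using hxF)])

theorem fol1_cs {H : Type u} {f g : H → ℝ} (hf : fol1_fs f) (hg : fol1_fs g) :
    fol1_ip f g ^ 2 ≤ fol1_ip f f * fol1_ip g g := by
  classical
  obtain ⟨F, hF⟩ := hf
  obtain ⟨G, hG⟩ := hg
  have hF' : ∀ x, x ∉ F ∪ G → f x = 0 := fun x hx =>
    hF x fun h => hx (Finset.mem_union_left _ h)
  have hG' : ∀ x, x ∉ F ∪ G → g x = 0 := fun x hx =>
    hG x fun h => hx (Finset.mem_union_right _ h)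
  rw [fol1_ip_eq hF', fol1_ip_eq hF', fol1_ip_eq hG']
  have h := Finset.sum_mul_sq_le_sq_mul_sq (F ∪ G) f g
  simpa only [sq] using h

variable {H : Type u} [Group H] {S : Finset H}

theorem fol1_ip_shift (f g : H → ℝ) (s : H) :
    (∑ᶠ x, f (x * s) * g x) = ∑ᶠ x, f x * g (x * s⁻¹) := by
  have h := finsum_comp_equiv (Equiv.mulRight s) (f := fun x => f x * g (x * s⁻¹))
  rw [← h]
  refine finsum_congr fun x => ?_
  simp only [Equiv.coe_mulRight, mul_inv_cancel_right]

theorem fol1_fs_shift {f : H → ℝ} (hf : fol1_fs f) (s : H) : fol1_fs (fun x => f (x * s)) := by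
  classical
  obtain ⟨F, hF⟩ := hf
  refine ⟨F.image (fun x => x * s⁻¹), fun x hx => hF _ fun h => hx ?_⟩
  exact Finset.mem_image.mpr ⟨x * s, h, by simp only [mul_inv_cancel_right]⟩

theorem fol1_fs_avg {f : H → ℝ} (hf : fol1_fs f) : fol1_fs (avg S f) := by
  classical
  choose F hF using fun s : H => fol1_fs_shift hf s
  refine ⟨S.biUnion F, fun x hx => ?_⟩
  unfold avg
  have h0 : ∀ s ∈ S, f (x * s) = 0 := fun s hs =>
    hF s x fun h => hx (Finset.mem_biUnion.mpr ⟨s, hs, h⟩)
  rw [Finset.sum_eq_zero h0, mul_zero]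

theorem fol1_fs_iter {f : H → ℝ} (hf : fol1_fs f) (n : ℕ) : fol1_fs ((avg S)^[n] f) := by
  induction n with
  | zero => exact hf
  | succ n ih => rw [Function.iterate_succ_apply']; exact fol1_fs_avg ih

theorem fol1_ip_avg_left {f : H → ℝ} (hf : fol1_fs f) (g : H → ℝ) :
    fol1_ip (avg S f) g = (S.card : ℝ)⁻¹ * ∑ s ∈ S, ∑ᶠ x, f (x * s) * g x := by
  have h1 : ∀ s ∈ S, (Function.support fun x => f (x * s) * g x).Finite := fun s _ =>
    fol1_fs_support (fol1_fs_shift hf s)
  rw [← finsum_sum_comm S (fun x s => f (x * s) * g x) h1, mul_finsum]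
  unfold fol1_ip avg
  refine finsum_congr fun x => ?_
  rw [mul_assoc, Finset.sum_mul]

theorem fol1_ip_avg_right {f : H → ℝ} (hf : fol1_fs f) (g : H → ℝ) :
    fol1_ip f (avg S g) = (S.card : ℝ)⁻¹ * ∑ s ∈ S, ∑ᶠ x, f x * g (x * s) := by
  have h1 : ∀ s ∈ S, (Function.support fun x => f x * g (x * s)).Finite := fun s _ =>
    fol1_fs_support hf
  rw [← finsum_sum_comm S (fun x s => f x * g (x * s)) h1, mul_finsum]
  unfold fol1_ip avg
  refine finsum_congr fun x => ?_
  rw [← Finset.mul_sum]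
  ring

theorem fol1_sum_inv (hS : ∀ s ∈ S, s⁻¹ ∈ S) (F : H → ℝ) :
    ∑ s ∈ S, F s⁻¹ = ∑ s ∈ S, F s := by
  refine Finset.sum_bij' (fun s _ => s⁻¹) (fun s _ => s⁻¹) (fun s hs => hS s hs)
    (fun s hs => hS s hs) (fun s _ => inv_inv s) (fun s _ => inv_inv s) (fun s _ => rfl)

theorem fol1_ip_symm (hS : ∀ s ∈ S, s⁻¹ ∈ S) {f : H → ℝ} (hf : fol1_fs f) (g : H → ℝ) :
    fol1_ip (avg S f) g = fol1_ip f (avg S g) := by
  rw [fol1_ip_avg_left hf, fol1_ip_avg_right hf]
  congr 1
  simp only [fol1_ip_shift]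
  exact fol1_sum_inv hS fun s => ∑ᶠ x, f x * g (x * s)

theorem fol1_ip_iter (hS : ∀ s ∈ S, s⁻¹ ∈ S) (m : ℕ) {f : H → ℝ} (hf : fol1_fs f)
    (g : H → ℝ) : fol1_ip ((avg S)^[m] f) g = fol1_ip f ((avg S)^[m] g) := by
  induction m generalizing f with
  | zero => rfl
  | succ m ih =>
    rw [Function.iterate_succ_apply, ih (fol1_fs_avg hf), fol1_ip_symm hS hf,
      Function.iterate_succ_apply']

/-- log-convexity of the even return probabilities -/
theorem fol1_logconv (hS : ∀ s ∈ S, s⁻¹ ∈ S) {f : H → ℝ} (hf : fol1_fs f) (k : ℕ) :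
    fol1_ip ((avg S)^[k + 1] f) ((avg S)^[k + 1] f) ^ 2 ≤
      fol1_ip ((avg S)^[k] f) ((avg S)^[k] f) *
        fol1_ip ((avg S)^[k + 2] f) ((avg S)^[k + 2] f) := by
  have h := fol1_cs (fol1_fs_iter (S := S) hf k) (fol1_fs_iter (S := S) hf (k + 2))
  have e : fol1_ip ((avg S)^[k] f) ((avg S)^[k + 2] f) =
      fol1_ip ((avg S)^[k + 1] f) ((avg S)^[k + 1] f) := by
    have h1 := fol1_ip_symm hS (fol1_fs_iter (S := S) hf k) ((avg S)^[k + 1] f)
    rw [← Function.iterate_succ_apply' (avg S) k f,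
      ← Function.iterate_succ_apply' (avg S) (k + 1) f] at h1
    exact h1.symm
  rwa [e] at h

theorem fol1_seq (N : ℕ → ℝ) (hN : ∀ k, N (k + 1) ^ 2 ≤ N k * N (k + 2)) (h0 : 0 < N 0)
    (q : ℝ) (hq : 0 < q) (h1 : q * N 0 ≤ N 1) (k : ℕ) : q ^ k * N 0 ≤ N k := by
  have key : ∀ k, 0 < N k ∧ q * N k ≤ N (k + 1) := by
    intro k
    induction k with
    | zero => exact ⟨h0, h1⟩
    | succ k ih =>
      obtain ⟨i1, i2⟩ := ih
      have hp : 0 < N (k + 1) := lt_of_lt_of_le (mul_pos hq i1) i2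
      refine ⟨hp, ?_⟩
      have h2 := hN k
      have h3 : q * N (k + 1) * N k ≤ N (k + 2) * N k := by
        calc q * N (k + 1) * N k = (q * N k) * N (k + 1) := by ring
          _ ≤ N (k + 1) * N (k + 1) := mul_le_mul_of_nonneg_right i2 hp.le
          _ = N (k + 1) ^ 2 := by ring
          _ ≤ N k * N (k + 2) := h2
          _ = N (k + 2) * N k := by ring
      exact le_of_mul_le_mul_right h3 i1
  induction k with
  | zero => simp
  | succ k ih =>
    calc q ^ (k + 1) * N 0 = q * (q ^ k * N 0) := by ring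
      _ ≤ q * N k := mul_le_mul_of_nonneg_left ih hq.le
      _ ≤ N (k + 1) := (key k).2

theorem fol1_exp {t : ℝ} (h0 : 0 ≤ t) (h1 : t ≤ 1 / 2) : Real.exp (-(2 * t)) ≤ 1 - t := by
  have h2 : 2 * t + 1 ≤ Real.exp (2 * t) := Real.add_one_le_exp _
  have h3 : 0 < 2 * t + 1 := by linarith only [h0]
  rw [Real.exp_neg]
  refine (inv_anti₀ h3 h2).trans ?_
  rw [inv_le_iff_one_le_mul₀ h3]
  nlinarith only [h0, h1]

/-- the Dirichlet form -/
theorem fol1_energy (hne : S.Nonempty) {f : H → ℝ} {E : Finset H}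
    (hE : ∀ x, x ∉ E → f x = 0) {a : ℝ} (ha : ∀ x, ∀ s ∈ S, (f (x * s) - f x) ^ 2 ≤ a) :
    fol1_ip f f - fol1_ip (avg S f) f ≤ a * E.card := by
  classical
  have hf : fol1_fs f := ⟨E, hE⟩
  have hcard : (0 : ℝ) < S.card := by exact_mod_cast hne.card_pos
  rw [fol1_ip_avg_left hf]
  have key : ∀ s ∈ S, fol1_ip f f - (∑ᶠ x, f (x * s) * f x) ≤ a * E.card := by
    intro s hs
    obtain ⟨G, hG⟩ : ∃ G : Finset H, G = E ∪ E.image (fun x => x * s⁻¹) := ⟨_, rfl⟩
    have hG1 : ∀ x, x ∉ G → f x = 0 := fun x hx =>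
      hE x fun h => hx (hG ▸ Finset.mem_union_left _ h)
    have hG2 : ∀ x, x ∉ G → f (x * s) = 0 := fun x hx =>
      hE _ fun h => hx (hG ▸ Finset.mem_union_right _
        (Finset.mem_image.mpr ⟨x * s, h, by simp only [mul_inv_cancel_right]⟩))
    have hGc : (G.card : ℝ) ≤ 2 * E.card := by
      have h1 : G.card ≤ E.card + E.card := by
        rw [hG]
        exact (Finset.card_union_le _ _).trans (Nat.add_le_add_left Finset.card_image_le _)
      have h2 : (G.card : ℝ) ≤ ((E.card + E.card : ℕ) : ℝ) := by exact_mod_cast h1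
      push_cast at h2
      linarith only [h2]
    have e1 : fol1_ip f f = ∑ x ∈ G, f x * f x := fol1_ip_eq hG1
    have e2 : fol1_ip f f = ∑ x ∈ G, f (x * s) * f (x * s) := by
      rw [← fol1_ip_eq (g := fun x => f (x * s)) (f := fun x => f (x * s)) hG2]
      unfold fol1_ip
      exact (finsum_comp_equiv (Equiv.mulRight s) (f := fun x => f x * f x)).symm
    have e3 : (∑ᶠ x, f (x * s) * f x) = ∑ x ∈ G, f (x * s) * f x :=
      fol1_ip_eq (f := fun x => f (x * s)) hG2
    have e4 : 2 * (fol1_ip f f - (∑ᶠ x, f (x * s) * f x)) =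
        ∑ x ∈ G, (f (x * s) - f x) ^ 2 := by
      have : ∑ x ∈ G, (f (x * s) - f x) ^ 2 = ∑ x ∈ G, f (x * s) * f (x * s) +
          ∑ x ∈ G, f x * f x - 2 * ∑ x ∈ G, f (x * s) * f x := by
        rw [Finset.mul_sum, ← Finset.sum_add_distrib, ← Finset.sum_sub_distrib]
        exact Finset.sum_congr rfl fun x _ => by ring
      rw [this, ← e1, ← e2, ← e3]
      ring
    have h5 : ∑ x ∈ G, (f (x * s) - f x) ^ 2 ≤ G.card * a := by
      have := Finset.sum_le_card_nsmul G (fun x => (f (x * s) - f x) ^ 2) a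
        (fun x _ => ha x s hs)
      simpa only [ge_iff_le, nsmul_eq_mul] using this
    have ha0 : 0 ≤ a := (sq_nonneg _).trans (ha 1 s hs)
    have h6 : (G.card : ℝ) * a ≤ 2 * E.card * a := mul_le_mul_of_nonneg_right hGc ha0
    linarith only [e4, h5, h6]
  have h7 : ∑ s ∈ S, (fol1_ip f f - (∑ᶠ x, f (x * s) * f x)) ≤ S.card * (a * E.card) := by
    have := Finset.sum_le_card_nsmul S (fun s => fol1_ip f f - (∑ᶠ x, f (x * s) * f x)) _ key
    simpa only [Finset.sum_sub_distrib, Finset.sum_const, nsmul_eq_mul, tsub_le_iff_right, ge_iff_le] using this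
  rw [Finset.sum_sub_distrib, Finset.sum_const, nsmul_eq_mul] at h7
  have h8 := mul_le_mul_of_nonneg_left h7 (inv_nonneg.mpr hcard.le)
  have h9 : (S.card : ℝ)⁻¹ * (S.card * (a * E.card)) = a * E.card := by
    rw [← mul_assoc, inv_mul_cancel₀ hcard.ne', one_mul]
  rw [h9, mul_sub, ← mul_assoc, inv_mul_cancel₀ hcard.ne', one_mul] at h8
  exact h8

/-- the upper bound for the return probabilities -/
theorem fol1_upper {f : H → ℝ} {E : Finset H} (hE : ∀ x, x ∉ E → f x = 0)
    (h0 : ∀ x, 0 ≤ f x) (h1 : ∀ x, f x ≤ 1) {R : ℝ}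
    (hR : ∀ x ∈ E, ∀ y ∈ E, (len S (x⁻¹ * y) : ℝ) ≤ R) (n : ℕ) :
    fol1_ip f ((avg S)^[n] f) ≤ E.card * Ex S n (fun g => if (len S g : ℝ) ≤ R then 1 else 0) := by
  rw [fol1_ip_eq hE]
  have key : ∀ x ∈ E, f x * (avg S)^[n] f x ≤
      Ex S n (fun g => if (len S g : ℝ) ≤ R then 1 else 0) := by
    intro x hx
    have e : (avg S)^[n] f x = Ex S n (fun g => f (x * g)) := by
      unfold Ex
      rw [Walk_left, mul_one]
    rw [e]
    have h2 : 0 ≤ Ex S n (fun g => f (x * g)) := Ex_nonneg n fun g => h0 _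
    have h3 : f x * Ex S n (fun g => f (x * g)) ≤ 1 * Ex S n (fun g => f (x * g)) :=
      mul_le_mul_of_nonneg_right (h1 x) h2
    rw [one_mul] at h3
    refine h3.trans (Ex_mono n fun g => ?_)
    by_cases hg : (len S g : ℝ) ≤ R
    · rw [if_pos hg]
      exact h1 _
    · rw [if_neg hg]
      refine (hE _ fun hxg => hg ?_).le
      have := hR x hx _ hxg
      rwa [inv_mul_cancel_left] at this
  have := Finset.sum_le_card_nsmul E _ _ key
  simpa only [ge_iff_le, nsmul_eq_mul] using this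

/-- the test function -/
theorem fol1_test (hS : SymGen S) {r : ℕ} (hr : 0 < r) {E' E : Finset H} (hne : E'.Nonempty)
    (h : ∀ x ∈ E', ∀ h : H, len S h ≤ r → x * h ∈ E) :
    ∃ f : H → ℝ, (∀ x, 0 ≤ f x) ∧ (∀ x, f x ≤ 1) ∧ (∀ x ∈ E', f x = 1) ∧
      (∀ x, x ∉ E → f x = 0) ∧ ∀ x, ∀ s ∈ S, (f (x * s) - f x) ^ 2 ≤ ((r : ℝ) ^ 2)⁻¹ := by
  classical
  have hr' : (0 : ℝ) < r := by exact_mod_cast hr
  obtain ⟨d, hd⟩ : ∃ d : H → ℕ, d = fun x => E'.inf' hne (fun y => len S (y⁻¹ * x)) := ⟨_, rfl⟩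
  have hd1 : ∀ x, ∀ y ∈ E', d x ≤ len S (y⁻¹ * x) := fun x y hy => by
    rw [hd]
    exact Finset.inf'_le (fun y => len S (y⁻¹ * x)) hy
  have hd2 : ∀ x, ∃ y ∈ E', d x = len S (y⁻¹ * x) := fun x => by
    rw [hd]
    exact Finset.exists_mem_eq_inf' hne (fun y => len S (y⁻¹ * x))
  have hd3 : ∀ x, ∀ s ∈ S, d (x * s) ≤ d x + 1 := by
    intro x s hs
    obtain ⟨y, hy, e⟩ := hd2 x
    refine (hd1 _ y hy).trans ?_
    rw [← mul_assoc, e]
    exact (len_mul_le hS.gen _ _).trans (Nat.add_le_add_left (len_le_one hs) _)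
  have hd4 : ∀ x, ∀ s ∈ S, d x ≤ d (x * s) + 1 := by
    intro x s hs
    have := hd3 (x * s) s⁻¹ (hS.inv s hs)
    rwa [mul_inv_cancel_right] at this
  refine ⟨fun x => max 0 (1 - d x / r), fun x => le_max_left _ _, fun x => ?_, fun x hx => ?_,
    fun x hx => ?_, fun x s hs => ?_⟩
  · refine max_le zero_le_one ?_
    have : (0 : ℝ) ≤ d x / r := by (clear * - hr; positivity)
    linarith only [this]
  · have h0 : d x = 0 := by
      have := hd1 x x hx
      rw [inv_mul_cancel, len_one] at this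
      exact Nat.le_zero.mp this
    simp only [h0, CharP.cast_eq_zero, zero_div, sub_zero, zero_le_one, sup_of_le_right]
  · have h1 : r < d x := by
      by_contra hlt
      obtain ⟨y, hy, e⟩ := hd2 x
      have h2 := h y hy (y⁻¹ * x) (by rw [← e]; exact not_lt.mp hlt)
      rw [mul_inv_cancel_left] at h2
      exact hx h2
    refine max_eq_left ?_
    rw [sub_nonpos, one_le_div hr']
    exact_mod_cast h1.le
  · have h3 : (d (x * s) : ℝ) ≤ d x + 1 := by exact_mod_cast hd3 x s hs
    have h4 : (d x : ℝ) ≤ d (x * s) + 1 := by exact_mod_cast hd4 x s hs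
    have h5 : |max 0 (1 - (d (x * s) : ℝ) / r) - max 0 (1 - (d x : ℝ) / r)| ≤ 1 / r := by
      rw [max_comm 0, max_comm 0]
      refine (abs_max_sub_max_le_abs _ _ _).trans ?_
      have e : 1 - (d (x * s) : ℝ) / r - (1 - d x / r) = (d x - d (x * s)) / r := by ring
      rw [e, abs_div, abs_of_pos hr']
      refine div_le_div_of_nonneg_right ?_ hr'.le
      rw [abs_le]
      constructor <;> linarith only [h3, h4]
    have h6 := pow_le_pow_left₀ (abs_nonneg _) h5 2
    rw [sq_abs] at h6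
    simpa only [ge_iff_le, one_div, inv_pow] using h6

/-- the lower bound for the return probabilities -/
theorem fol1_lower (hS : SymGen S) {f : H → ℝ} (hf : fol1_fs f) (h0 : 0 < fol1_ip f f)
    {t : ℝ} (ht0 : 0 ≤ t) (ht1 : t ≤ 1 / 2)
    (ht : fol1_ip f f - fol1_ip (avg S f) f ≤ t * fol1_ip f f) (k : ℕ) :
    Real.exp (-(4 * t * k)) * fol1_ip f f ≤ fol1_ip f ((avg S)^[2 * k] f) := by
  have h1t : 0 < 1 - t := by linarith only [ht1]
  have e1 : fol1_ip f ((avg S)^[2 * k] f) = fol1_ip ((avg S)^[k] f) ((avg S)^[k] f) := by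
    rw [fol1_ip_iter hS.inv k hf, ← Function.iterate_add_apply, two_mul]
  have h2 : (1 - t) * fol1_ip f f ≤ fol1_ip (avg S f) f := by linarith only [ht]
  have h3 : fol1_ip (avg S f) f ^ 2 ≤ fol1_ip (avg S f) (avg S f) * fol1_ip f f :=
    fol1_cs (fol1_fs_avg hf) hf
  have h4 : ((1 - t) * fol1_ip f f) ^ 2 ≤ fol1_ip (avg S f) f ^ 2 :=
    pow_le_pow_left₀ (mul_nonneg h1t.le h0.le) h2 2
  have h5 : (1 - t) ^ 2 * fol1_ip f f ≤ fol1_ip (avg S f) (avg S f) := by
    refine le_of_mul_le_mul_right ?_ h0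
    calc (1 - t) ^ 2 * fol1_ip f f * fol1_ip f f = ((1 - t) * fol1_ip f f) ^ 2 := by ring
      _ ≤ _ := h4.trans h3
  have h6 := fol1_seq (fun k => fol1_ip ((avg S)^[k] f) ((avg S)^[k] f))
    (fun k => fol1_logconv hS.inv hf k) h0 ((1 - t) ^ 2) (by (clear * - h1t; positivity)) h5 k
  rw [e1]
  refine le_trans (mul_le_mul_of_nonneg_right ?_ h0.le) h6
  have h7 : Real.exp (-(4 * t * k)) = (Real.exp (-(2 * t)) ^ 2) ^ k := by
    rw [← pow_mul, ← Real.exp_nat_mul]
    congr 1
    push_cast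
    ring
  rw [h7]
  exact pow_le_pow_left₀ (by positivity)
    (pow_le_pow_left₀ (Real.exp_pos _).le (fol1_exp ht0 ht1) 2) k

theorem fol1_step (hS : SymGen S) {C : ℕ} {r : ℕ} (hr : 0 < r) (hrC : 2 * C ≤ r)
    {E' E : Finset H} (hne : E'.Nonempty)
    (h1 : ∀ x ∈ E', ∀ h : H, len S h ≤ r → x * h ∈ E)
    (h2 : ∀ x ∈ E, ∀ y ∈ E, len S (x⁻¹ * y) ≤ C * (r + 1)) (h3 : E.card ≤ C * E'.card)
    (k : ℕ) :
    0 < C ∧ (C : ℝ)⁻¹ * Real.exp (-(4 * (C / (r : ℝ) ^ 2) * k)) ≤
      Ex S (2 * k) (fun g => if (len S g : ℝ) ≤ C * (r + 1) then 1 else 0) := by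
  have hr' : (0 : ℝ) < r := by exact_mod_cast hr
  have hr1 : (1 : ℝ) ≤ r := by exact_mod_cast hr
  obtain ⟨f, f0, f1, f2, f3, f4⟩ := fol1_test hS hr hne h1
  have hf : fol1_fs f := ⟨E, f3⟩
  have hsub : E' ⊆ E := fun x hx => by
    have := h1 x hx 1 (by rw [len_one]; exact Nat.zero_le _)
    rwa [mul_one] at this
  have hcE' : 0 < E'.card := hne.card_pos
  have hcE : 0 < E.card := lt_of_lt_of_le hcE' (Finset.card_le_card hsub)
  have hC : 0 < C := by
    rcases Nat.eq_zero_or_pos C with h | h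
    · rw [h, zero_mul] at h3
      omega
    · exact h
  refine ⟨hC, ?_⟩
  have hC' : (0 : ℝ) < C := by exact_mod_cast hC
  have hcE'' : (0 : ℝ) < E.card := by exact_mod_cast hcE
  have hcE0 : (0 : ℝ) < E'.card := by exact_mod_cast hcE'
  have h3' : (E.card : ℝ) ≤ C * E'.card := by exact_mod_cast h3
  have hlow : (E'.card : ℝ) ≤ fol1_ip f f := by
    rw [fol1_ip_eq f3]
    calc (E'.card : ℝ) = ∑ x ∈ E', f x * f x := by
          rw [Finset.sum_congr rfl (fun x hx => by rw [f2 x hx, one_mul])]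
          simp only [Finset.sum_const, nsmul_eq_mul, mul_one]
      _ ≤ ∑ x ∈ E, f x * f x :=
          Finset.sum_le_sum_of_subset_of_nonneg hsub fun x _ _ => mul_self_nonneg _
  have hpos : 0 < fol1_ip f f := lt_of_lt_of_le hcE0 hlow
  have hen := fol1_energy hS.ne f3 f4
  have hen2 : fol1_ip f f - fol1_ip (avg S f) f ≤ (C / (r : ℝ) ^ 2) * fol1_ip f f := by
    refine hen.trans ?_
    calc ((r : ℝ) ^ 2)⁻¹ * E.card ≤ ((r : ℝ) ^ 2)⁻¹ * (C * fol1_ip f f) :=
          mul_le_mul_of_nonneg_left (h3'.trans (mul_le_mul_of_nonneg_left hlow hC'.le))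
            (by (clear * - hr; positivity))
      _ = (C / (r : ℝ) ^ 2) * fol1_ip f f := by ring
  have ht1 : (C : ℝ) / (r : ℝ) ^ 2 ≤ 1 / 2 := by
    rw [div_le_div_iff₀ (by (clear * - hr; positivity)) (by norm_num)]
    have h4 : (2 : ℝ) * C ≤ r := by exact_mod_cast hrC
    nlinarith only [h4, hr1]
  have hL := fol1_lower hS hf hpos (by (clear * - hC hr; positivity)) ht1 hen2 k
  have hU := fol1_upper (S := S) (R := C * (r + 1)) f3 f0 f1
    (fun x hx y hy => by exact_mod_cast h2 x hx y hy) (2 * k)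
  have h5 : Real.exp (-(4 * (C / (r : ℝ) ^ 2) * k)) * E'.card ≤
      E.card * Ex S (2 * k) (fun g => if (len S g : ℝ) ≤ C * (r + 1) then 1 else 0) :=
    (mul_le_mul_of_nonneg_left hlow (Real.exp_pos _).le).trans (hL.trans hU)
  set X := Ex S (2 * k) (fun g => if (len S g : ℝ) ≤ C * (r + 1) then 1 else 0) with hX
  have hX0 : 0 ≤ X := Ex_nonneg _ fun g => by split_ifs <;> norm_num
  have h6 : Real.exp (-(4 * (C / (r : ℝ) ^ 2) * k)) * E'.card ≤ C * X * E'.card :=
    h5.trans ((mul_le_mul_of_nonneg_right h3' hX0).trans (le_of_eq (by ring)))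
  have h7 := le_of_mul_le_mul_right h6 hcE0
  rw [inv_mul_le_iff₀ hC']
  exact h7

theorem cautious_of_folner (hS : SymGen S) (hF : Folner S) : Cautious S := by
  intro c hc
  obtain ⟨C, hC⟩ := hF
  obtain ⟨M, hM⟩ : ∃ M : ℝ, M = 4 * C * (4 * C ^ 2 / c ^ 2 + 1) := ⟨_, rfl⟩
  obtain ⟨E₁', E₁, hne₁, h11, h12, h13⟩ := hC (2 * C + 1)
  obtain ⟨hC0, -⟩ := fol1_step hS (by omega) (by (clear * -; omega)) hne₁ h11 h12 h13 0
  have hC' : (0 : ℝ) < C := by exact_mod_cast hC0
  have hC1 : (1 : ℝ) ≤ C := by exact_mod_cast hC0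
  refine ⟨(C : ℝ)⁻¹ * Real.exp (-M), by (clear * - hC0; positivity), ?_⟩
  rw [Filter.frequently_atTop]
  intro n0
  obtain ⟨r₀, hr₀⟩ := exists_nat_ge (c * (n0 + 1))
  obtain ⟨r, hr⟩ : ∃ r : ℕ, r = r₀ + 2 * C + 1 := ⟨_, rfl⟩
  obtain ⟨E', E, hne, h1, h2, h3⟩ := hC r
  obtain ⟨k, hk⟩ : ∃ k : ℕ, k = ⌈(C * ((r : ℝ) + 1) / c) ^ 2⌉₊ := ⟨_, rfl⟩
  obtain ⟨-, h4⟩ := fol1_step hS (by omega) (by omega) hne h1 h2 h3 k
  have hr1 : (1 : ℝ) ≤ r := by
    have : 1 ≤ r := by (clear * - hC0 hr; omega)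
    exact_mod_cast this
  have hrr : c * (n0 + 1) ≤ r := by
    have : (r₀ : ℝ) ≤ r := by
      have : r₀ ≤ r := by (clear * - hC0 hr; omega)
      exact_mod_cast this
    linarith only [this, hr₀]
  have hk1 : (C * ((r : ℝ) + 1) / c) ^ 2 ≤ k := hk ▸ Nat.le_ceil _
  have hk2 : (k : ℝ) < (C * ((r : ℝ) + 1) / c) ^ 2 + 1 := hk ▸ Nat.ceil_lt_add_one (by (clear * - hC0 hr1 hc; positivity))
  have h5 : (n0 : ℝ) + 1 ≤ C * ((r : ℝ) + 1) / c := by
    rw [le_div_iff₀ hc]
    nlinarith only [hrr, hC1]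
  have h6 : (n0 : ℝ) ≤ k := by
    have : (0 : ℝ) ≤ n0 := Nat.cast_nonneg _
    (by_contra nlg; linarith only [mul_nonneg (sub_nonneg.2 this) (sub_nonneg.2 this), mul_nonneg (sub_nonneg.2 h5) (sub_nonneg.2 this), mul_nonneg (sub_nonneg.2 h5) (sub_nonneg.2 h5), mul_nonneg (le_of_lt (sub_pos.2 hk2)) (sub_nonneg.2 h5), mul_nonneg (sub_nonneg.2 hk1) (sub_nonneg.2 h5), mul_nonneg (sub_nonneg.2 hk1) (le_of_lt (sub_pos.2 hk2)), mul_nonneg (sub_nonneg.2 hk1) (sub_nonneg.2 hk1), mul_pos (sub_pos.2 (not_le.1 nlg)) (sub_pos.2 hk2), mul_nonneg (le_of_lt (sub_pos.2 (not_le.1 nlg))) (sub_nonneg.2 hk1)])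
  have h6' : n0 ≤ k := by exact_mod_cast h6
  refine ⟨2 * k, by omega, ?_⟩
  refine le_trans ?_ (h4.trans (Ex_mono _ fun g => ?_))
  · refine mul_le_mul_of_nonneg_left (Real.exp_le_exp.mpr ?_) (by (clear * - hC0; positivity))
    rw [hM, neg_le_neg_iff]
    have h7 : (k : ℝ) ≤ (4 * C ^ 2 / c ^ 2 + 1) * (r : ℝ) ^ 2 := by
      have h8 : (C * ((r : ℝ) + 1) / c) ^ 2 ≤ 4 * C ^ 2 / c ^ 2 * (r : ℝ) ^ 2 := by
        have h9 : C * ((r : ℝ) + 1) / c ≤ C * (2 * r) / c := by gcongr; linarith only [hr1]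
        refine (pow_le_pow_left₀ (by (clear * - hC0 hr1 hc; positivity)) h9 2).trans (le_of_eq ?_)
        ring
      nlinarith only [hr1, hk2, h8]
    have h10 : 4 * ((C : ℝ) / (r : ℝ) ^ 2) * k ≤
        4 * ((C : ℝ) / (r : ℝ) ^ 2) * ((4 * C ^ 2 / c ^ 2 + 1) * (r : ℝ) ^ 2) :=
      mul_le_mul_of_nonneg_left h7 (by (clear * - hC0 hr1; positivity))
    refine h10.trans (le_of_eq ?_)
    field_simp
  · have h11 : (C : ℝ) * (r + 1) ≤ c * Real.sqrt ((2 * k : ℕ) : ℝ) := by
      have h12 : C * ((r : ℝ) + 1) / c ≤ Real.sqrt ((2 * k : ℕ) : ℝ) := by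
        apply Real.le_sqrt_of_sq_le
        push_cast
        have : (0 : ℝ) ≤ k := Nat.cast_nonneg _
        linarith only [hk1]
      rw [div_le_iff₀ hc] at h12
      linarith only [h12]
    by_cases hg : (len S g : ℝ) ≤ C * (r + 1)
    · rw [if_pos hg, if_pos (hg.trans h11)]
    · rw [if_neg hg]
      split_ifs <;> norm_num

end Vale.Agent.P188.SG
end
end
end

section

section

section

/-! P188, Theorem S+: a cocycle is the sum of a harmonic cocycle and an almost coboundary, with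
linear control of the error. -/

universe u v w

open Filter Topology Pointwise

namespace Vale.Agent.P188.SG

theorem harmonic_decomp' {H : Type u} [Group H] {S : Finset H} {V : Type v}
    [NormedAddCommGroup V] [InnerProductSpace ℝ V] [CompleteSpace V] (hS : SymGen S)
    (π : H →* (V ≃ₗᵢ[ℝ] V)) (b : H → V) (hb : IsCocycle π b) :
    ∃ h z : H → V, IsCocycle π h ∧ IsCocycle π z ∧ (∀ g, b g = h g + z g) ∧
      ∑ s ∈ S, h s = 0 ∧ (∀ ε : ℝ, 0 < ε → ∃ C : ℝ, ∀ g, ‖z g‖ ≤ ε * len S g + C) ∧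
      ∀ ε : ℝ, 0 < ε → ∃ v : V, ∀ g, ‖z g - (π g v - v)‖ ≤ ε * len S g := by
  classical
  let E := PiLp 2 (fun _ : S => V)
  let D : V →ₗ[ℝ] E := harm_D S π
  let K : Submodule ℝ E := (LinearMap.range D).topologicalClosure
  haveI : IsClosed (K : Set E) := Submodule.isClosed_topologicalClosure _
  haveI : CompleteSpace K := this.completeSpace_coe
  let bS : E := WithLp.toLp 2 (fun s : S => b s)
  let zS : E := K.starProjection bS
  have hzK : zS ∈ closure (Set.range D) := by
    have : zS ∈ K := K.starProjection_apply_mem bS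
    exact this
  obtain ⟨x, hx, hxl⟩ := mem_closure_iff_seq_limit.mp hzK
  choose v hv using hx
  have hvl : Tendsto (fun n => D (v n)) atTop (𝓝 zS) := by simpa only [hv] using hxl
  have hcau : ∀ g : H, ∃ y : V, Tendsto (fun n => π g (v n) - v n) atTop (𝓝 y) := by
    intro g
    refine cauchySeq_tendsto_of_complete ?_
    have hC : CauchySeq (fun n => D (v n)) := hvl.cauchySeq
    rw [Metric.cauchySeq_iff] at hC ⊢
    intro ε hε
    obtain ⟨N, hN⟩ := hC (ε / (len S g + 1)) (by (clear * - hε; (clear * - hε; positivity)))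
    refine ⟨N, fun m hm n hn => ?_⟩
    have h1 := hN m hm n hn
    rw [dist_eq_norm] at h1 ⊢
    have e : π g (v m) - v m - (π g (v n) - v n) = π g (v m - v n) - (v m - v n) := by
      rw [map_sub]; abel
    rw [e]
    refine (harm_D_bound hS π (v m - v n) g).trans_lt ?_
    have e2 : harm_D S π (v m - v n) = D (v m) - D (v n) := map_sub D _ _
    rw [e2]
    rw [lt_div_iff₀ (by (clear * -; positivity))] at h1
    linarith only [norm_nonneg (D (v m) - D (v n)), h1]
  choose z hz using hcau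
  have hzc : IsCocycle π z := by
    intro g h
    refine tendsto_nhds_unique (hz (g * h)) ?_
    have h1 : Tendsto (fun n => (π g (v n) - v n) + π g (π h (v n) - v n)) atTop
        (𝓝 (z g + π g (z h))) :=
      (hz g).add (((π g).continuous.tendsto _).comp (hz h))
    refine h1.congr fun n => ?_
    exact (harm_cobound π (v n) g h).symm
  have hzs : ∀ s : S, z s = zS s := by
    intro s
    refine tendsto_nhds_unique (hz s) ?_
    exact ((PiLp.continuous_apply 2 (fun _ : S => V) s).tendsto zS).comp hvl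
  have hhc : IsCocycle π (fun g => b g - z g) := harm_sub hb hzc
  have hlin : ∀ ε : ℝ, 0 < ε → ∃ v : V, ∀ g, ‖z g - (π g v - v)‖ ≤ ε * len S g := by
    intro ε hε
    obtain ⟨n, hn⟩ := ((Metric.tendsto_atTop.mp hvl) ε hε)
    have hn' := hn n le_rfl
    refine ⟨v n, fun g => ?_⟩
    have hcc : IsCocycle π (fun g => z g - (π g (v n) - v n)) := harm_sub hzc (harm_cobound π _)
    refine harm_bound hS hcc (fun s hs => ?_) g
    change ‖z s - (π s (v n) - v n)‖ ≤ ε
    have h2 : ‖(zS - D (v n)) ⟨s, hs⟩‖ ≤ ‖zS - D (v n)‖ := PiLp.norm_apply_le _ _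
    have h3 : (zS - D (v n)) ⟨s, hs⟩ = z s - (π s (v n) - v n) := by
      rw [PiLp.sub_apply, ← hzs ⟨s, hs⟩]
      rfl
    rw [h3] at h2
    rw [dist_comm, dist_eq_norm] at hn'
    exact h2.trans hn'.le
  refine ⟨fun g => b g - z g, z, hhc, hzc, fun g => by simp, ?_, ?_, hlin⟩
  · refine harm_sum_zero hS hhc fun w => ?_
    have h1 : bS - zS ∈ Kᗮ := Submodule.sub_starProjection_mem_orthogonal bS
    have h2 : D w ∈ K := Submodule.le_topologicalClosure _ (LinearMap.mem_range_self D w)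
    have h3 : inner ℝ (D w) (bS - zS) = 0 := h1 _ h2
    rw [PiLp.inner_apply] at h3
    rw [← Finset.sum_coe_sort S]
    rw [← h3]
    refine Finset.sum_congr rfl fun s _ => ?_
    rw [real_inner_comm, PiLp.sub_apply, ← hzs s]
    rfl
  · intro ε hε
    obtain ⟨w, hw⟩ := hlin ε hε
    refine ⟨2 * ‖w‖, fun g => ?_⟩
    have h4 : ‖π g w - w‖ ≤ 2 * ‖w‖ := by
      refine (norm_sub_le _ _).trans ?_
      rw [LinearIsometryEquiv.norm_map]
      linarith only []
    calc ‖z g‖ = ‖(z g - (π g w - w)) + (π g w - w)‖ := by rw [sub_add_cancel]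
      _ ≤ ‖z g - (π g w - w)‖ + ‖π g w - w‖ := norm_add_le _ _
      _ ≤ ε * len S g + 2 * ‖w‖ := add_le_add (hw g) h4

end Vale.Agent.P188.SG
end
end
end

section

section

section

end
end
end
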