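import Vale.Agent.P188.MathlibUsed
import Vale.Agent.P188.Bdl.B1
import Vale.Agent.P188.Defs

set_option linter.all false

section

section

section

section

section

/-!
Vanishing of cohomology above the length, for poly-`ℤ` groups, and the resulting
equivariant top contraction.
-/

universe u v w

namespace Vale.Agent.P188

open Finsupp

section Act

variable {G : Type u} [Group G] {X : Type v} [MulAction G X]

/-- The action on chains. -/
noncomputable def act (g : G) : Ch X →ₗ[ℤ] Ch X := pf (fun x => g • x)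

lemma act_mul (g h : G) (u : Ch X) : act (g * h) u = act g (act h u) := by
  rw [act, act, act, pf_comp]
  congr 2
  funext x
  exact mul_smul g h x

lemma act_one (u : Ch X) : act (1 : G) u = u := by
  rw [act]
  have : (fun x : X => (1 : G) • x) = fun x => x := by funext x; exact one_smul G x
  rw [this, pf_id]

lemma bd_act (g : G) (u : Ch X) : bd (act g u) = act g (bd u) := bd_pf _ _

lemma act_cns (g : G) (x : X) (u : Ch X) : act g (cns x u) = cns (g • x) (act g u) :=
  pf_cns _ _ _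

lemma act_single (g : G) (l : List X) (a : ℤ) :
    act g (single l a) = single (l.map (fun x => g • x)) a := pf_single _ _ _

lemma act_mem_Gr (g : G) {q : ℕ} {u : Ch X} (hu : u ∈ Sp (Gr q)) : act g u ∈ Sp (Gr q) :=
  pf_mem (fun l hl => by simpa [Gr] using hl) hu

end Act

/-- Vanishing of the cohomology of `G` on lists of length `m`, with all coefficients. -/
def Van (G : Type u) [Group G] (m : ℕ) : Prop :=
  ∀ (X : Type u) [MulAction G X] [Nonempty X], (∀ (g : G) (x : X), g • x = x → g = 1) →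
    ∀ (M : Type u) [AddCommGroup M] [DistribMulAction G M] (c : Ch X →ₗ[ℤ] M),
      (∀ (g : G) (u : Ch X), c (act g u) = g • c u) →
      (∀ u ∈ Sp (Gr (m + 1) : Set (List X)), c (bd u) = 0) →
      ∃ b : Ch X →ₗ[ℤ] M, (∀ (g : G) (u : Ch X), b (act g u) = g • b u) ∧
        ∀ u ∈ Sp (Gr m : Set (List X)), b (bd u) = c u

lemma Van_of_subsingleton (G : Type u) [Group G] [Subsingleton G] (m : ℕ) : Van G m := by
  intro X _ hX _ M _ _ c _ hc
  obtain ⟨x₀⟩ := hX
  refine ⟨c ∘ₗ cns x₀, ?_, ?_⟩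
  · intro g u
    have : g = 1 := Subsingleton.elim _ _
    subst this
    rw [act_one, one_smul]
  · intro u hu
    have h1 : bd (cns x₀ u) = u - cns x₀ (bd u) := bd_cns x₀ u
    have h2 : cns x₀ (bd u) = u - bd (cns x₀ u) := by rw [h1]; abel
    have h3 : c (bd (cns x₀ u)) = 0 := hc _ (cns_mem (fun l hl => by
      simp only [mem_Gr] at *; simp [hl]) hu)
    rw [LinearMap.comp_apply, h2, map_sub, h3, sub_zero]

section Height

variable {G : Type u} [Group G] (φ : G →* Multiplicative ℤ)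

/-- Existence of a height function on a free `G`-set. -/
lemma exists_height {X : Type v} [MulAction G X]
    (hfree : ∀ (g : G) (x : X), g • x = x → g = 1) :
    ∃ η : X → ℤ, ∀ (g : G) (x : X), η (g • x) = ht φ g + η x := by
  classical
  let rep : X → X := fun x => (Quotient.mk'' x : MulAction.orbitRel.Quotient G X).out
  have hrep : ∀ x, ∃ g : G, g • rep x = x := by
    intro x
    have : MulAction.orbitRel G X (rep x) x := Quotient.exact' (Quotient.out_eq'
        (Quotient.mk'' x : MulAction.orbitRel.Quotient G X))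
    rw [MulAction.orbitRel_apply] at this
    obtain ⟨g, hg⟩ := this
    have hg' : g • x = rep x := hg
    exact ⟨g⁻¹, by rw [← hg', inv_smul_smul]⟩
  choose γ hγ using hrep
  refine ⟨fun x => ht φ (γ x), ?_⟩
  intro g x
  have h1 : rep (g • x) = rep x := by
    have : (Quotient.mk'' (g • x) : MulAction.orbitRel.Quotient G X) = Quotient.mk'' x := by
      apply Quotient.sound'
      rw [MulAction.orbitRel_apply]
      exact ⟨g, rfl⟩
    simp only [rep, this]
  have h2 : γ (g • x) • rep x = g • x := by rw [← h1]; exact hγ _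
  have h3 : (g * γ x)⁻¹ * γ (g • x) = 1 := by
    apply hfree _ (rep x)
    rw [mul_smul, h2, mul_inv_rev, mul_smul, inv_smul_smul]
    exact inv_smul_eq_iff.mpr (hγ x).symm
  have h4 : γ (g • x) = g * γ x := (inv_mul_eq_one.mp h3).symm
  show ht φ (γ (g • x)) = _
  rw [h4, ht_mul]

end Height

section Step

variable {G : Type u} [Group G]

/-- The telescoping sums used to solve `f - t f = - e`. -/
noncomputable def tele {X : Type v} [MulAction G X] {M : Type w} [AddCommGroup M]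
    [DistribMulAction G M] (t : G) (e : Ch X →ₗ[ℤ] M) (i : ℤ) (u : Ch X) : M :=
  - ∑ j ∈ Finset.range i.toNat, (t ^ j) • e (act ((t ^ j)⁻¹) u)
  + ∑ j ∈ Finset.range (-i).toNat, ((t ^ (j + 1))⁻¹) • e (act (t ^ (j + 1)) u)

lemma tele_step {X : Type v} [MulAction G X] {M : Type w} [AddCommGroup M]
    [DistribMulAction G M] (t : G) (e : Ch X →ₗ[ℤ] M) (i : ℤ) (u : Ch X) :
    tele t e i u - t • tele t e (i - 1) (act t⁻¹ u) = - e u := by
  have r1 : ∀ j : ℕ, t • (t ^ j) • e (act ((t ^ j)⁻¹) (act t⁻¹ u)) =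
      (t ^ (j + 1)) • e (act ((t ^ (j + 1))⁻¹) u) := by
    intro j
    rw [← act_mul, ← mul_smul, ← pow_succ', pow_succ' t j, mul_inv_rev]
  have r2 : ∀ j : ℕ, t • ((t ^ (j + 1))⁻¹) • e (act (t ^ (j + 1)) (act t⁻¹ u)) =
      ((t ^ j)⁻¹) • e (act (t ^ j) u) := by
    intro j
    rw [← act_mul, ← mul_smul]
    congr 2
    · rw [pow_succ, mul_inv_rev, mul_inv_cancel_left]
    · congr 1
      rw [pow_succ, mul_inv_cancel_right]
  unfold tele
  rw [smul_add, smul_neg, Finset.smul_sum, Finset.smul_sum]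
  simp only [r1, r2]
  rcases le_or_gt i 0 with hi | hi
  · have h1 : i.toNat = 0 := by omega
    have h2 : (i - 1).toNat = 0 := by omega
    obtain ⟨k, hk⟩ : ∃ k : ℕ, -i = k := ⟨(-i).toNat, by omega⟩
    have h3 : (-i).toNat = k := by omega
    have h4 : (-(i - 1)).toNat = k + 1 := by omega
    rw [h1, h2, h3, h4, Finset.sum_range_succ' (fun j => (t ^ j)⁻¹ • e (act (t ^ j) u)) k]
    simp only [Finset.range_zero, Finset.sum_empty, pow_zero, inv_one, one_smul, act_one]
    abel
  · have h3 : (-i).toNat = 0 := by omega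
    have h4 : (-(i - 1)).toNat = 0 := by omega
    obtain ⟨k, hk⟩ : ∃ k : ℕ, i = k + 1 := ⟨(i - 1).toNat, by omega⟩
    have h1 : i.toNat = k + 1 := by omega
    have h2 : (i - 1).toNat = k := by omega
    rw [h1, h2, h3, h4, Finset.sum_range_succ' (fun j => t ^ j • e (act (t ^ j)⁻¹ u)) k]
    simp only [pow_zero, inv_one, act_one, one_smul, Finset.range_zero, Finset.sum_empty]
    abel

lemma Van_ext (φ : G →* Multiplicative ℤ) (hφ : Function.Surjective φ) (m : ℕ)
    (h1 : Van φ.ker (m + 3)) (h2 : Van φ.ker (m + 2)) : Van G (m + 3) := by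
  classical
  obtain ⟨t, htt⟩ := hφ (Multiplicative.ofAdd 1)
  have ht1 : ht φ t = 1 := by simp only [ht, htt, toAdd_ofAdd]
  intro X _ _ hfree M _ _ c hc hcc
  have hfreeN : ∀ (g : φ.ker) (x : X), g • x = x → g = 1 := by
    intro g x h
    have := hfree (g : G) x h
    exact Subtype.ext this
  have actN : ∀ (n : φ.ker) (u : Ch X), act n u = act (n : G) u := fun n u => rfl
  obtain ⟨b₀, hb₀, hb₀'⟩ := h1 X hfreeN M c (fun g u => hc g u) hcc
  -- conjugation
  have conj : ∀ (n : φ.ker) (g : G), ∃ n' : φ.ker, (n' : G) = g⁻¹ * n * g := by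
    intro n g
    refine ⟨⟨g⁻¹ * n * g, ?_⟩, rfl⟩
    have := (inferInstance : φ.ker.Normal).conj_mem n n.2 g⁻¹
    simpa only [MonoidHom.mem_ker, map_mul, map_inv, inv_mul_cancel_comm, inv_inv] using this
  have twist : ∀ (g : G) (b : Ch X →ₗ[ℤ] M), (∀ (n : φ.ker) (u : Ch X), b (act n u) = n • b u) →
      ∀ (n : φ.ker) (u : Ch X), g • b (act g⁻¹ (act n u)) = n • g • b (act g⁻¹ u) := by
    intro g b hb n u
    obtain ⟨n', hn'⟩ := conj n g
    have e1 : act g⁻¹ (act n u) = act n' (act g⁻¹ u) := by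
      rw [actN, actN, ← act_mul, ← act_mul, hn']
      congr 2
      group
    have e2 : g * (g⁻¹ * (n : G) * g) = n * g := by group
    rw [e1, hb, Subgroup.smul_def, Subgroup.smul_def, ← mul_smul, ← mul_smul, hn', e2]
  let c₁ : Ch X →ₗ[ℤ] M :=
    { toFun := fun u => b₀ u - t • b₀ (act t⁻¹ u)
      map_add' := by intro u v; simp only [map_add, smul_add]; abel
      map_smul' := by
        intro a u
        simp only [map_smul, RingHom.id_apply, smul_sub]
        rw [smul_comm t a] }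
  have hc₁ : ∀ u, c₁ u = b₀ u - t • b₀ (act t⁻¹ u) := fun u => rfl
  obtain ⟨e, he, he'⟩ := h2 X hfreeN M c₁ (by
    intro n u
    rw [hc₁, hc₁, hb₀, twist t b₀ hb₀, smul_sub]) (by
    intro u hu
    rw [hc₁, ← bd_act, hb₀' u hu, hb₀' _ (act_mem_Gr _ hu), hc, smul_inv_smul, sub_self])
  obtain ⟨η, hη⟩ := exists_height φ (X := X) hfree
  let ηl : List X → ℤ := fun l => match l with
    | [] => 0
    | x :: _ => η x
  let f : Ch X →ₗ[ℤ] M := Finsupp.linearCombination ℤ (fun l => tele t e (ηl l) (single l 1))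
  have hf : ∀ l, f (single l 1) = tele t e (ηl l) (single l 1) := by
    intro l; simp [f, Finsupp.linearCombination_single]
  have hηl : ∀ (g : G) (l : List X), l ≠ [] → ηl (l.map (fun x => g • x)) = ht φ g + ηl l := by
    intro g l hl
    rcases l with _ | ⟨x, l⟩
    · exact absurd rfl hl
    · exact hη g x
  have htele : ∀ (i : ℤ) (n : φ.ker) (u : Ch X), tele t e i (act n u) = n • tele t e i u := by
    intro i n u
    unfold tele
    rw [smul_add, smul_neg, Finset.smul_sum, Finset.smul_sum]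
    congr 1
    · congr 1
      apply Finset.sum_congr rfl
      intro j _
      exact twist (t ^ j) e he n u
    · apply Finset.sum_congr rfl
      intro j _
      have := twist ((t ^ (j + 1))⁻¹) e he n u
      rw [inv_inv] at this
      exact this
  have hfN : ∀ (n : φ.ker) (u : Ch X), f (act n u) = n • f u := by
    intro n u
    have : (f ∘ₗ act n : Ch X →ₗ[ℤ] M) =
        (DistribSMul.toLinearMap ℤ M n) ∘ₗ f := by
      apply lin_ext
      intro l
      rw [LinearMap.comp_apply, LinearMap.comp_apply, DistribSMul.toLinearMap_apply]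
      by_cases hl : l = []
      · subst hl
        have h0 : act n (single ([] : List X) 1) = single [] 1 := by
          rw [act_single]; rfl
        have h1 := htele (ηl []) n (single [] 1)
        rw [h0] at h1
        rw [h0, hf]
        exact h1
      · have h0 : ηl (l.map (fun x => n • x)) = ηl l := by
          have := hηl (n : G) l hl
          rw [(mem_ker_iff_ht φ (n : G)).mp n.2, zero_add] at this
          exact this
        rw [hf l]
        have h1 := htele (ηl l) n (single l 1)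
        rw [act_single] at h1 ⊢
        rw [hf, h0]
        exact h1
    exact LinearMap.congr_fun this u
  have hft : ∀ u ∈ Sp (Gr (m + 1) : Set (List X)), f u - t • f (act t⁻¹ u) = - e u := by
    intro u hu
    have := eq_of_Sp (L := f - (DistribSMul.toLinearMap ℤ M t) ∘ₗ f ∘ₗ act t⁻¹)
      (L' := - e) (p := Gr (m + 1)) (u := u) (by
      intro l hl
      have hl' : l ≠ [] := by
        rintro rfl
        simp [Gr] at hl
      have h0 := hηl t⁻¹ l hl'
      rw [ht_inv, ht1] at h0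
      have h1 := tele_step t e (ηl l) (single l 1)
      have e1 : (-1 : ℤ) + ηl l = ηl l - 1 := by ring
      rw [e1] at h0
      simp only [LinearMap.sub_apply, LinearMap.comp_apply, LinearMap.neg_apply,
        DistribSMul.toLinearMap_apply]
      rw [hf l]
      rw [act_single] at h1 ⊢
      rw [hf, h0]
      exact h1) hu
    exact this
  let b₁ : Ch X →ₗ[ℤ] M := b₀ + f ∘ₗ bd
  have hb₁ : ∀ u, b₁ u = b₀ u + f (bd u) := fun u => rfl
  have hb₁N : ∀ (n : φ.ker) (u : Ch X), b₁ (act n u) = n • b₁ u := by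
    intro n u
    rw [hb₁, hb₁, hb₀, bd_act, hfN, smul_add]
  have hb₁t : ∀ u ∈ Sp (Gr (m + 2) : Set (List X)), b₁ (act t u) = t • b₁ u := by
    intro u hu
    have hu' : act t u ∈ Sp (Gr (m + 2) : Set (List X)) := act_mem_Gr _ hu
    have q1 : b₀ (act t u) - t • b₀ u = e (bd (act t u)) := by
      rw [he' _ hu', hc₁, ← act_mul, inv_mul_cancel, act_one]
    have q2 : f (bd (act t u)) - t • f (bd u) = - e (bd (act t u)) := by
      have := hft (bd (act t u)) (bd_mem_Gr hu')
      rw [← bd_act, ← act_mul, inv_mul_cancel, act_one] at this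
      exact this
    have q3 : b₁ (act t u) - t • b₁ u = 0 := by
      rw [hb₁, hb₁, smul_add]
      have : b₀ (act t u) + f (bd (act t u)) - (t • b₀ u + t • f (bd u)) =
          (b₀ (act t u) - t • b₀ u) + (f (bd (act t u)) - t • f (bd u)) := by abel
      rw [this, q1, q2]; abel
    exact sub_eq_zero.mp q3
  have hb₁G : ∀ (g : G), ∀ u ∈ Sp (Gr (m + 2) : Set (List X)), b₁ (act g u) = g • b₁ u := by
    let K : Subgroup G :=
      { carrier := {g | ∀ u ∈ Sp (Gr (m + 2) : Set (List X)), b₁ (act g u) = g • b₁ u}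
        mul_mem' := by
          intro a b ha hb u hu
          rw [act_mul, ha _ (act_mem_Gr _ hu), hb u hu, mul_smul]
        one_mem' := by
          intro u _
          rw [act_one, one_smul]
        inv_mem' := by
          intro a ha u hu
          have := ha (act a⁻¹ u) (act_mem_Gr _ hu)
          rw [← act_mul, mul_inv_cancel, act_one] at this
          rw [this, inv_smul_smul] }
    have hK : ∀ g : G, g ∈ K := by
      intro g
      have htK : t ∈ K := hb₁t
      have hmem : g * (t ^ (ht φ g))⁻¹ ∈ φ.ker := by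
        rw [mem_ker_iff_ht, ht_mul, ht_inv, ht_zpow φ ht1]
        ring
      have hnK : g * (t ^ (ht φ g))⁻¹ ∈ K := by
        intro u _
        exact hb₁N ⟨_, hmem⟩ u
      have := K.mul_mem hnK (K.zpow_mem htK (ht φ g))
      simpa using this
    exact hK
  refine ⟨Finsupp.linearCombination ℤ
    (fun l => if l.length = m + 2 then b₁ (single l 1) else 0), ?_, ?_⟩
  · intro g u
    have : (Finsupp.linearCombination ℤ
        (fun l : List X => if l.length = m + 2 then b₁ (single l 1) else 0)) ∘ₗ act g =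
        (DistribSMul.toLinearMap ℤ M g) ∘ₗ (Finsupp.linearCombination ℤ
        (fun l : List X => if l.length = m + 2 then b₁ (single l 1) else 0)) := by
      apply lin_ext
      intro l
      rw [LinearMap.comp_apply, LinearMap.comp_apply, DistribSMul.toLinearMap_apply,
        act_single, Finsupp.linearCombination_single, Finsupp.linearCombination_single,
        one_smul, one_smul, List.length_map]
      split_ifs with h
      · rw [← hb₁G g _ (single_mem_Sp (p := Gr (m + 2)) h 1), act_single]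
      · rw [smul_zero]
    exact LinearMap.congr_fun this u
  · intro u hu
    have : (Finsupp.linearCombination ℤ
        (fun l : List X => if l.length = m + 2 then b₁ (single l 1) else 0)) (bd u) =
        b₁ (bd u) := by
      apply eq_of_Sp (p := Gr (m + 2)) _ (bd_mem_Gr hu)
      intro l hl
      rw [Finsupp.linearCombination_single, one_smul, if_pos (mem_Gr.mp hl)]
    rw [this, hb₁, bd_bd, map_zero, add_zero, hb₀' u hu]

lemma Van_of_PolyZ : ∀ (n : ℕ) (G : Type u) [Group G], PolyZ n G → ∀ m, n + 2 ≤ m → Van G m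
  | 0, G, _, h => by
    have : Subsingleton G := h
    exact fun m _ => Van_of_subsingleton G m
  | n + 1, G, _, h => by
    obtain ⟨φ, hφ, h'⟩ := h
    intro m hm
    obtain ⟨m', rfl⟩ : ∃ m', m = m' + 3 := ⟨m - 3, by omega⟩
    exact Van_ext φ hφ m' (Van_of_PolyZ n φ.ker h' _ (by omega))
      (Van_of_PolyZ n φ.ker h' _ (by omega))

end Step

end Vale.Agent.P188
end
end
end
end
end

section

section

section

section

section

/-!
The equivariant top contraction of a poly-`ℤ` group.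
-/

universe u v w

namespace Vale.Agent.P188

open Finsupp

section Flt

variable {X : Type u}

/-- The projection onto chains on lists of length `q`. -/
noncomputable def flt (q : ℕ) : Ch X →ₗ[ℤ] Ch X :=
  Finsupp.linearCombination ℤ (fun l => if l.length = q then single l 1 else 0)

lemma flt_single (q : ℕ) (l : List X) :
    flt q (single l 1) = if l.length = q then single l 1 else 0 := by
  simp [flt, Finsupp.linearCombination_single]

lemma flt_mem (q : ℕ) (u : Ch X) : flt q u ∈ Sp (Gr q) := by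
  apply map_mem_of_Sp (p := Set.univ) _ (by rw [mem_Sp]; exact fun _ _ => trivial)
  intro l _
  rw [flt_single]
  split_ifs with h
  · exact single_mem_Sp h 1
  · exact Submodule.zero_mem _

lemma flt_eq {q : ℕ} {u : Ch X} (hu : u ∈ Sp (Gr q)) : flt q u = u := by
  have := eq_of_Sp (L := flt q) (L' := LinearMap.id) (p := Gr q) (u := u) (by
    intro l hl
    rw [flt_single, if_pos (mem_Gr.mp hl)]
    rfl) hu
  exact this

lemma flt_eq_zero {q q' : ℕ} (h : q' ≠ q) {u : Ch X} (hu : u ∈ Sp (Gr q')) : flt q u = 0 := by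
  have := eq_of_Sp (L := flt q) (L' := 0) (p := Gr q') (u := u) (by
    intro l hl
    rw [mem_Gr] at hl
    rw [flt_single, if_neg (by omega)]
    rfl) hu
  exact this

lemma bd_flt (q : ℕ) (u : Ch X) : bd (flt (q + 1) u) = flt q (bd u) := by
  have : (bd ∘ₗ flt (q + 1) : Ch X →ₗ[ℤ] Ch X) = flt q ∘ₗ bd := by
    apply lin_ext
    intro l
    rw [LinearMap.comp_apply, LinearMap.comp_apply, flt_single, bd_single, one_smul]
    split_ifs with h
    · rw [bd_single, one_smul, flt_eq]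
      apply Sp_mono _ (dl_mem l)
      rintro l' ⟨_, h2⟩
      rw [mem_Gr]; omega
    · rw [map_zero]
      rcases l with _ | ⟨x, t⟩
      · simp
      · rw [flt_eq_zero (q' := t.length)]
        · simp only [List.length_cons] at h; omega
        · apply Sp_mono _ (dl_mem (x :: t))
          rintro l' ⟨_, h2⟩
          rw [mem_Gr]; simpa using h2
  exact LinearMap.congr_fun this u

lemma flt_act {G : Type v} [Group G] [MulAction G X] (q : ℕ) (g : G) (u : Ch X) :
    flt q (act g u) = act g (flt q u) := by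
  have : (flt q ∘ₗ act g : Ch X →ₗ[ℤ] Ch X) = act g ∘ₗ flt q := by
    apply lin_ext
    intro l
    rw [LinearMap.comp_apply, LinearMap.comp_apply, act_single, flt_single, flt_single,
      List.length_map]
    split_ifs with h
    · rw [act_single]
    · rw [map_zero]
  exact LinearMap.congr_fun this u

end Flt

/-- Cycles. -/
noncomputable abbrev Cyc (G : Type u) := LinearMap.ker (bd : Ch G →ₗ[ℤ] Ch G)

noncomputable instance cycAct (G : Type u) [Group G] : DistribMulAction G (Cyc G) where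
  smul g v := ⟨act g v.1, by rw [LinearMap.mem_ker, bd_act, LinearMap.mem_ker.mp v.2, map_zero]⟩
  one_smul v := Subtype.ext (act_one v.1)
  mul_smul g h v := Subtype.ext (act_mul g h v.1)
  smul_zero g := Subtype.ext (map_zero (act g))
  smul_add g v w := Subtype.ext (map_add (act g) v.1 w.1)

theorem top_contraction (n : ℕ) (G : Type u) [Group G] (h : PolyZ n G) :
    ∃ k : Ch G →ₗ[ℤ] Ch G, (∀ (g : G) (u : Ch G), k (act g u) = act g (k u)) ∧
      (∀ u ∈ Sp (Gr (n + 1) : Set (List G)), k u ∈ Sp (Gr (n + 2))) ∧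
      (∀ u ∈ Sp (Gr (n + 2) : Set (List G)), bd (k (bd u)) = bd u) := by
  have hfree : ∀ (g : G) (x : G), g • x = x → g = 1 := by
    intro g x h
    exact mul_eq_right.mp h
  obtain ⟨b, hb, hb'⟩ := Van_of_PolyZ n G h (n + 2) le_rfl G hfree (Cyc G)
    (bd.codRestrict (LinearMap.ker bd) (fun u => bd_bd u))
    (fun g u => Subtype.ext (bd_act g u)) (fun u _ => Subtype.ext (bd_bd _))
  have hbc : ∀ u, bd (b u).1 = 0 := fun u => LinearMap.mem_ker.mp (b u).2
  let kl : List G → Ch G := fun l => match l with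
    | [] => 0
    | x :: t => cns x (flt (n + 1) (b (single (x :: t) 1)).1)
  let k : Ch G →ₗ[ℤ] Ch G := Finsupp.linearCombination ℤ kl
  have hk : ∀ l, k (single l 1) = kl l := by
    intro l; simp [k, Finsupp.linearCombination_single]
  refine ⟨k, ?_, ?_, ?_⟩
  · intro g u
    have : (k ∘ₗ act g : Ch G →ₗ[ℤ] Ch G) = act g ∘ₗ k := by
      apply lin_ext
      intro l
      rw [LinearMap.comp_apply, LinearMap.comp_apply, act_single, hk, hk]
      rcases l with _ | ⟨x, t⟩
      · simp [kl]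
      · have h1 := hb g (single (x :: t) 1)
        rw [act_single] at h1
        simp only [kl, List.map_cons]
        rw [act_cns, ← flt_act]
        simp only [List.map_cons] at h1
        rw [h1]
        rfl
    exact LinearMap.congr_fun this u
  · intro u hu
    apply map_mem_of_Sp _ hu
    intro l hl
    rw [hk]
    rcases l with _ | ⟨x, t⟩
    · exact Submodule.zero_mem _
    · apply cns_mem _ (flt_mem (n + 1) _)
      intro l hl
      rw [mem_Gr] at *
      simp [hl]
  · intro u hu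
    have h1 : ∀ v ∈ Sp (Gr (n + 1) : Set (List G)), bd (k v) = flt (n + 1) (b v).1 := by
      intro v hv
      have := eq_of_Sp (L := bd ∘ₗ k)
        (L' := flt (n + 1) ∘ₗ (LinearMap.ker bd).subtype ∘ₗ b) (p := Gr (n + 1)) (u := v) (by
        intro l hl
        rw [LinearMap.comp_apply, hk]
        rcases l with _ | ⟨x, t⟩
        · simp [Gr] at hl
        · show bd (cns x (flt (n + 1) (b (single (x :: t) 1)).1)) = _
          rw [bd_cns, bd_flt, hbc, map_zero, map_zero, sub_zero]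
          rfl) hv
      exact this
    rw [h1 _ (bd_mem_Gr hu), hb' u hu]
    exact flt_eq (bd_mem_Gr hu)

end Vale.Agent.P188
end
end
end
end
end

section

section

section

section

section

/-!
Norms of chains, finiteness of sets of lists, and rational invariant functionals.
-/

universe u v w

namespace Vale.Agent.P188

open Finsupp

section Norm

variable {X : Type u} {Y : Type v}

/-- The `ℓ¹` norm of a chain. -/
def nm (u : Ch X) : ℤ := u.sum (fun _ a => |a|)

lemma nm_nonneg (u : Ch X) : 0 ≤ nm u :=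
  Finset.sum_nonneg (fun _ _ => abs_nonneg _)

lemma abs_le_nm (u : Ch X) (l : List X) : |u l| ≤ nm u := by
  classical
  by_cases h : l ∈ u.support
  · exact Finset.single_le_sum (f := fun l => |u l|) (fun _ _ => abs_nonneg _) h
  · rw [Finsupp.notMem_support_iff.mp h, abs_zero]
    exact nm_nonneg u

lemma nm_single (l : List X) (a : ℤ) : nm (single l a) = |a| := by
  simp [nm]

lemma nm_add (u v : Ch X) : nm (u + v) ≤ nm u + nm v := by
  classical
  have h : ∀ w : Ch X, w.support ⊆ u.support ∪ v.support → nm w =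
      ∑ l ∈ u.support ∪ v.support, |w l| := by
    intro w hw
    exact Finsupp.sum_of_support_subset _ hw _ (fun _ _ => abs_zero)
  rw [h _ Finsupp.support_add, h u Finset.subset_union_left, h v Finset.subset_union_right,
    ← Finset.sum_add_distrib]
  exact Finset.sum_le_sum (fun l _ => abs_add_le _ _)

lemma nm_neg (u : Ch X) : nm (-u) = nm u := by
  unfold nm
  rw [Finsupp.sum, Finsupp.sum, Finsupp.support_neg]
  simp only [coe_neg, Pi.neg_apply, abs_neg]

lemma nm_sub (u v : Ch X) : nm (u - v) ≤ nm u + nm v := by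
  rw [sub_eq_add_neg]
  exact (nm_add _ _).trans (by rw [nm_neg])

lemma nm_zero : nm (0 : Ch X) = 0 := by simp [nm]

lemma nm_sum {ι : Type w} (s : Finset ι) (f : ι → Ch X) :
    nm (∑ i ∈ s, f i) ≤ ∑ i ∈ s, nm (f i) := by
  classical
  induction s using Finset.induction_on with
  | empty => simp [nm_zero]
  | insert a s ha ih =>
    rw [Finset.sum_insert ha, Finset.sum_insert ha]
    exact (nm_add _ _).trans (by linarith only [ih])

lemma nm_mapDomain (f : List X → List Y) (u : Ch X) : nm (Finsupp.mapDomain f u) ≤ nm u := by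
  unfold Finsupp.mapDomain
  rw [Finsupp.sum]
  refine (nm_sum _ _).trans ?_
  simp only [nm_single]
  exact le_rfl

lemma nm_pf (f : X → Y) (u : Ch X) : nm (pf f u) ≤ nm u := nm_mapDomain _ _

lemma nm_cns (x : X) (u : Ch X) : nm (cns x u) ≤ nm u := nm_mapDomain _ _

lemma nm_prl (f : X → X) (l : List X) : nm (prl f l) ≤ l.length := by
  induction l with
  | nil => simp [prl, nm_zero]
  | cons x t ih =>
    rw [prl_cons]
    refine (nm_sub _ _).trans ?_
    rw [nm_single]
    have := nm_cns x (prl f t)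
    simp only [abs_one, List.length_cons]
    push_cast
    linarith only [ih, this]

/-- Finiteness of the set of lists of given length with entries in a finite set. -/
lemma finite_lists {W : Set X} (hW : W.Finite) (n : ℕ) : (On W ∩ Gr n : Set (List X)).Finite := by
  induction n with
  | zero =>
    apply (Set.finite_singleton ([] : List X)).subset
    rintro l ⟨_, hl⟩
    exact List.length_eq_zero_iff.mp hl
  | succ n ih =>
    apply (Set.Finite.image2 (fun x l => x :: l) hW ih).subset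
    rintro l ⟨hl, hl'⟩
    rcases l with _ | ⟨x, t⟩
    · simp [Gr] at hl'
    · refine ⟨x, hl x (by simp), t, ⟨fun y hy => hl y (by simp [hy]), ?_⟩, rfl⟩
      simpa [Gr] using hl'

lemma bd_apply_eq (u : Ch X) (T : Finset (List X)) (hT : ∀ l, u l ≠ 0 → l ∈ T)
    (ξ : List X) : (bd u) ξ = ∑ l ∈ T, u l * (dl l) ξ := by
  classical
  have h1 : bd u = ∑ l ∈ T, u l • dl l := by
    rw [bd, Finsupp.linearCombination_apply]
    apply Finsupp.sum_of_support_subset
    · intro l hl
      exact hT l (by simpa only [ne_eq, mem_support_iff] using hl)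
    · intro l _
      simp
  rw [h1, Finsupp.finsetSum_apply]
  rfl

lemma lin_apply_eq {K : Ch X →ₗ[ℤ] Ch Y} (u : Ch X) (T : Finset (List X))
    (hT : ∀ l, u l ≠ 0 → l ∈ T) (ξ : List Y) :
    (K u) ξ = ∑ l ∈ T, u l * (K (single l 1)) ξ := by
  classical
  have h1 : K u = ∑ l ∈ T, u l • K (single l 1) := by
    conv_lhs => rw [← Finsupp.sum_single u]
    rw [Finsupp.sum, map_sum]
    have h2 : ∀ l, K (single l (u l)) = u l • K (single l 1) := by
      intro l
      rw [← map_smul]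
      simp
    simp only [h2]
    apply Finset.sum_subset
    · intro l hl
      exact hT l (by simpa only [ne_eq, mem_support_iff] using hl)
    · intro l _ hl
      rw [Finsupp.notMem_support_iff.mp hl, zero_smul]
  rw [h1, Finsupp.finsetSum_apply]
  rfl

end Norm

section Functional

/-- Bounded integer functions. -/
def BddZ {X : Type u} (f : X → ℤ) : Prop := ∃ M : ℤ, ∀ x, |f x| ≤ M

lemma BddZ.cast {X : Type u} {f : X → ℤ} (hf : BddZ f) : Bdd (fun x => (f x : ℝ)) := by
  obtain ⟨M, hM⟩ := hf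
  refine ⟨M, fun x => ?_⟩
  have := hM x
  show |(f x : ℝ)| ≤ M
  exact_mod_cast this

lemma exists_rho : ∃ ρ : ℝ →ₗ[ℚ] ℚ, ρ 1 = 1 := by
  have hinj : LinearMap.ker (Algebra.linearMap ℚ ℝ) = ⊥ := by
    rw [LinearMap.ker_eq_bot]
    exact (algebraMap ℚ ℝ).injective
  obtain ⟨ρ, hρ⟩ := LinearMap.exists_leftInverse_of_injective _ hinj
  refine ⟨ρ, ?_⟩
  have := LinearMap.congr_fun hρ 1
  simpa only [LinearMap.coe_comp, Function.comp_apply, Algebra.linearMap_apply, eq_ratCast, Rat.cast_one,     LinearMap.id_coe, id_eq] using this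

/-- A rational-valued invariant functional on bounded integer functions. -/
lemma exists_functional {H : Type u} [Group H] (h : HasMean H) :
    ∃ J : (H → ℤ) → ℚ,
      (∀ {ι : Type u} (s : Finset ι) (a : ι → ℤ) (f : ι → H → ℤ), (∀ i ∈ s, BddZ (f i)) →
        J (fun x => ∑ i ∈ s, a i * f i x) = ∑ i ∈ s, (a i : ℚ) * J (f i)) ∧
      (∀ a : ℤ, J (fun _ => a) = a) ∧
      (∀ (g : H) f, BddZ f → J (fun x => f (x * g)) = J f) := by
  obtain ⟨μ, hμ, hinv⟩ := h
  obtain ⟨ρ, hρ⟩ := exists_rho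
  have hρZ : ∀ (a : ℤ) (x : ℝ), ρ ((a : ℝ) * x) = (a : ℚ) * ρ x := by
    intro a x
    have := ρ.map_smul (a : ℚ) x
    rw [Rat.smul_def, smul_eq_mul] at this
    rw [← this]
    simp only [Rat.cast_intCast]
  refine ⟨fun f => ρ (μ (fun x => (f x : ℝ))), ?_, ?_, ?_⟩
  · intro ι s a f hf
    have e1 : (fun x => ((∑ i ∈ s, a i * f i x : ℤ) : ℝ)) =
        fun x => ∑ i ∈ s, (a i : ℝ) * (f i x : ℝ) := by
      funext x
      push_cast
      rfl
    have h1 := hμ.sum s (fun i x => (a i : ℝ) * (f i x : ℝ))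
      (fun i hi => (hf i hi).cast.const_mul _)
    simp only
    rw [e1, h1.2, map_sum]
    apply Finset.sum_congr rfl
    intro i hi
    rw [hμ.smul _ _ (hf i hi).cast, hρZ]
  · intro a
    simp only
    rw [hμ.const]
    have := hρZ a 1
    rw [mul_one, hρ, mul_one] at this
    exact this
  · intro g f hf
    simp only
    congr 1
    exact hinv g _ hf.cast

/-- Common denominators. -/
lemma exists_denominator {ι : Type u} {S : Set ι} (hS : S.Finite) (q : ι → ℚ) :
    ∃ m : ℤ, 0 < m ∧ ∀ i ∈ S, ∃ z : ℤ, (m : ℚ) * q i = z := by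
  classical
  refine ⟨∏ i ∈ hS.toFinset, ((q i).den : ℤ), ?_, ?_⟩
  · apply Finset.prod_pos
    intro i _
    exact_mod_cast (q i).den_pos
  · intro i hi
    have hi' : i ∈ hS.toFinset := by simpa using hi
    refine ⟨(∏ j ∈ hS.toFinset.erase i, ((q j).den : ℤ)) * (q i).num, ?_⟩
    rw [← Finset.mul_prod_erase _ _ hi']
    push_cast
    have h1 : ((q i).den : ℚ) * q i = (q i).num := by
      rw [mul_comm]
      exact_mod_cast Rat.mul_den_eq_num (q i)
    calc ((q i).den : ℚ) * (∏ j ∈ hS.toFinset.erase i, ((q j).den : ℚ)) * q i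
        = (∏ j ∈ hS.toFinset.erase i, ((q j).den : ℚ)) * (((q i).den : ℚ) * q i) := by ring
      _ = _ := by rw [h1]

end Functional

end Vale.Agent.P188
end
end
end
end
end

section

section

section

section

section

/-!
Transport of the top contraction along a coarse equivalence, averaging over the group, and
clearing denominators.
-/

universe u v w

namespace Vale.Agent.P188

open Finsupp Pointwise

/-- Lists whose entries lie in `x * E`. -/
def Nr {H : Type u} [Group H] (x : H) (E : Set H) : Set (List H) := On {y | x⁻¹ * y ∈ E}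

lemma exists_local_contraction {H : Type u} {Z : Type v} [Group H] [Group Z] {n : ℕ}
    (hc : CoarseEquiv H Z) (hZ : PolyZ n Z) :
    ∃ k : Ch H →ₗ[ℤ] Ch H,
      (∀ u ∈ Sp (Gr (n + 1) : Set (List H)), k u ∈ Sp (Gr (n + 2))) ∧
      (∀ u ∈ Sp (Gr (n + 2) : Set (List H)), bd (k (bd u)) = bd u) ∧
      (∀ A : Set H, A.Finite → ∃ E : Set H, E.Finite ∧ ∃ M : ℤ, ∀ (x : H) (t : List H),
        (x :: t) ∈ Ctl A ∩ Gr (n + 1) → k (single (x :: t) 1) ∈ Sp (Nr x E) ∧
          ∀ l, |k (single (x :: t) 1) l| ≤ M) := by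
  classical
  obtain ⟨F, F', hF, hF', ⟨E₀, hE₀, hE₀'⟩, _⟩ := hc
  obtain ⟨k, hk_eq, hk_mem, hk_bd⟩ := top_contraction n Z hZ
  refine ⟨pf F' ∘ₗ k ∘ₗ pf F - pr (F' ∘ F), ?_, ?_, ?_⟩
  · intro u hu
    apply Submodule.sub_mem
    · exact pf_mem (fun l hl => by simpa [Gr] using hl)
        (hk_mem _ (pf_mem (fun l hl => by simpa [Gr] using hl) hu))
    · exact pr_mem (fun l hl l' _ h2 => by rw [mem_Gr] at *; omega) hu
  · intro u hu
    have hFu : pf F u ∈ Sp (Gr (n + 2)) := pf_mem (fun l hl => by simpa [Gr] using hl) hu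
    have h1 := bd_pr (F' ∘ F) (bd u)
    rw [bd_bd, map_zero, add_zero] at h1
    show bd (pf F' (k (pf F (bd u))) - pr (F' ∘ F) (bd u)) = bd u
    rw [map_sub, bd_pf, ← bd_pf F, hk_bd _ hFu, bd_pf F, pf_comp, h1]
    abel
  · intro A hA
    obtain ⟨A₁, hA₁, hA₁'⟩ := hF A hA
    -- bounds for the finitely many normalised lists
    have hfin := finite_lists hA₁ (n + 1)
    obtain ⟨M₁, hM₁⟩ : ∃ M₁ : ℤ, ∀ l ∈ (On A₁ ∩ Gr (n + 1) : Set (List Z)),
        nm (k (single l 1)) ≤ M₁ := by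
      obtain ⟨M, hM⟩ := (hfin.image (fun l => nm (k (single l 1)))).bddAbove
      exact ⟨M, fun l hl => hM ⟨l, hl, rfl⟩⟩
    let E₁ : Set Z := ⋃ l ∈ (On A₁ ∩ Gr (n + 1) : Set (List Z)),
      ⋃ l' ∈ (↑(k (single l 1)).support : Set (List Z)), {y | y ∈ l'}
    have hE₁ : E₁.Finite := by
      apply hfin.biUnion
      intro l _
      apply (Finset.finite_toSet _).biUnion
      intro l' _
      exact List.finite_toSet l'
    obtain ⟨E₂, hE₂, hE₂'⟩ := hF' E₁ hE₁
    refine ⟨E₀ * E₂ ∪ (A ∪ A * E₀), (hE₀.mul hE₂).union (hA.union (hA.mul hE₀)),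
      M₁ + (n + 1 : ℕ), ?_⟩
    rintro x t ⟨hl, hl'⟩
    have hxy : ∀ y ∈ x :: t, x⁻¹ * y ∈ A := fun y hy => hl x (by simp) y hy
    -- normalise
    have hnorm : ((x :: t).map F).map (fun y => (F x)⁻¹ • y) ∈
        (On A₁ ∩ Gr (n + 1) : Set (List Z)) := by
      refine ⟨?_, by simpa only [Gr, smul_eq_mul, List.map_cons, inv_mul_cancel, List.map_map, Set.mem_ofPred_eq, List.length_cons,     List.length_map, Nat.add_right_cancel_iff] using hl'⟩
      intro y hy
      rw [List.map_map, List.mem_map] at hy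
      obtain ⟨y', hy', rfl⟩ := hy
      exact hA₁' x y' (hxy y' hy')
    have hkk : k (pf F (single (x :: t) 1)) = act (F x)
        (k (single (((x :: t).map F).map (fun y => (F x)⁻¹ • y)) 1)) := by
      rw [← hk_eq, act_single, pf_single, List.map_map]
      congr 2
      have : ((fun y => F x • y) ∘ fun y => (F x)⁻¹ • y) = (id : Z → Z) := by
        funext y; exact smul_inv_smul _ _
      rw [this, List.map_id]
    have hsupp : k (single (((x :: t).map F).map (fun y => (F x)⁻¹ • y)) 1) ∈ Sp (On E₁) := by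
      rw [mem_Sp]
      intro l h y hy
      exact Set.mem_biUnion hnorm (Set.mem_biUnion (by simpa only [smul_eq_mul, List.map_cons, inv_mul_cancel, List.map_map, SetLike.mem_coe, mem_support_iff,     ne_eq] using h) hy)
    constructor
    · show pf F' (k (pf F (single (x :: t) 1))) - pr (F' ∘ F) (single (x :: t) 1) ∈ _
      apply Submodule.sub_mem
      · rw [hkk]
        have h2 : act (F x) (k (single (((x :: t).map F).map (fun y => (F x)⁻¹ • y)) 1)) ∈
            Sp (On {y | (F x)⁻¹ * y ∈ E₁}) := by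
          apply pf_mem _ hsupp
          intro l hl y hy
          rw [List.mem_map] at hy
          obtain ⟨y', hy', rfl⟩ := hy
          show (F x)⁻¹ * (F x • y') ∈ E₁
          rw [smul_eq_mul, inv_mul_cancel_left]
          exact hl y' hy'
        apply pf_mem _ h2
        intro l hl y hy
        rw [List.mem_map] at hy
        obtain ⟨y', hy', rfl⟩ := hy
        refine Or.inl ⟨x⁻¹ * F' (F x), hE₀' x, (F' (F x))⁻¹ * F' y', hE₂' _ _ (hl y' hy'), ?_⟩
        simp only
        group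
      · rw [pr_single, one_smul]
        apply Sp_mono _ (prl_mem _ _)
        rintro l ⟨h1, _⟩ y hy
        have h3 := h1 hy
        rw [List.mem_append, List.mem_map] at h3
        rcases h3 with h | ⟨y', h, rfl⟩
        · exact Or.inr (Or.inl (hxy y h))
        · refine Or.inr (Or.inr ⟨x⁻¹ * y', hxy y' h, y'⁻¹ * F' (F y'), hE₀' y', ?_⟩)
          simp only [Function.comp_apply]
          group
    · intro l
      refine (abs_le_nm _ l).trans ?_
      show nm (pf F' (k (pf F (single (x :: t) 1))) - pr (F' ∘ F) (single (x :: t) 1)) ≤ _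
      refine (nm_sub _ _).trans ?_
      have h1 : nm (pf F' (k (pf F (single (x :: t) 1)))) ≤ M₁ := by
        refine (nm_pf _ _).trans ?_
        rw [hkk]
        exact (nm_pf _ _).trans (hM₁ _ hnorm)
      have h2 : nm (pr (F' ∘ F) (single (x :: t) 1)) ≤ (n + 1 : ℕ) := by
        rw [pr_single, one_smul]
        refine (nm_prl _ _).trans ?_
        rw [mem_Gr] at hl'
        rw [hl']
      linarith only [h1, h2]

theorem exists_integral_contraction {H : Type u} {Z : Type v} [Group H] [Group Z] {n : ℕ}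
    (hc : CoarseEquiv H Z) (hZ : PolyZ n Z) (A : Set H) (hA : A.Finite) :
    ∃ m : ℤ, 0 < m ∧ ∃ k : Ch H →ₗ[ℤ] Ch H,
      (∀ (g : H) (u : Ch H), k (act g u) = act g (k u)) ∧
      (∀ u ∈ Sp (Gr (n + 1) : Set (List H)), k u ∈ Sp (Gr (n + 2))) ∧
      (∀ u ∈ Sp (Ctl A ∩ Gr (n + 2) : Set (List H)), bd (k (bd u)) = m • bd u) := by
  classical
  obtain ⟨K, hK_mem, hK_bd, hK_loc⟩ := exists_local_contraction hc hZ
  obtain ⟨J, hJ_sum, hJ_const, hJ_inv⟩ :=
    exists_functional (hasMean_of_coarseEquiv hc (hasMean_of_PolyZ n Z hZ))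
  obtain ⟨E, hE, M, hEM⟩ := hK_loc A hA
  let φ : List H → List H → H → ℤ := fun σ τ g =>
    K (act g (single σ 1)) (τ.map (fun y => g • y))
  let κ : List H → List H → ℚ := fun σ τ => J (φ σ τ)
  -- controlled lists stay controlled
  have hctl : ∀ (g : H) (σ : List H), σ ∈ (Ctl A ∩ Gr (n + 1) : Set (List H)) →
      σ.map (fun y => g • y) ∈ (Ctl A ∩ Gr (n + 1) : Set (List H)) := by
    rintro g σ ⟨h1, h2⟩
    exact ⟨Ctl_map_mul g h1, by simpa [Gr] using h2⟩
  have hφ_bdd : ∀ σ ∈ (Ctl A ∩ Gr (n + 1) : Set (List H)), ∀ τ, BddZ (φ σ τ) := by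
    intro σ hσ τ
    refine ⟨M, fun g => ?_⟩
    rcases σ with _ | ⟨x, t⟩
    · exact absurd hσ.2 (by simp [Gr])
    · simp only [φ]
      rw [act_single]
      exact (hEM (g • x) (t.map (fun y => g • y)) (hctl g _ hσ)).2 _
  have hφ_supp : ∀ (x : H) (t : List H), (x :: t) ∈ (Ctl A ∩ Gr (n + 1) : Set (List H)) →
      ∀ (τ : List H) (g : H), φ (x :: t) τ g ≠ 0 → τ ∈ (Nr x E ∩ Gr (n + 2) : Set (List H)) := by
    intro x t hσ τ g hne
    simp only [φ] at hne
    rw [act_single] at hne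
    have h1 := (hEM (g • x) (t.map (fun y => g • y)) (hctl g _ hσ)).1
    have h2 : K (single ((x :: t).map (fun y => g • y)) 1) ∈ Sp (Gr (n + 2)) :=
      hK_mem _ (single_mem_Sp (hctl g _ hσ).2 1)
    rw [mem_Sp] at h1 h2
    refine ⟨?_, by simpa [Gr] using h2 _ hne⟩
    intro y hy
    have := h1 _ hne (g • y) (List.mem_map.mpr ⟨y, hy, rfl⟩)
    have h3 : (g • x)⁻¹ * (g • y) ∈ E := this
    rw [smul_eq_mul, smul_eq_mul, mul_inv_rev, mul_assoc, inv_mul_cancel_left] at h3
    exact h3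
  have hκ_zero : ∀ (x : H) (t : List H), (x :: t) ∈ (Ctl A ∩ Gr (n + 1) : Set (List H)) →
      ∀ τ : List H, τ ∉ (Nr x E ∩ Gr (n + 2) : Set (List H)) → κ (x :: t) τ = 0 := by
    intro x t hσ τ hτ
    have : φ (x :: t) τ = fun _ => 0 := by
      funext g
      by_contra hne
      exact hτ (hφ_supp x t hσ τ g hne)
    simp only [κ]
    rw [this, hJ_const]
    simp
  have hκ_inv : ∀ (g : H), ∀ σ ∈ (Ctl A ∩ Gr (n + 1) : Set (List H)), ∀ τ : List H,
      κ (σ.map (fun y => g • y)) (τ.map (fun y => g • y)) = κ σ τ := by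
    intro g σ hσ τ
    simp only [κ]
    rw [← hJ_inv g (φ σ τ) (hφ_bdd σ hσ τ)]
    congr 1
    funext x
    simp only [φ]
    rw [← act_single, ← act_mul, List.map_map]
    congr 2
    funext y
    simp only [Function.comp_apply]
    rw [mul_smul]
  -- common denominators
  have hSig := finite_lists hA (n + 1)
  have hT := finite_lists hE (n + 2)
  obtain ⟨m, hm, hm'⟩ := exists_denominator (hSig.prod hT) (fun p => κ p.1 p.2)
  have hint : ∀ σ ∈ (Ctl A ∩ Gr (n + 1) : Set (List H)), ∀ τ : List H,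
      ∃ z : ℤ, (m : ℚ) * κ σ τ = z := by
    intro σ hσ τ
    rcases σ with _ | ⟨x, t⟩
    · exact absurd hσ.2 (by simp [Gr])
    by_cases hτ : τ ∈ (Nr x E ∩ Gr (n + 2) : Set (List H))
    · rw [← hκ_inv x⁻¹ _ hσ τ]
      apply hm' (_, _)
      refine ⟨⟨?_, by simpa only [Gr, smul_eq_mul, inv_mul_cancel, Set.mem_ofPred_eq, List.length_cons, List.length_map,     Nat.add_right_cancel_iff] using hσ.2⟩, ⟨?_, by simpa only [Gr, smul_eq_mul, Set.mem_ofPred_eq, List.length_map] using hτ.2⟩⟩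
      · intro y hy
        change y ∈ (x :: t).map (fun y => x⁻¹ • y) at hy
        rw [List.mem_map] at hy
        obtain ⟨y', hy', rfl⟩ := hy
        exact hσ.1 x (by simp) y' hy'
      · intro y hy
        change y ∈ τ.map (fun y => x⁻¹ • y) at hy
        rw [List.mem_map] at hy
        obtain ⟨y', hy', rfl⟩ := hy
        exact hτ.1 y' hy'
    · exact ⟨0, by rw [hκ_zero x t hσ τ hτ]; simp⟩
  let cf : List H → List H → ℤ := fun σ τ => ((m : ℚ) * κ σ τ).num
  have hcf : ∀ σ ∈ (Ctl A ∩ Gr (n + 1) : Set (List H)), ∀ τ : List H,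
      (cf σ τ : ℚ) = (m : ℚ) * κ σ τ := by
    intro σ hσ τ
    obtain ⟨z, hz⟩ := hint σ hσ τ
    simp only [cf]
    rw [hz]
    simp
  have hcf_supp : ∀ (x : H) (t : List H), (x :: t) ∈ (Ctl A ∩ Gr (n + 1) : Set (List H)) →
      ∀ τ, cf (x :: t) τ ≠ 0 → τ ∈ (Nr x E ∩ Gr (n + 2) : Set (List H)) := by
    intro x t hσ τ hne
    by_contra hτ
    apply hne
    simp only [cf]
    rw [hκ_zero x t hσ τ hτ]
    simp
  have hNfin : ∀ x : H, (Nr x E ∩ Gr (n + 2) : Set (List H)).Finite := by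
    intro x
    apply finite_lists
    have : {y : H | x⁻¹ * y ∈ E} = (fun y => x⁻¹ * y) ⁻¹' E := rfl
    rw [this]
    exact hE.preimage (mul_right_injective x⁻¹).injOn
  have hcf_fin : ∀ σ ∈ (Ctl A ∩ Gr (n + 1) : Set (List H)), {τ | cf σ τ ≠ 0}.Finite := by
    intro σ hσ
    rcases σ with _ | ⟨x, t⟩
    · exact absurd hσ.2 (by simp [Gr])
    exact (hNfin x).subset (fun τ hτ => hcf_supp x t hσ τ hτ)
  let kl : List H → Ch H := fun σ =>
    if h : σ ∈ (Ctl A ∩ Gr (n + 1) : Set (List H)) then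
      Finsupp.ofSupportFinite (cf σ) (hcf_fin σ h) else 0
  have hkl : ∀ σ ∈ (Ctl A ∩ Gr (n + 1) : Set (List H)), ∀ τ, kl σ τ = cf σ τ := by
    intro σ hσ τ
    simp only [kl]
    rw [dif_pos hσ]
    rfl
  have hkl0 : ∀ σ, σ ∉ (Ctl A ∩ Gr (n + 1) : Set (List H)) → kl σ = 0 := by
    intro σ hσ
    simp only [kl]
    rw [dif_neg hσ]
  let k : Ch H →ₗ[ℤ] Ch H := Finsupp.linearCombination ℤ kl
  have hk : ∀ l, k (single l 1) = kl l := by
    intro l; simp [k, Finsupp.linearCombination_single]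
  have hcf_inv : ∀ (g : H), ∀ σ ∈ (Ctl A ∩ Gr (n + 1) : Set (List H)), ∀ τ : List H,
      cf (σ.map (fun y => g • y)) (τ.map (fun y => g • y)) = cf σ τ := by
    intro g σ hσ τ
    simp only [cf]
    rw [hκ_inv g σ hσ τ]
  have hmapinj : ∀ g : H, Function.Injective (List.map (fun y : H => g • y)) :=
    fun g => List.map_injective_iff.mpr (MulAction.injective g)
  have hctl' : ∀ (g : H) (σ : List H), σ.map (fun y => g • y) ∈
      (Ctl A ∩ Gr (n + 1) : Set (List H)) → σ ∈ (Ctl A ∩ Gr (n + 1) : Set (List H)) := by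
    intro g σ h
    have := hctl g⁻¹ _ h
    rw [List.map_map] at this
    have e : ((fun y => g⁻¹ • y) ∘ fun y => g • y) = (id : H → H) := by
      funext y; exact inv_smul_smul _ _
    rwa [e, List.map_id] at this
  refine ⟨m, hm, k, ?_, ?_, ?_⟩
  · intro g u
    have : (k ∘ₗ act g : Ch H →ₗ[ℤ] Ch H) = act g ∘ₗ k := by
      apply lin_ext
      intro σ
      rw [LinearMap.comp_apply, LinearMap.comp_apply, act_single, hk, hk]
      by_cases hσ : σ ∈ (Ctl A ∩ Gr (n + 1) : Set (List H))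
      · ext τ
        obtain ⟨τ', rfl⟩ : ∃ τ' : List H, τ'.map (fun y => g • y) = τ := by
          refine ⟨τ.map (fun y => g⁻¹ • y), ?_⟩
          rw [List.map_map]
          have e : ((fun y => g • y) ∘ fun y => g⁻¹ • y) = (id : H → H) := by
            funext y; exact smul_inv_smul _ _
          rw [e, List.map_id]
        rw [hkl _ (hctl g σ hσ), hcf_inv g σ hσ]
        have : (act g (kl σ)) (τ'.map (fun y => g • y)) = kl σ τ' :=
          Finsupp.mapDomain_apply (hmapinj g) (kl σ) τ'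
        rw [this, hkl σ hσ]
      · rw [hkl0 σ hσ, hkl0 _ (fun h => hσ (hctl' g σ h)), map_zero]
    exact LinearMap.congr_fun this u
  · intro u hu
    apply map_mem_of_Sp _ hu
    intro σ hσ
    rw [hk]
    by_cases hσ' : σ ∈ (Ctl A ∩ Gr (n + 1) : Set (List H))
    · rw [mem_Sp]
      intro τ hτ
      rw [hkl σ hσ'] at hτ
      rcases σ with _ | ⟨x, t⟩
      · exact absurd hσ'.2 (by simp [Gr])
      exact (hcf_supp x t hσ' τ hτ).2
    · rw [hkl0 σ hσ']
      exact Submodule.zero_mem _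
  · intro u hu
    have := eq_of_Sp (L := bd ∘ₗ k ∘ₗ bd) (L' := m • bd) (p := Ctl A ∩ Gr (n + 2)) (u := u) (by
      rintro τ₀ ⟨hτ₀, hτ₀'⟩
      show bd (k (bd (single τ₀ 1))) = m • bd (single τ₀ 1)
      rw [bd_single, one_smul]
      have hdl : dl τ₀ ∈ Sp (Ctl A ∩ Gr (n + 1)) := by
        apply Sp_mono _ (dl_mem τ₀)
        rintro l' ⟨h1, h2⟩
        refine ⟨SubC_Ctl A τ₀ hτ₀ l' h1, ?_⟩
        rw [mem_Gr] at *
        omega
      set S : Finset (List H) := (dl τ₀).support with hS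
      have hSmem : ∀ σ ∈ S, σ ∈ (Ctl A ∩ Gr (n + 1) : Set (List H)) := by
        intro σ hσ
        exact (mem_Sp.mp hdl) σ (by simpa only [ne_eq, hS, mem_support_iff] using hσ)
      let hd : List H → H := fun l => match l with
        | [] => 1
        | x :: _ => x
      let T : Finset (List H) := S.biUnion (fun σ => (hNfin (hd σ)).toFinset)
      have hTmem : ∀ σ ∈ S, ∀ τ ∈ (Nr (hd σ) E ∩ Gr (n + 2) : Set (List H)), τ ∈ T := by
        intro σ hσ τ hτ
        exact Finset.mem_biUnion.mpr ⟨σ, hσ, (hNfin (hd σ)).mem_toFinset.mpr hτ⟩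
      have hSne : ∀ l, dl τ₀ l ≠ 0 → l ∈ S := by
        intro l hl
        simpa only [hS, mem_support_iff, ne_eq] using hl
      -- the value of `k (dl τ₀)`
      have hkT : ∀ τ, k (dl τ₀) τ = ∑ σ ∈ S, dl τ₀ σ * cf σ τ := by
        intro τ
        rw [lin_apply_eq (dl τ₀) S hSne]
        apply Finset.sum_congr rfl
        intro σ hσ
        rw [hk, hkl σ (hSmem σ hσ)]
      have hkTsupp : ∀ τ, k (dl τ₀) τ ≠ 0 → τ ∈ T := by
        intro τ hτ
        rw [hkT] at hτ
        obtain ⟨σ, hσ, hne⟩ := Finset.exists_ne_zero_of_sum_ne_zero hτ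
        have hσ' := hSmem σ hσ
        apply hTmem σ hσ
        rcases σ with _ | ⟨x, t⟩
        · exact absurd hσ'.2 (by simp [Gr])
        exact hcf_supp x t hσ' τ (right_ne_zero_of_mul hne)
      -- the translated identity
      have hg : ∀ (g : H) (ξ : List H), ∑ p ∈ S ×ˢ T, (dl τ₀ p.1 * dl p.2 ξ) * φ p.1 p.2 g =
          dl τ₀ ξ := by
        intro g ξ
        have hU : ∀ τ, (act g⁻¹ (K (act g (dl τ₀)))) τ = ∑ σ ∈ S, dl τ₀ σ * φ σ τ g := by
          intro τ
          have e1 : (act g⁻¹ (K (act g (dl τ₀)))) τ = (K (act g (dl τ₀)))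
              (τ.map (fun y => g • y)) := by
            have := Finsupp.mapDomain_apply (hmapinj g⁻¹) (K (act g (dl τ₀)))
              (τ.map (fun y => g • y))
            rw [List.map_map] at this
            have e : ((fun y => g⁻¹ • y) ∘ fun y => g • y) = (id : H → H) := by
              funext y; exact inv_smul_smul _ _
            rw [e, List.map_id] at this
            exact this
          rw [e1]
          exact lin_apply_eq (K := K ∘ₗ act g) (dl τ₀) S hSne _
        have hUsupp : ∀ τ, (act g⁻¹ (K (act g (dl τ₀)))) τ ≠ 0 → τ ∈ T := by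
          intro τ hτ
          rw [hU] at hτ
          obtain ⟨σ, hσ, hne⟩ := Finset.exists_ne_zero_of_sum_ne_zero hτ
          have hσ' := hSmem σ hσ
          apply hTmem σ hσ
          rcases σ with _ | ⟨x, t⟩
          · exact absurd hσ'.2 (by simp [Gr])
          exact hφ_supp x t hσ' τ g (right_ne_zero_of_mul hne)
        have hbdU : bd (act g⁻¹ (K (act g (dl τ₀)))) = dl τ₀ := by
          have h1 : act g (dl τ₀) = bd (act g (single τ₀ (1 : ℤ))) := by
            rw [bd_act, bd_single, one_smul]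
          rw [bd_act, h1, hK_bd _ (act_mem_Gr g (single_mem_Sp hτ₀' 1)), ← h1, ← act_mul,
            inv_mul_cancel, act_one]
        have h2 := bd_apply_eq (act g⁻¹ (K (act g (dl τ₀)))) T hUsupp ξ
        rw [hbdU] at h2
        rw [h2, Finset.sum_product_right]
        apply Finset.sum_congr rfl
        intro τ _
        rw [hU, Finset.sum_mul]
        apply Finset.sum_congr rfl
        intro σ _
        ring
      ext ξ
      rw [bd_apply_eq _ T hkTsupp ξ]
      have hQ : ((∑ τ ∈ T, k (dl τ₀) τ * dl τ ξ : ℤ) : ℚ) = ((m * dl τ₀ ξ : ℤ) : ℚ) := by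
        have h1 := hJ_sum (S ×ˢ T) (fun p => dl τ₀ p.1 * dl p.2 ξ) (fun p => φ p.1 p.2)
          (fun p hp => hφ_bdd _ (hSmem _ (Finset.mem_product.mp hp).1) _)
        have h2 : (fun x => ∑ p ∈ S ×ˢ T, (dl τ₀ p.1 * dl p.2 ξ) * φ p.1 p.2 x) =
            fun _ => dl τ₀ ξ := funext (fun g => hg g ξ)
        rw [h2, hJ_const] at h1
        push_cast
        rw [h1, Finset.sum_product_right, Finset.mul_sum]
        apply Finset.sum_congr rfl
        intro τ _
        rw [hkT]
        push_cast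
        rw [Finset.sum_mul, Finset.mul_sum]
        apply Finset.sum_congr rfl
        intro σ hσ
        rw [hcf σ (hSmem σ hσ) τ]
        ring
      have hZ' : (∑ τ ∈ T, k (dl τ₀) τ * dl τ ξ : ℤ) = m * dl τ₀ ξ := by exact_mod_cast hQ
      rw [hZ']
      rfl) hu
    exact this

end Vale.Agent.P188
end
end
end
end
end

section

section

section

section

section

/-!
Equivariant chain maps into controlled chains.
-/

universe u v w

namespace Vale.Agent.P188

open Finsupp

variable {H : Type u} [Group H]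

lemma act_ctl {A : Set H} {q : ℕ} (g : H) {u : Ch H} (hu : u ∈ Sp (Ctl A ∩ Gr q)) :
    act g u ∈ Sp (Ctl A ∩ Gr q) := by
  apply pf_mem _ hu
  rintro l ⟨hl, hl'⟩
  exact ⟨Ctl_map_mul g hl, by simpa [Gr] using hl'⟩

theorem exists_compress (hUA : UA H) (Q : ℕ) : ∃ A : Set H, A.Finite ∧
    ∃ s : Ch H →ₗ[ℤ] Ch H, (∀ (g : H) (u : Ch H), s (act g u) = act g (s u)) ∧
      s (single [] 1) = single [] 1 ∧
      (∀ q ≤ Q, ∀ u ∈ Sp (Gr q : Set (List H)), s u ∈ Sp (Ctl A ∩ Gr q)) ∧
      (∀ q ≤ Q, ∀ u ∈ Sp (Gr q : Set (List H)), bd (s u) = s (bd u)) := by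
  classical
  induction Q with
  | zero =>
    refine ⟨∅, Set.finite_empty, flt 0, fun g u => flt_act 0 g u, ?_, ?_, ?_⟩
    · rw [flt_single]; simp
    · intro q hq u hu
      obtain rfl : q = 0 := by omega
      rw [flt_eq hu]
      apply Sp_mono _ hu
      intro l hl
      refine ⟨?_, hl⟩
      have : l = [] := List.length_eq_zero_iff.mp hl
      subst this
      intro x hx
      simp at hx
    · intro q hq u hu
      obtain rfl : q = 0 := by omega
      rw [bd_of_Gr_zero hu, map_zero, flt_eq hu, bd_of_Gr_zero hu]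
  | succ Q ih =>
    obtain ⟨A, hA, s, hs_eq, hs_nil, hs_mem, hs_bd⟩ := ih
    obtain ⟨B, hB, hfill⟩ := hUA Q A hA
    have hw : ∀ l : List H, ∃ w : Ch H, l.length = Q + 1 →
        w ∈ Sp (Ctl B ∩ Gr (Q + 1)) ∧ bd w = s (dl l) := by
      intro l
      by_cases hl : l.length = Q + 1
      · have hdl : dl l ∈ Sp (Gr Q : Set (List H)) := by
          apply Sp_mono _ (dl_mem l)
          rintro l' ⟨_, h2⟩
          rw [mem_Gr]; omega
        obtain ⟨w, hw, hbw⟩ := hfill (s (dl l)) (hs_mem Q le_rfl _ hdl) (by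
          rw [hs_bd Q le_rfl _ hdl, bd_dl, map_zero])
        exact ⟨w, fun _ => ⟨hw, hbw⟩⟩
      · exact ⟨0, fun h => absurd h hl⟩
    choose w hw using hw
    let sl : List H → Ch H := fun l => if l.length ≤ Q then s (single l 1) else
      if l.length = Q + 1 then
        match l with
        | [] => 0
        | x :: t => act x (w ((x :: t).map (fun y => x⁻¹ • y)))
      else 0
    let s' : Ch H →ₗ[ℤ] Ch H := Finsupp.linearCombination ℤ sl
    have hs' : ∀ l, s' (single l 1) = sl l := by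
      intro l; simp [s', Finsupp.linearCombination_single]
    have hlow : ∀ q ≤ Q, ∀ u ∈ Sp (Gr q : Set (List H)), s' u = s u := by
      intro q hq u hu
      apply eq_of_Sp (p := Gr q) _ hu
      intro l hl
      rw [hs']
      rw [mem_Gr] at hl
      simp only [sl]
      rw [if_pos (by omega)]
    have htop : ∀ (x : H) (t : List H), (x :: t).length = Q + 1 →
        s' (single (x :: t) 1) = act x (w ((x :: t).map (fun y => x⁻¹ • y))) := by
      intro x t h
      rw [hs']
      simp only [sl]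
      rw [if_neg (by omega), if_pos h]
    refine ⟨A ∪ B, hA.union hB, s', ?_, ?_, ?_, ?_⟩
    · intro g u
      have : (s' ∘ₗ act g : Ch H →ₗ[ℤ] Ch H) = act g ∘ₗ s' := by
        apply lin_ext
        intro l
        rw [LinearMap.comp_apply, LinearMap.comp_apply, act_single]
        rcases lt_trichotomy l.length (Q + 1) with h | h | h
        · rw [hlow l.length (by omega) _ (single_mem_Sp (p := Gr l.length) rfl 1),
            hlow l.length (by omega) _ (single_mem_Sp (p := Gr l.length) (by simp [Gr]) 1),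
            ← hs_eq, act_single]
        · rcases l with _ | ⟨x, t⟩
          · simp at h
          · rw [htop x t h]
            rw [List.map_cons, htop _ _ (by simpa using h), ← act_mul]
            congr 2
            rw [List.map_cons, List.map_cons, List.map_map]
            congr 1
            · simp
            · apply List.map_congr_left
              intro y _
              simp only [smul_eq_mul, mul_inv_rev, mul_assoc, Function.comp_apply, inv_mul_cancel_left]
        · rw [hs', hs']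
          simp only [sl, List.length_map]
          rw [if_neg (by omega), if_neg (by omega), if_neg (by omega), if_neg (by omega),
            map_zero]
      exact LinearMap.congr_fun this u
    · rw [hlow 0 (by omega) _ (single_mem_Sp (p := Gr 0) rfl 1), hs_nil]
    · intro q hq u hu
      rcases Nat.lt_or_ge Q q with h | h
      · obtain rfl : q = Q + 1 := by omega
        apply map_mem_of_Sp _ hu
        intro l hl
        rcases l with _ | ⟨x, t⟩
        · simp [Gr] at hl
        · rw [htop x t hl]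
          apply Sp_mono _ (act_ctl x (hw _ (by simpa only [smul_eq_mul, List.map_cons, inv_mul_cancel, List.length_cons, List.length_map,     Nat.add_right_cancel_iff, Gr, Set.mem_ofPred_eq] using hl)).1)
          exact Set.inter_subset_inter_left _ (Ctl_mono Set.subset_union_right)
      · rw [hlow q h u hu]
        apply Sp_mono _ (hs_mem q h u hu)
        exact Set.inter_subset_inter_left _ (Ctl_mono Set.subset_union_left)
    · intro q hq u hu
      rcases Nat.lt_or_ge Q q with h | h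
      · obtain rfl : q = Q + 1 := by omega
        have := eq_of_Sp (L := bd ∘ₗ s') (L' := s' ∘ₗ bd) (p := Gr (Q + 1)) (u := u) (by
          intro l hl
          rcases l with _ | ⟨x, t⟩
          · simp only [Gr, Set.mem_ofPred_eq, List.length_nil, Nat.right_eq_add, Nat.add_eq_zero_iff, one_ne_zero, and_false] at hl
          · have hl' : ((x :: t).map (fun y => x⁻¹ • y)).length = Q + 1 := by
              simpa only [smul_eq_mul, List.map_cons, inv_mul_cancel, List.length_cons, List.length_map,     Nat.add_right_cancel_iff, Gr, Set.mem_ofPred_eq] using hl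
            rw [LinearMap.comp_apply, LinearMap.comp_apply, htop x t hl, bd_act,
              (hw _ hl').2, ← hs_eq, bd_single, one_smul]
            have e1 : act x (dl ((x :: t).map (fun y => x⁻¹ • y))) = dl (x :: t) := by
              have := bd_act x (act x⁻¹ (single (x :: t) (1 : ℤ)))
              rw [← act_mul, mul_inv_cancel, act_one, act_single, bd_single, bd_single,
                one_smul, one_smul] at this
              exact this.symm
            rw [e1]
            have hdl : dl (x :: t) ∈ Sp (Gr Q : Set (List H)) := by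
              apply Sp_mono _ (dl_mem (x :: t))
              rintro l' ⟨_, h2⟩
              rw [mem_Gr] at *
              omega
            rw [hlow Q le_rfl _ hdl]) hu
        exact this
      · rw [hlow q h u hu, hs_bd q h u hu]
        rcases q with _ | q
        · rw [bd_of_Gr_zero hu, map_zero, map_zero]
        · rw [hlow q (by omega) _ (bd_mem_Gr hu)]

end Vale.Agent.P188
end
end
end
end
end

section

section

section

section

section

/-!
Descent: a top contraction up to the integer `m` forces the orders of finite subgroups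
to divide `m`.
-/

universe u v w

namespace Vale.Agent.P188

open Finsupp

variable {H : Type u} [Group H]

/-- Projection onto chains whose first vertex lies in `D`. -/
noncomputable def dom (D : Set H) : Ch H →ₗ[ℤ] Ch H :=
  open Classical in
  Finsupp.linearCombination ℤ (fun l => match l with
    | [] => 0
    | x :: t => if x ∈ D then single (x :: t) 1 else 0)

omit [Group H] in
lemma dom_cons (D : Set H) (x : H) (t : List H) [Decidable (x ∈ D)] :
    dom D (single (x :: t) 1) = if x ∈ D then single (x :: t) 1 else 0 := by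
  simp only [dom, Finsupp.linearCombination_single, one_smul]
  congr

omit [Group H] in
lemma dom_mem (D : Set H) {q : ℕ} {u : Ch H} (hu : u ∈ Sp (Gr q)) : dom D u ∈ Sp (Gr q) := by
  classical
  apply map_mem_of_Sp _ hu
  intro l hl
  rcases l with _ | ⟨x, t⟩
  · simp only [dom, linearCombination_single, smul_zero, zero_mem]
  · rw [dom_cons]
    split_ifs
    · exact single_mem_Sp hl 1
    · exact Submodule.zero_mem _

/-- Translates of a fundamental domain decompose chains. -/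
lemma sum_dom (F : Subgroup H) [Fintype F] (D : Set H)
    (hD : Subgroup.IsComplement (F : Set H) D) {q : ℕ} {u : Ch H}
    (hu : u ∈ Sp (Gr (q + 1))) :
    ∑ f : F, act (f : H) (dom D (act (f : H)⁻¹ u)) = u := by
  classical
  have := eq_of_Sp (L := ∑ f : F, act (f : H) ∘ₗ dom D ∘ₗ act (f : H)⁻¹)
    (L' := LinearMap.id) (p := Gr (q + 1)) (u := u) (by
    intro l hl
    rcases l with _ | ⟨x, t⟩
    · simp [Gr] at hl
    obtain ⟨⟨⟨f₀, hf₀⟩, ⟨d₀, hd₀⟩⟩, hfd, huniq⟩ := hD.existsUnique x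
    simp only at hfd
    rw [LinearMap.sum_apply, Finset.sum_eq_single (⟨f₀, hf₀⟩ : F)]
    · rw [LinearMap.comp_apply, LinearMap.comp_apply, act_single, List.map_cons, dom_cons,
        if_pos, act_single, List.map_cons, List.map_map]
      · have e1 : f₀ • f₀⁻¹ • x = x := smul_inv_smul _ _
        have e2 : ((fun y => f₀ • y) ∘ fun y => f₀⁻¹ • y) = (id : H → H) := by
          funext y; exact smul_inv_smul _ _
        simp only
        rw [e1, e2, List.map_id]
        rfl
      · simp only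
        rw [← hfd]
        simpa only [smul_eq_mul, inv_mul_cancel_left] using hd₀
    · rintro ⟨f, hf⟩ _ hne
      rw [LinearMap.comp_apply, LinearMap.comp_apply, act_single, List.map_cons, dom_cons,
        if_neg, map_zero]
      intro hmem
      apply hne
      have := huniq (⟨f, hf⟩, ⟨f⁻¹ * x, hmem⟩) (by simp)
      exact congrArg Prod.fst this
    · intro h
      exact absurd (Finset.mem_univ _) h) hu
  rw [LinearMap.sum_apply] at this
  exact this

theorem descend (F : Subgroup H) [Finite F] (N : ℕ) (m : ℤ) (s : Ch H →ₗ[ℤ] Ch H)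
    (hs_eq : ∀ (g : H) (u : Ch H), s (act g u) = act g (s u))
    (hs_nil : s (single [] 1) = single [] 1)
    (hs_mem : ∀ q ≤ N, ∀ u ∈ Sp (Gr q : Set (List H)), s u ∈ Sp (Gr q))
    (hs_bd : ∀ q ≤ N, ∀ u ∈ Sp (Gr q : Set (List H)), bd (s u) = s (bd u))
    (Θ : Ch H →ₗ[ℤ] Ch H) (hΘ_eq : ∀ (g : H) (u : Ch H), Θ (act g u) = act g (Θ u))
    (hΘ_mem : ∀ u ∈ Sp (Gr N : Set (List H)), Θ u ∈ Sp (Gr (N + 1)))
    (hΘ : ∀ u ∈ Sp (Gr N : Set (List H)), bd u = 0 → bd (Θ u) = m • s u) :
    (Nat.card F : ℤ) ∣ m := by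
  classical
  have : Fintype F := Fintype.ofFinite F
  obtain ⟨D, hD, _⟩ := Subgroup.exists_isComplement_right F 1
  have main : ∀ j ≤ N, ∃ T : Ch H →ₗ[ℤ] Ch H,
      (∀ (g : F) (u : Ch H), T (act (g : H) u) = act (g : H) (T u)) ∧
      (∀ u ∈ Sp (Gr (N - j) : Set (List H)), T u ∈ Sp (Gr (N - j + 1))) ∧
      (∀ u ∈ Sp (Gr (N - j) : Set (List H)), bd u = 0 → bd (T u) = m • s u) := by
    intro j
    induction j with
    | zero => exact fun _ => ⟨Θ, fun g u => hΘ_eq g u, hΘ_mem, hΘ⟩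
    | succ j ih =>
      intro hj
      obtain ⟨T, hT_eq, hT_mem, hT⟩ := ih (by omega)
      obtain ⟨q, hq⟩ : ∃ q, N - (j + 1) = q := ⟨_, rfl⟩
      have hq' : N - j = q + 1 := by omega
      rw [hq]
      rw [hq'] at hT_mem hT
      let R : Ch H →ₗ[ℤ] Ch H := m • s - bd ∘ₗ T
      have hR : ∀ u, R u = m • s u - bd (T u) := fun u => rfl
      have hR_eq : ∀ (g : F) (u : Ch H), R (act (g : H) u) = act (g : H) (R u) := by
        intro g u
        rw [hR, hR, hs_eq, hT_eq, bd_act, map_sub, map_smul]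
      have hR_mem : ∀ u ∈ Sp (Gr (q + 1) : Set (List H)), R u ∈ Sp (Gr (q + 1)) := by
        intro u hu
        rw [hR]
        exact Submodule.sub_mem _ (Submodule.smul_mem _ _ (hs_mem _ (by omega) u hu))
          (bd_mem_Gr (hT_mem u hu))
      have hcns : ∀ u ∈ Sp (Gr q : Set (List H)), cns 1 u ∈ Sp (Gr (q + 1)) := by
        intro u hu
        exact cns_mem (fun l hl => by rw [mem_Gr] at *; simp [hl]) hu
      let T' : Ch H →ₗ[ℤ] Ch H := ∑ f : F, act (f : H) ∘ₗ dom D ∘ₗ R ∘ₗ cns 1 ∘ₗ bd ∘ₗ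
        cns 1 ∘ₗ act (f : H)⁻¹
      have hT' : ∀ u, T' u = ∑ f : F, act (f : H) (dom D (R (cns 1 (bd (cns 1
          (act (f : H)⁻¹ u)))))) := by
        intro u
        simp only [T', LinearMap.sum_apply, LinearMap.comp_apply]
      have hT'cyc : ∀ u ∈ Sp (Gr q : Set (List H)), bd u = 0 → T' u = R (cns 1 u) := by
        intro u hu hbu
        rw [hT', ← sum_dom F D hD (hR_mem _ (hcns u hu))]
        apply Finset.sum_congr rfl
        intro f _
        congr 2
        have h1 : bd (act (f : H)⁻¹ u) = 0 := by rw [bd_act, hbu, map_zero]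
        rw [bd_cns, h1, map_zero, sub_zero]
        have hf : (f : H)⁻¹ = ((f⁻¹ : F) : H) := rfl
        rw [hf, ← hR_eq, ← sub_eq_zero, ← map_sub, hR]
        have hz : cns 1 (act ((f⁻¹ : F) : H) u) - act ((f⁻¹ : F) : H) (cns 1 u) ∈
            Sp (Gr (q + 1) : Set (List H)) :=
          Submodule.sub_mem _ (hcns _ (act_mem_Gr _ hu)) (act_mem_Gr _ (hcns u hu))
        rw [hT _ hz, sub_self]
        rw [map_sub, bd_act, bd_cns, bd_cns, bd_act, hbu]
        simp
      refine ⟨T', ?_, ?_, ?_⟩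
      · intro g u
        rw [hT', hT', map_sum]
        rw [← Equiv.sum_comp (Equiv.mulLeft g)]
        apply Finset.sum_congr rfl
        intro f _
        have e : act ((g * f : F) : H)⁻¹ (act (g : H) u) = act (f : H)⁻¹ u := by
          rw [← act_mul]
          congr 2
          simp only [Subgroup.coe_mul, mul_inv_rev, inv_mul_cancel_right]
        simp only [Equiv.coe_mulLeft]
        rw [e, Subgroup.coe_mul, act_mul]
      · intro u hu
        rw [hT']
        apply Submodule.sum_mem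
        intro f _
        exact act_mem_Gr _ (dom_mem D (hR_mem _ (hcns _ (bd_mem_Gr (hcns _
          (act_mem_Gr _ hu))))))
      · intro u hu hbu
        rw [hT'cyc u hu hbu, hR, map_sub, bd_bd, sub_zero, map_smul,
          hs_bd (q + 1) (by omega) _ (hcns u hu), bd_cns, hbu, map_zero, sub_zero]
  obtain ⟨T, hT_eq, hT_mem, hT⟩ := main N le_rfl
  rw [Nat.sub_self] at hT_mem hT
  have hnil : (single ([] : List H) (1 : ℤ)) ∈ Sp (Gr 0 : Set (List H)) :=
    single_mem_Sp (p := Gr 0) rfl 1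
  have hv := hT_mem _ hnil
  have hbv := hT _ hnil (by simp)
  rw [hs_nil] at hbv
  set v := T (single [] 1) with hvdef
  have hinv : ∀ f : F, act (f : H)⁻¹ v = v := by
    intro f
    have := hT_eq f⁻¹ (single [] 1)
    rw [act_single] at this
    simp only [List.map_nil] at this
    exact this.symm
  have hsum := sum_dom F D hD (q := 0) hv
  have hsum' : ∑ f : F, act (f : H) (dom D v) = v := by
    rw [← hsum]
    apply Finset.sum_congr rfl
    intro f _
    rw [hsum, hinv]
  have hnilact : ∀ (g : H) (w : Ch H), (act g w) [] = w [] := by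
    intro g w
    have : (Finsupp.lapply ([] : List H) : Ch H →ₗ[ℤ] ℤ) ∘ₗ act g = Finsupp.lapply [] := by
      apply lin_ext
      intro l
      rw [LinearMap.comp_apply, act_single, Finsupp.lapply_apply, Finsupp.lapply_apply]
      rcases l with _ | ⟨x, t⟩
      · simp
      · simp
    exact LinearMap.congr_fun this w
  have hfinal : (bd v) [] = (Nat.card F : ℤ) * (bd (dom D v)) [] := by
    conv_lhs => rw [← hsum']
    rw [map_sum, Finsupp.finsetSum_apply]
    simp only [bd_act, hnilact]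
    rw [Finset.sum_const, Finset.card_univ, Nat.card_eq_fintype_card]
    simp only [Int.nsmul_eq_mul]
  rw [hbv] at hfinal
  refine ⟨(bd (dom D v)) [], ?_⟩
  rw [← hfinal]
  simp

end Vale.Agent.P188
end
end
end
end
end

section

section

section

section

section

/-!
Finite subgroups of a group coarsely equivalent to a poly-`ℤ` group have bounded order.
-/

universe u v w

namespace Vale.Agent.P188

open Finsupp Pointwise

lemma UA_of_coarseEquiv {H : Type u} {Z : Type v} [Group H] [Group Z] {n : ℕ}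
    (hc : CoarseEquiv H Z) (hZ : PolyZ n Z) : UA H := by
  obtain ⟨F, F', hF, hF', h1, _⟩ := hc
  exact UA_of_coarse hF hF' h1 (UA_of_PolyZ n Z hZ)

theorem exists_package {H : Type u} {Z : Type v} [Group H] [Group Z] {n : ℕ}
    (hc : CoarseEquiv H Z) (hZ : PolyZ n Z) :
    ∃ (m : ℤ) (s Θ : Ch H →ₗ[ℤ] Ch H), 0 < m ∧
      (∀ (g : H) (u : Ch H), s (act g u) = act g (s u)) ∧
      s (single [] 1) = single [] 1 ∧
      (∀ q ≤ n + 2, ∀ u ∈ Sp (Gr q : Set (List H)), s u ∈ Sp (Gr q)) ∧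
      (∀ q ≤ n + 2, ∀ u ∈ Sp (Gr q : Set (List H)), bd (s u) = s (bd u)) ∧
      (∀ (g : H) (u : Ch H), Θ (act g u) = act g (Θ u)) ∧
      (∀ u ∈ Sp (Gr (n + 1) : Set (List H)), Θ u ∈ Sp (Gr (n + 2))) ∧
      (∀ u ∈ Sp (Gr (n + 1) : Set (List H)), bd u = 0 → bd (Θ u) = m • s u) := by
  obtain ⟨A, hA, s, hs_eq, hs_nil, hs_mem, hs_bd⟩ := exists_compress (UA_of_coarseEquiv hc hZ) (n + 2)
  obtain ⟨m, hm, k, hk_eq, hk_mem, hk_bd⟩ := exists_integral_contraction hc hZ A hA
  have hs_mem' : ∀ q ≤ n + 2, ∀ u ∈ Sp (Gr q : Set (List H)), s u ∈ Sp (Gr q) :=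
    fun q hq u hu => Sp_mono Set.inter_subset_right (hs_mem q hq u hu)
  refine ⟨m, s, k ∘ₗ s, hm, hs_eq, hs_nil, hs_mem', hs_bd, ?_, ?_, ?_⟩
  · intro g u
    rw [LinearMap.comp_apply, LinearMap.comp_apply, hs_eq, hk_eq]
  · intro u hu
    exact hk_mem _ (hs_mem' _ (by omega) u hu)
  · intro u hu hbu
    have hw : cns (1 : H) u ∈ Sp (Gr (n + 2) : Set (List H)) :=
      cns_mem (fun l hl => by simpa [Gr] using hl) hu
    have hw' : bd (cns (1 : H) u) = u := by rw [bd_cns, hbu, map_zero, sub_zero]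
    have h1 : s u = bd (s (cns 1 u)) := by rw [hs_bd _ le_rfl _ hw, hw']
    rw [LinearMap.comp_apply, h1, hk_bd _ (hs_mem _ le_rfl _ hw)]

theorem card_dvd_of_coarseEquiv {H : Type u} {Z : Type v} [Group H] [Group Z] {n : ℕ}
    (hc : CoarseEquiv H Z) (hZ : PolyZ n Z) :
    ∃ m : ℕ, 0 < m ∧ ∀ F : Subgroup H, Finite F → Nat.card F ∣ m := by
  obtain ⟨m, s, Θ, hm, hs_eq, hs_nil, hs_mem, hs_bd, hΘ_eq, hΘ_mem, hΘ⟩ := exists_package hc hZ
  refine ⟨m.toNat, by omega, fun F hF => ?_⟩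
  have := descend F (n + 1) m s hs_eq hs_nil (fun q hq => hs_mem q (by omega))
    (fun q hq => hs_bd q (by omega)) Θ hΘ_eq hΘ_mem hΘ
  have h2 : (m.toNat : ℤ) = m := Int.toNat_of_nonneg hm.le
  rw [← h2] at this
  exact_mod_cast this

end Vale.Agent.P188
end
end
end
end
end

section

section

attribute [-instance] ProperSMul.toContinuousSMul IsTopologicalTorsor.toContinuousSMul IdemSemiring.toCanonicallyOrderedAdd IdemSemiring.toMulLeftMono IdemSemiring.toMulRightMono AddQuantale.instAddLeftMono AddQuantale.instAddRightMono Quantale.instMulLeftMono Quantale.instMulRightMono FiniteDimensional.rclike_to_real IsScalarTower.complexToReal FiniteDimensional.complexToReal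

section

section

section

/-!
Polycyclic subgroups of a fixed ambient group, described by explicit cyclic steps.
-/

universe u v w

namespace Vale.Agent.P188

open Pointwise

section basics

variable {G : Type u} [Group G]

/-- If `t` normalises `U` then the elements `t ^ b * u` form a subgroup. -/
def adjoinCyc (U : Subgroup G) (t : G) (h1 : ∀ n ∈ U, t * n * t⁻¹ ∈ U)
    (h2 : ∀ n ∈ U, t⁻¹ * n * t ∈ U) : Subgroup G where
  carrier := {x | ∃ b : ℤ, (t ^ b)⁻¹ * x ∈ U}
  one_mem' := ⟨0, by simp⟩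
  mul_mem' := by
    rintro x y ⟨a, ha⟩ ⟨b, hb⟩
    refine ⟨a + b, ?_⟩
    have key : ∀ (b : ℤ) (n : G), n ∈ U → (t ^ b)⁻¹ * n * t ^ b ∈ U := by
      intro b
      induction b using Int.induction_on with
      | zero => intro n hn; simpa using hn
      | succ i ih =>
        intro n hn
        have := h2 _ (ih n hn)
        have e : (t ^ ((i : ℤ) + 1))⁻¹ * n * t ^ ((i : ℤ) + 1)
            = t⁻¹ * ((t ^ (i : ℤ))⁻¹ * n * t ^ (i : ℤ)) * t := by
          rw [zpow_add_one]; group
        rw [e]; exact this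
      | pred i ih =>
        intro n hn
        have := h1 _ (ih n hn)
        have e : (t ^ (-(i : ℤ) - 1))⁻¹ * n * t ^ (-(i : ℤ) - 1)
            = t * ((t ^ (-(i : ℤ)))⁻¹ * n * t ^ (-(i : ℤ))) * t⁻¹ := by
          rw [zpow_sub_one]; group
        rw [e]; exact this
    have e : (t ^ (a + b))⁻¹ * (x * y)
        = ((t ^ b)⁻¹ * ((t ^ a)⁻¹ * x) * t ^ b) * ((t ^ b)⁻¹ * y) := by
      rw [zpow_add]; group
    rw [e]
    exact U.mul_mem (key b _ ha) hb
  inv_mem' := by
    rintro x ⟨a, ha⟩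
    refine ⟨-a, ?_⟩
    have key : ∀ (b : ℤ) (n : G), n ∈ U → (t ^ b)⁻¹ * n * t ^ b ∈ U := by
      intro b
      induction b using Int.induction_on with
      | zero => intro n hn; simpa using hn
      | succ i ih =>
        intro n hn
        have := h2 _ (ih n hn)
        have e : (t ^ ((i : ℤ) + 1))⁻¹ * n * t ^ ((i : ℤ) + 1)
            = t⁻¹ * ((t ^ (i : ℤ))⁻¹ * n * t ^ (i : ℤ)) * t := by
          rw [zpow_add_one]; group
        rw [e]; exact this
      | pred i ih =>
        intro n hn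
        have := h1 _ (ih n hn)
        have e : (t ^ (-(i : ℤ) - 1))⁻¹ * n * t ^ (-(i : ℤ) - 1)
            = t * ((t ^ (-(i : ℤ)))⁻¹ * n * t ^ (-(i : ℤ))) * t⁻¹ := by
          rw [zpow_sub_one]; group
        rw [e]; exact this
    have h := key (-a) _ (U.inv_mem ha)
    have e : (t ^ (-a))⁻¹ * x⁻¹ = (t ^ (-a))⁻¹ * ((t ^ a)⁻¹ * x)⁻¹ * t ^ (-a) := by
      rw [zpow_neg]; group
    rw [e]; exact h

theorem conj_zpow {U : Subgroup G} {t : G} (h1 : ∀ n ∈ U, t * n * t⁻¹ ∈ U)
    (h2 : ∀ n ∈ U, t⁻¹ * n * t ∈ U) (b : ℤ) (n : G) (hn : n ∈ U) :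
    t ^ b * n * (t ^ b)⁻¹ ∈ U := by
  induction b using Int.induction_on generalizing n with
  | zero => simpa using hn
  | succ i ih =>
    have := h1 _ (ih n hn)
    have e : t ^ ((i : ℤ) + 1) * n * (t ^ ((i : ℤ) + 1))⁻¹
        = t * (t ^ (i : ℤ) * n * (t ^ (i : ℤ))⁻¹) * t⁻¹ := by
      have : t ^ ((i : ℤ) + 1) = t * t ^ (i : ℤ) := by rw [add_comm, zpow_one_add]
      rw [this]; group
    rw [e]; exact this
  | pred i ih =>
    have := h2 _ (ih n hn)
    have e : t ^ (-(i : ℤ) - 1) * n * (t ^ (-(i : ℤ) - 1))⁻¹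
        = t⁻¹ * (t ^ (-(i : ℤ)) * n * (t ^ (-(i : ℤ)))⁻¹) * t := by
      have : t ^ (-(i : ℤ) - 1) = t⁻¹ * t ^ (-(i : ℤ)) := by
        rw [sub_eq_add_neg, add_comm, zpow_add, zpow_neg_one]
      rw [this]; group
    rw [e]; exact this

/-- `M` is obtained from its normal subgroup `N` by adding the element `t`. -/
structure CycStep (N M : Subgroup G) (t : G) : Prop where
  le : N ≤ M
  mem : t ∈ M
  conj : ∀ n ∈ N, t * n * t⁻¹ ∈ N
  conj' : ∀ n ∈ N, t⁻¹ * n * t ∈ N
  dec : ∀ g ∈ M, ∃ k : ℤ, (t ^ k)⁻¹ * g ∈ N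

theorem CycStep.normal {N M : Subgroup G} {t : G} (h : CycStep N M t) {g n : G} (hg : g ∈ M)
    (hn : n ∈ N) : g * n * g⁻¹ ∈ N := by
  obtain ⟨k, hk⟩ := h.dec g hg
  have e : g * n * g⁻¹ = t ^ k * (((t ^ k)⁻¹ * g) * n * ((t ^ k)⁻¹ * g)⁻¹) * (t ^ k)⁻¹ := by
    group
  rw [e]
  exact conj_zpow h.conj h.conj' k _ (N.mul_mem (N.mul_mem hk hn) (N.inv_mem hk))

/-- Polycyclic subgroups. -/
inductive PCS : Subgroup G → Prop
  | bot : PCS ⊥
  | step {N M : Subgroup G} {t : G} : PCS N → CycStep N M t → PCS M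

theorem PCS.fg {M : Subgroup G} (h : PCS M) : M.FG := by
  induction h with
  | bot => exact ⟨∅, by simp only [Finset.coe_empty, Subgroup.closure_empty]⟩
  | @step N M t _ hs ih =>
    classical
    obtain ⟨S, hS⟩ := ih
    refine ⟨insert t S, le_antisymm ?_ ?_⟩
    · rw [Subgroup.closure_le]
      intro x hx
      rcases Finset.mem_insert.1 (by exact_mod_cast hx) with rfl | hx
      · exact hs.mem
      · exact hs.le (hS ▸ Subgroup.subset_closure hx)
    · intro g hg
      obtain ⟨k, hk⟩ := hs.dec g hg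
      have e : g = t ^ k * ((t ^ k)⁻¹ * g) := by group
      rw [e]
      refine Subgroup.mul_mem _ (Subgroup.zpow_mem _ (Subgroup.subset_closure (by simp)) _) ?_
      rw [← hS] at hk
      exact Subgroup.closure_mono (by intro x hx; simp [Finset.mem_coe.1 hx]) hk

theorem PCS.map {G' : Type v} [Group G'] (f : G →* G') {M : Subgroup G} (h : PCS M) :
    PCS (M.map f) := by
  induction h with
  | bot => rw [Subgroup.map_bot]; exact .bot
  | @step N M t _ hs ih =>
    refine .step ih (t := f t) ⟨Subgroup.map_mono hs.le, Subgroup.mem_map_of_mem f hs.mem, ?_, ?_, ?_⟩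
    · rintro _ ⟨n, hn, rfl⟩
      exact ⟨t * n * t⁻¹, hs.conj n hn, by simp only [map_mul, map_inv]⟩
    · rintro _ ⟨n, hn, rfl⟩
      exact ⟨t⁻¹ * n * t, hs.conj' n hn, by simp only [map_mul, map_inv]⟩
    · rintro _ ⟨g, hg, rfl⟩
      obtain ⟨k, hk⟩ := hs.dec g hg
      exact ⟨k, ⟨_, hk, by simp only [map_mul, map_inv, map_zpow]⟩⟩

theorem PCS.comap_injective {G' : Type v} [Group G'] (f : G' →* G) (hf : Function.Injective f)
    {M : Subgroup G} (h : PCS M) : PCS (M.comap f) := by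
  induction h with
  | bot =>
    have : (⊥ : Subgroup G).comap f = ⊥ := by
      rw [MonoidHom.comap_bot, (MonoidHom.ker_eq_bot_iff f).2 hf]
    rw [this]; exact .bot
  | @step N M t _ hs ih =>
    let D : AddSubgroup ℤ :=
      { carrier := {k | ∃ g ∈ M.comap f, (t ^ k)⁻¹ * f g ∈ N}
        zero_mem' := ⟨1, one_mem _, by simp⟩
        add_mem' := by
          rintro a b ⟨g, hg, hga⟩ ⟨g', hg', hgb⟩
          refine ⟨g * g', mul_mem hg hg', ?_⟩
          have e : (t ^ (a + b))⁻¹ * f (g * g')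
              = ((t ^ (-b)) * ((t ^ a)⁻¹ * f g) * (t ^ (-b))⁻¹) * ((t ^ b)⁻¹ * f g') := by
            rw [zpow_add, zpow_neg, map_mul]; group
          rw [e]
          exact N.mul_mem (conj_zpow hs.conj hs.conj' _ _ hga) hgb
        neg_mem' := by
          rintro a ⟨g, hg, hga⟩
          refine ⟨g⁻¹, inv_mem hg, ?_⟩
          have e : (t ^ (-a))⁻¹ * f g⁻¹
              = t ^ a * ((t ^ a)⁻¹ * f g)⁻¹ * (t ^ a)⁻¹ := by
            rw [zpow_neg, map_inv]; group
          rw [e]
          exact conj_zpow hs.conj hs.conj' _ _ (N.inv_mem hga) }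
    obtain ⟨d, hd⟩ := Int.subgroup_cyclic D
    obtain ⟨s, hsM, hsd⟩ : d ∈ D := by
      rw [hd]; exact AddSubgroup.subset_closure rfl
    refine .step ih (t := s) ⟨Subgroup.comap_mono hs.le, hsM, ?_, ?_, ?_⟩
    · intro n hn
      have : f s * f n * (f s)⁻¹ ∈ N := hs.normal hsM hn
      simpa only [Subgroup.mem_comap, map_mul, map_inv] using this
    · intro n hn
      have : (f s)⁻¹ * f n * ((f s)⁻¹)⁻¹ ∈ N := hs.normal (M.inv_mem hsM) hn
      simpa only [Subgroup.mem_comap, map_mul, map_inv, inv_inv] using this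
    · intro g hg
      obtain ⟨k, hk⟩ := hs.dec (f g) hg
      have hkD : k ∈ D := ⟨g, hg, hk⟩
      rw [hd, AddSubgroup.mem_closure_singleton] at hkD
      obtain ⟨c, rfl⟩ := hkD
      refine ⟨c, ?_⟩
      have h1 : (t ^ (c * d))⁻¹ * f s ^ c ∈ N := by
        have : ∀ c : ℤ, (t ^ (c * d))⁻¹ * f s ^ c ∈ N := by
          intro c
          induction c using Int.induction_on with
          | zero => simp
          | succ i ih =>
            have e : (t ^ (((i : ℤ) + 1) * d))⁻¹ * f s ^ ((i : ℤ) + 1)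
                = (t ^ (-d) * ((t ^ ((i : ℤ) * d))⁻¹ * f s ^ (i : ℤ)) * (t ^ (-d))⁻¹) *
                  ((t ^ d)⁻¹ * f s) := by
              rw [add_mul, one_mul, zpow_add, zpow_add_one, zpow_neg]; group
            rw [e]
            exact N.mul_mem (conj_zpow hs.conj hs.conj' _ _ ih) hsd
          | pred i ih =>
            have e : (t ^ ((-(i : ℤ) - 1) * d))⁻¹ * f s ^ (-(i : ℤ) - 1)
                = (t ^ d * (((t ^ ((-(i : ℤ)) * d))⁻¹ * f s ^ (-(i : ℤ))) *
                  ((t ^ d)⁻¹ * f s)⁻¹) * (t ^ d)⁻¹) := by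
              rw [sub_mul, one_mul, zpow_sub, zpow_sub_one]; group
            rw [e]
            exact conj_zpow hs.conj hs.conj' _ _ (N.mul_mem ih (N.inv_mem hsd))
        exact this c
      have e : f ((s ^ c)⁻¹ * g) = ((t ^ (c * d))⁻¹ * f s ^ c)⁻¹ * ((t ^ (c * d))⁻¹ * f g) := by
        rw [map_mul, map_inv, map_zpow]; group
      show f ((s ^ c)⁻¹ * g) ∈ N
      rw [e]
      have h2 : (t ^ (c * d))⁻¹ * f g ∈ N := by simpa only [Int.zsmul_eq_mul] using hk
      exact N.mul_mem (N.inv_mem h1) h2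

end basics

end Vale.Agent.P188
end
end
end
end
end

section

section

section

section

section

/-!
Polycyclic groups and polycyclic subgroups; finite index subgroups.
-/

universe u v w

namespace Vale.Agent.P188

variable {G : Type u} [Group G]

theorem IsPolycyclic.pcs (h : IsPolycyclic G) : PCS (⊤ : Subgroup G) := by
  obtain ⟨m, s, h0, hm, hs⟩ := h
  have key : ∀ i ≤ m, PCS (s i) := by
    intro i
    induction i with
    | zero => intro _; rw [h0]; exact .bot
    | succ i ih =>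
      intro hi
      obtain ⟨hle, hn, hc⟩ := hs i (by omega)
      obtain ⟨q, hq⟩ := hc.exists_generator
      obtain ⟨t, rfl⟩ := QuotientGroup.mk_surjective q
      refine .step (ih (by omega)) (t := (t : G)) ⟨hle, t.2, ?_, ?_, ?_⟩
      · intro n hn'
        have := hn.conj_mem ⟨n, hle hn'⟩ hn' t
        simpa only [Subgroup.mem_subgroupOf, Subgroup.coe_mul, InvMemClass.coe_inv] using this
      · intro n hn'
        have := hn.conj_mem ⟨n, hle hn'⟩ hn' t⁻¹
        simpa only [inv_inv, Subgroup.mem_subgroupOf, Subgroup.coe_mul, InvMemClass.coe_inv] using this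
      · intro g hg
        obtain ⟨k, hk⟩ := Subgroup.mem_zpowers_iff.1 (hq (QuotientGroup.mk (⟨g, hg⟩ : s (i + 1))))
        refine ⟨k, ?_⟩
        rw [← QuotientGroup.mk_zpow, QuotientGroup.eq] at hk
        simpa only [Subgroup.mem_subgroupOf, Subgroup.coe_mul, InvMemClass.coe_inv, SubgroupClass.coe_zpow] using hk
  rw [← hm]; exact key m le_rfl

/-- one step of a polycyclic series -/
def CycQ (A B : Subgroup G) : Prop :=
  A ≤ B ∧ ∃ _ : (A.subgroupOf B).Normal, IsCyclic (B ⧸ A.subgroupOf B)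

theorem CycStep.cycQ {N M : Subgroup G} {t : G} (hs : CycStep N M t) : CycQ N M := by
  have hn : (N.subgroupOf M).Normal := by
    constructor
    intro n hn g
    exact hs.normal g.2 hn
  refine ⟨hs.le, hn, ⟨⟨QuotientGroup.mk ⟨t, hs.mem⟩, ?_⟩⟩⟩
  intro q
  obtain ⟨g, rfl⟩ := QuotientGroup.mk_surjective q
  obtain ⟨k, hk⟩ := hs.dec g g.2
  refine Subgroup.mem_zpowers_iff.2 ⟨k, ?_⟩
  rw [← QuotientGroup.mk_zpow, QuotientGroup.eq]
  simpa only [Subgroup.mem_subgroupOf, Subgroup.coe_mul, InvMemClass.coe_inv, SubgroupClass.coe_zpow] using hk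

theorem PCS.exists_series {M : Subgroup G} (h : PCS M) :
    ∃ (m : ℕ) (s : ℕ → Subgroup G), s 0 = ⊥ ∧ s m = M ∧
    ∀ i < m, CycQ (s i) (s (i + 1)) := by
  induction h with
  | bot => exact ⟨0, fun _ => ⊥, rfl, rfl, fun i hi => absurd hi (by omega)⟩
  | @step N M t _ hs ih =>
    obtain ⟨m, s, h0, hm, hser⟩ := ih
    refine ⟨m + 1, fun i => if i ≤ m then s i else M, by simp only [zero_le, ↓reduceIte, h0], by simp only [add_le_iff_nonpos_right, nonpos_iff_eq_zero, one_ne_zero, ↓reduceIte], ?_⟩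
    intro i hi
    rcases Nat.lt_or_ge i m with h | h
    · have h1 : i ≤ m := h.le
      have h2 : i + 1 ≤ m := h
      have e1 : (if i ≤ m then s i else M) = s i := if_pos h1
      have e2 : (if i + 1 ≤ m then s (i + 1) else M) = s (i + 1) := if_pos h2
      simp only [e1, e2]
      exact hser i h
    · obtain rfl : i = m := by omega
      have h2 : ¬ (i + 1 ≤ i) := by omega
      have e1 : (if i ≤ i then s i else M) = N := by rw [if_pos le_rfl, hm]
      have e2 : (if i + 1 ≤ i then s (i + 1) else M) = M := if_neg h2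
      simp only [e1, e2]
      exact hs.cycQ

theorem isPolycyclic_iff : IsPolycyclic G ↔ PCS (⊤ : Subgroup G) :=
  ⟨fun h => h.pcs, fun h => h.exists_series⟩

theorem isPolycyclic_subgroup_iff {P : Subgroup G} : IsPolycyclic P ↔ PCS P := by
  rw [isPolycyclic_iff]
  constructor
  · intro h
    have := h.map P.subtype
    rwa [← MonoidHom.range_eq_map, Subgroup.range_subtype] at this
  · intro h
    have := h.comap_injective P.subtype P.subtype_injective
    rwa [show P.comap P.subtype = ⊤ from Subgroup.subgroupOf_self P] at this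

theorem isVirtuallyPolycyclic_iff :
    IsVirtuallyPolycyclic G ↔ ∃ P : Subgroup G, P.FiniteIndex ∧ PCS P := by
  simp only [IsVirtuallyPolycyclic, isPolycyclic_subgroup_iff]

/-- finite coset covers bound the index -/
theorem relIndex_ne_zero_of_cover {Q M : Subgroup G} {E : Set G} (hE : E.Finite)
    (h : ∀ g ∈ M, ∃ e ∈ E, e⁻¹ * g ∈ Q) : Q.relIndex M ≠ 0 := by
  classical
  have : Finite E := hE
  have hfin : Finite (M ⧸ Q.subgroupOf M) := by
    have hc : ∀ q : M ⧸ Q.subgroupOf M, ∃ e : E, (e : G)⁻¹ * (q.out : G) ∈ Q := by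
      intro q
      obtain ⟨e, he, h'⟩ := h q.out q.out.2
      exact ⟨⟨e, he⟩, h'⟩
    choose f hf using hc
    refine Finite.of_injective f ?_
    intro q q' hqq
    have h1 := hf q
    have h2 := hf q'
    rw [← hqq] at h2
    rw [← q.out_eq, ← q'.out_eq]
    refine QuotientGroup.eq.2 ?_
    rw [Subgroup.mem_subgroupOf]
    have : (((q.out)⁻¹ * q'.out : M) : G) = ((f q : G)⁻¹ * (q.out : G))⁻¹ * ((f q : G)⁻¹ * (q'.out : G)) := by
      simp only [Subgroup.coe_mul, InvMemClass.coe_inv, mul_inv_rev, inv_inv, mul_mul_inv_mul_cancel]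
    rw [this]
    exact Q.mul_mem (Q.inv_mem h1) h2
  rw [Subgroup.relIndex]
  exact Subgroup.index_ne_zero_of_finite

theorem exists_cover_of_relIndex_ne_zero {Q M : Subgroup G} (h : Q.relIndex M ≠ 0) :
    ∃ E : Set G, E.Finite ∧ E ⊆ M ∧ ∀ g ∈ M, ∃ e ∈ E, e⁻¹ * g ∈ Q := by
  rw [Subgroup.relIndex] at h
  have hfin : Finite (M ⧸ Q.subgroupOf M) := Nat.finite_of_card_ne_zero h
  refine ⟨Set.range (fun q : M ⧸ Q.subgroupOf M => (q.out : G)), Set.finite_range _, ?_, ?_⟩
  · rintro _ ⟨q, rfl⟩; exact q.out.2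
  · intro g hg
    refine ⟨_, ⟨(QuotientGroup.mk ⟨g, hg⟩ : M ⧸ Q.subgroupOf M), rfl⟩, ?_⟩
    have h1 : (QuotientGroup.mk (Quotient.out (QuotientGroup.mk ⟨g, hg⟩ : M ⧸ Q.subgroupOf M)) :
      M ⧸ Q.subgroupOf M) = QuotientGroup.mk ⟨g, hg⟩ := Quotient.out_eq' _
    rw [QuotientGroup.eq, Subgroup.mem_subgroupOf] at h1
    simpa only [Subgroup.coe_mul, InvMemClass.coe_inv] using h1

/-- poly-`ℤ` subgroups -/
inductive PZS : Subgroup G → Prop
  | bot : PZS ⊥
  | step {N M : Subgroup G} {t : G} : PZS N → CycStep N M t →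
      (∀ k : ℤ, t ^ k ∈ N → k = 0) → PZS M

theorem finite_hom {P : Type*} [Group P] [Finite P] {N : Type*} [Group N] (h : Group.FG N) :
    Finite (N →* P) := by
  obtain ⟨S, hS⟩ := h.out
  refine Finite.of_injective (fun (f : N →* P) (s : (S : Set N)) => f s) ?_
  intro f g hfg
  refine MonoidHom.eq_of_eqOn_dense hS ?_
  intro x hx
  exact congrFun hfg ⟨x, hx⟩

/-- For `Q` of finite index in the finitely generated group `N`, and an automorphism of `N`,
some positive power of the automorphism preserves `Q`. -/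
theorem exists_pow_preserves {N : Type*} [Group N] (hN : Group.FG N) (Q : Subgroup N)
    (hQ : Q.FiniteIndex) (α : N ≃* N) : ∃ k : ℕ, 0 < k ∧ ∀ x, (α ^ k) x ∈ Q ↔ x ∈ Q := by
  classical
  have : Finite (N ⧸ Q) := inferInstance
  have : Finite (Equiv.Perm (N ⧸ Q)) := inferInstance
  have := finite_hom (P := Equiv.Perm (N ⧸ Q)) hN
  let ρ : N →* Equiv.Perm (N ⧸ Q) := MulAction.toPermHom N (N ⧸ Q)
  have hρ : ∀ x, ρ x (QuotientGroup.mk 1) = QuotientGroup.mk 1 ↔ x ∈ Q := by
    intro x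
    show (x • (QuotientGroup.mk 1 : N ⧸ Q)) = _ ↔ _
    rw [MulAction.Quotient.smul_mk, QuotientGroup.eq]
    simp
  obtain ⟨i, j, hij, he⟩ := Finite.exists_ne_map_eq_of_infinite
    (fun i : ℕ => ρ.comp ((α ^ i : N ≃* N) : N →* N))
  wlog hlt : i < j generalizing i j
  · exact this j i hij.symm he.symm (by omega)
  refine ⟨j - i, by omega, ?_⟩
  intro x
  have h1 : ∀ y, (α ^ i) y ∈ Q ↔ (α ^ j) y ∈ Q := by
    intro y
    rw [← hρ, ← hρ]
    have := DFunLike.congr_fun he y
    simp only [MonoidHom.comp_apply, MonoidHom.coe_coe] at this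
    rw [this]
  have h2 := h1 ((α ^ i)⁻¹ x)
  have h3 : (α ^ i) ((α ^ i)⁻¹ x) = x := by
    rw [← MulAut.mul_apply]; simp
  have h4 : (α ^ j) ((α ^ i)⁻¹ x) = (α ^ (j - i)) x := by
    rw [← MulAut.mul_apply]
    congr 1
    rw [← pow_sub _ hlt.le]
  rw [h3, h4] at h2
  exact h2.symm

end Vale.Agent.P188
end
end
end
end
end

section

section

attribute [-instance] ProperSMul.toContinuousSMul IsTopologicalTorsor.toContinuousSMul IdemSemiring.toCanonicallyOrderedAdd IdemSemiring.toMulLeftMono IdemSemiring.toMulRightMono AddQuantale.instAddLeftMono AddQuantale.instAddRightMono Quantale.instMulLeftMono Quantale.instMulRightMono FiniteDimensional.rclike_to_real IsScalarTower.complexToReal FiniteDimensional.complexToReal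

section

/-!
P188, Theorem S+: vectors with totally bounded orbits.
-/

universe u v w

open Filter Topology Pointwise

namespace Vale.Agent.P188.SG

section Rep

variable {H : Type u} [Group H] {S : Finset H}
variable {V : Type v} [NormedAddCommGroup V] [InnerProductSpace ℝ V] [CompleteSpace V]

theorem TB_closed (π : H →* (V ≃ₗᵢ[ℝ] V)) {v : V}
    (hv : ∀ η : ℝ, 0 < η → ∃ w, TB π w ∧ ‖v - w‖ ≤ η) : TB π v := by
  intro η hη
  obtain ⟨w, hw, hvw⟩ := hv (η / 3) (by positivity)
  obtain ⟨F, hF⟩ := hw (η / 3) (by positivity)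
  refine ⟨F, fun g => ?_⟩
  obtain ⟨r, hr, h⟩ := hF g
  refine ⟨r, hr, ?_⟩
  have e : π g v - π r v = π g (v - w) + (π g w - π r w) - π r (v - w) := by
    rw [map_sub, map_sub]
    abel
  rw [e]
  have h1 := norm_sub_le (π g (v - w) + (π g w - π r w)) (π r (v - w))
  have h2 := norm_add_le (π g (v - w)) (π g w - π r w)
  rw [LinearIsometryEquiv.norm_map] at h1 h2
  linarith only [h2, h1, h, hvw]

theorem TB_smul (π : H →* (V ≃ₗᵢ[ℝ] V)) {v : V} (hv : TB π v) (a : ℝ) : TB π (a • v) := by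
  intro η hη
  have ha : 0 < |a| + 1 := by positivity
  obtain ⟨F, hF⟩ := hv (η / (|a| + 1)) (by positivity)
  refine ⟨F, fun g => ?_⟩
  obtain ⟨r, hr, h⟩ := hF g
  refine ⟨r, hr, ?_⟩
  rw [map_smul, map_smul, ← smul_sub, norm_smul, Real.norm_eq_abs]
  calc |a| * ‖π g v - π r v‖ ≤ (|a| + 1) * (η / (|a| + 1)) :=
        mul_le_mul (by linarith only []) h (norm_nonneg _) ha.le
    _ = η := by field_simp

theorem TB_add (π : H →* (V ≃ₗᵢ[ℝ] V)) {v w : V} (hv : TB π v) (hw : TB π w) :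
    TB π (v + w) := by
  classical
  intro η hη
  obtain ⟨F, hF⟩ := hv (η / 4) (by positivity)
  obtain ⟨F', hF'⟩ := hw (η / 4) (by positivity)
  let f : H × H → H := fun p =>
    if h : ∃ g, ‖π g v - π p.1 v‖ ≤ η / 4 ∧ ‖π g w - π p.2 w‖ ≤ η / 4 then h.choose else 1
  refine ⟨(F ×ˢ F').image f, fun g => ?_⟩
  obtain ⟨r, hr, h⟩ := hF g
  obtain ⟨r', hr', h'⟩ := hF' g
  refine ⟨f (r, r'), Finset.mem_image_of_mem f (Finset.mk_mem_product hr hr'), ?_⟩
  have hex : ∃ g, ‖π g v - π r v‖ ≤ η / 4 ∧ ‖π g w - π r' w‖ ≤ η / 4 := ⟨g, h, h'⟩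
  have hf : f (r, r') = hex.choose := dif_pos hex
  obtain ⟨h1, h2⟩ := hex.choose_spec
  rw [← hf] at h1 h2
  have e : π g (v + w) - π (f (r, r')) (v + w) =
      ((π g v - π r v) - (π (f (r, r')) v - π r v)) +
        ((π g w - π r' w) - (π (f (r, r')) w - π r' w)) := by
    rw [map_add, map_add]
    abel
  rw [e]
  have h3 := norm_add_le ((π g v - π r v) - (π (f (r, r')) v - π r v))
    ((π g w - π r' w) - (π (f (r, r')) w - π r' w))
  have h4 := norm_sub_le (π g v - π r v) (π (f (r, r')) v - π r v)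
  have h5 := norm_sub_le (π g w - π r' w) (π (f (r, r')) w - π r' w)
  linarith

/-- Orbits in finite-dimensional invariant subspaces are totally bounded. -/
theorem TB_of_fd (π : H →* (V ≃ₗᵢ[ℝ] V)) (W : Submodule ℝ V) [FiniteDimensional ℝ W]
    (hi : Inv π W) {v : V} (hv : v ∈ W) : TB π v := by
  classical
  intro η hη
  let f : H → W := fun g => ⟨π g v, hi g v hv⟩
  have htb : TotallyBounded (Set.range f) := by
    refine (isCompact_closedBall (0 : W) ‖v‖).totallyBounded.subset ?_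
    rintro _ ⟨g, rfl⟩
    rw [mem_closedBall_zero_iff]
    show ‖π g v‖ ≤ ‖v‖
    rw [LinearIsometryEquiv.norm_map]
  obtain ⟨t, hts, htf, hcov⟩ := Metric.finite_approx_of_totallyBounded htb η hη
  have hts' : ∀ y ∈ t, ∃ g, f g = y := fun y hy => hts hy
  choose! r hr using hts'
  refine ⟨htf.toFinset.image r, fun g => ?_⟩
  obtain ⟨y, hy, hgy⟩ := Set.mem_iUnion₂.1 (hcov ⟨g, rfl⟩)
  refine ⟨r y, Finset.mem_image_of_mem r (htf.mem_toFinset.2 hy), ?_⟩
  have h1 : dist (f g) y < η := hgy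
  rw [← hr y hy, dist_eq_norm] at h1
  exact h1.le

theorem TB_fdSpan (π : H →* (V ≃ₗᵢ[ℝ] V)) {v : V} (hv : v ∈ fdSpan π) : TB π v := by
  refine TB_closed π fun η hη => ?_
  obtain ⟨w, hw, hvw⟩ := Metric.mem_closure_iff.1 hv η hη
  refine ⟨w, ?_, by rw [← dist_eq_norm]; exact hvw.le⟩
  have hne : {W : Submodule ℝ V | FiniteDimensional ℝ W ∧ Inv π W}.Nonempty := by
    refine ⟨⊥, inferInstance, ?_⟩
    intro g w hw
    rw [Submodule.mem_bot] at hw ⊢
    rw [hw, map_zero]
  have hdir : DirectedOn (· ≤ ·) {W : Submodule ℝ V | FiniteDimensional ℝ W ∧ Inv π W} := by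
    rintro W₁ ⟨hf₁, hi₁⟩ W₂ ⟨hf₂, hi₂⟩
    refine ⟨W₁ ⊔ W₂, ⟨inferInstance, ?_⟩, le_sup_left, le_sup_right⟩
    intro g w hw
    obtain ⟨x, hx, y, hy, rfl⟩ := Submodule.mem_sup.1 hw
    rw [map_add]
    exact Submodule.add_mem_sup (hi₁ g x hx) (hi₂ g y hy)
  obtain ⟨W, ⟨hWf, hWi⟩, hwW⟩ := (Submodule.mem_sSup_of_directed hne hdir).1 hw
  exact TB_of_fd π W hWi hwW

end Rep

end Vale.Agent.P188.SG
end
end
end

section

section

attribute [-instance] ProperSMul.toContinuousSMul IsTopologicalTorsor.toContinuousSMul IdemSemiring.toCanonicallyOrderedAdd IdemSemiring.toMulLeftMono IdemSemiring.toMulRightMono AddQuantale.instAddLeftMono AddQuantale.instAddRightMono Quantale.instMulLeftMono Quantale.instMulRightMono FiniteDimensional.rclike_to_real IsScalarTower.complexToReal FiniteDimensional.complexToReal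

section

/-! P188, Theorem S+: asymptotically realized vectors. -/

universe u v w

open Filter Topology Pointwise

namespace Vale.Agent.P188.SG

section Rep

variable {H : Type u} [Group H] {S : Finset H}
variable {V : Type v} [NormedAddCommGroup V] [InnerProductSpace ℝ V] [CompleteSpace V]

theorem Rel_one (π : H →* (V ≃ₗᵢ[ℝ] V)) (c : H → V) (hc : IsCocycle π c) : c 1 = 0 := by
  have h := hc 1 1
  rw [mul_one, map_one] at h
  have h2 : c 1 = c 1 + c 1 := h
  exact left_eq_add.mp h2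

theorem Rel_inv (π : H →* (V ≃ₗᵢ[ℝ] V)) (c : H → V) (hc : IsCocycle π c) (g : H) :
    c g⁻¹ = -(π g⁻¹ (c g)) := by
  have h := hc g⁻¹ g
  rw [inv_mul_cancel, Rel_one π c hc] at h
  exact eq_neg_of_add_eq_zero_left h.symm

/-- finitely many twisting elements -/
theorem Rel_twist (S : Finset H) (π : H →* (V ≃ₗᵢ[ℝ] V)) (c : H → V) {v : V} (hv : TB π v)
    {η : ℝ} (hη : 0 < η) : ∃ R : ℝ, 0 ≤ R ∧ ∀ g : H, ∃ r : H, (len S r : ℝ) ≤ R ∧
      (len S r⁻¹ : ℝ) ≤ R ∧ ‖c r‖ ≤ R ∧ ‖c r⁻¹‖ ≤ R ∧ ‖π g⁻¹ v - π r v‖ ≤ η := by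
  obtain ⟨F, hF⟩ := hv η hη
  refine ⟨∑ r ∈ F, ((len S r : ℝ) + len S r⁻¹ + ‖c r‖ + ‖c r⁻¹‖),
    Finset.sum_nonneg fun r _ => by (clear * -; positivity), fun g => ?_⟩
  obtain ⟨r, hr, h⟩ := hF g⁻¹
  have h1 : ((len S r : ℝ) + len S r⁻¹ + ‖c r‖ + ‖c r⁻¹‖) ≤
      ∑ r ∈ F, ((len S r : ℝ) + len S r⁻¹ + ‖c r‖ + ‖c r⁻¹‖) :=
    Finset.single_le_sum (f := fun r => (len S r : ℝ) + len S r⁻¹ + ‖c r‖ + ‖c r⁻¹‖)
      (fun r _ => by (clear * -; positivity)) hr
  have h2 : (0 : ℝ) ≤ len S r := Nat.cast_nonneg _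
  have h3 : (0 : ℝ) ≤ len S r⁻¹ := Nat.cast_nonneg _
  have h4 := norm_nonneg (c r)
  have h5 := norm_nonneg (c r⁻¹)
  exact ⟨r, by linarith, by linarith only [h1, h4, h5], by linarith only [h1, h5], by linarith only [h1, h4], h⟩

/-- one step of the construction of products -/
theorem Rel_step (π : H →* (V ≃ₗᵢ[ℝ] V)) (c : H → V) (hc : IsCocycle π c) {w : V} {p r g : H}
    {x y η R n : ℝ} (hn : 0 ≤ n) (hr : ‖c r‖ ≤ R) (hp : ‖π p⁻¹ w - π r w‖ ≤ η)
    {u : V} (hx : ‖c p - u‖ ≤ x) (hg : ‖c g - n • w‖ ≤ y) :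
    ‖c (p * r * g) - (u + n • w)‖ ≤ x + R + y + n * η := by
  have h1 : c (p * r * g) = c p + π p (c r) + π (p * r) (c g) := by
    rw [hc, hc]
  have h2 : π (p * r) (c g) - n • w = π (p * r) (c g - n • w) + n • (π (p * r) w - w) := by
    rw [map_sub, map_smul, smul_sub]
    abel
  have h3 : ‖π (p * r) w - w‖ ≤ η := by
    have h4 : π (p * r) w - w = π p (π r w - π p⁻¹ w) := by
      rw [map_sub, map_mul]
      have h5 : π p (π p⁻¹ w) = w := by
        have : π (p * p⁻¹) w = w := by rw [mul_inv_cancel, map_one]; rfl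
        rw [map_mul] at this
        exact this
      rw [h5]
      rfl
    rw [h4, LinearIsometryEquiv.norm_map, norm_sub_rev]
    exact hp
  have h6 : c (p * r * g) - (u + n • w) =
      (c p - u) + π p (c r) + (π (p * r) (c g - n • w) + n • (π (p * r) w - w)) := by
    rw [← h2, h1]
    abel
  rw [h6]
  refine (norm_add_le _ _).trans ?_
  have h7 : ‖(c p - u) + π p (c r)‖ ≤ x + R := by
    refine (norm_add_le _ _).trans (add_le_add hx ?_)
    rw [LinearIsometryEquiv.norm_map]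
    exact hr
  have h8 : ‖π (p * r) (c g - n • w) + n • (π (p * r) w - w)‖ ≤ y + n * η := by
    refine (norm_add_le _ _).trans (add_le_add ?_ ?_)
    · rw [LinearIsometryEquiv.norm_map]
      exact hg
    · rw [norm_smul, Real.norm_of_nonneg hn]
      exact mul_le_mul_of_nonneg_left h3 hn
  linarith only [h7, h8]

theorem rel_of_relSub (hS : SymGen S) (π : H →* (V ≃ₗᵢ[ℝ] V)) (c : H → V)
    (hc : IsCocycle π c) {v : V} (hv : TB π v) {ρ : ℝ} (hρ : 0 ≤ ρ) (h : RelSub S c v ρ) :
    Rel S c v ρ := by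
  intro η hη
  have hη' : 0 < η / 8 := by positivity
  obtain ⟨R, hR0, hR⟩ := Rel_twist S π c hv hη'
  obtain ⟨n1, hn1, g1, hg1, hg1'⟩ := h (η / 8) hη' (⌈R / (η / 8)⌉₊ + 1)
  have hn1R : R ≤ (η / 8) * n1 := by
    have h1 : R / (η / 8) ≤ ⌈R / (η / 8)⌉₊ := Nat.le_ceil _
    have h2 : ((⌈R / (η / 8)⌉₊ : ℕ) : ℝ) ≤ n1 := by
      have : ⌈R / (η / 8)⌉₊ ≤ n1 := by omega
      exact_mod_cast this
    have h3 := h1.trans h2
    rw [div_le_iff₀ hη'] at h3
    linarith only [h3]
  have hn1pos : 0 < n1 := by omega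
  have hn1r : (0 : ℝ) < n1 := by exact_mod_cast hn1pos
  have key : ∀ q : ℕ, ∃ p : H, (len S p : ℝ) ≤ q * ((ρ + 2 * (η / 8)) * n1) ∧
      ‖c p - ((q : ℝ) * n1) • v‖ ≤ q * (3 * (η / 8) * n1) := by
    intro q
    induction q with
    | zero =>
      refine ⟨1, ?_, ?_⟩
      · rw [len_one]; simp
      · rw [Rel_one π c hc]; simp
    | succ q ih =>
      obtain ⟨p, hp1, hp2⟩ := ih
      obtain ⟨r, hr1, hr2, hr3, hr4, hr5⟩ := hR p
      refine ⟨p * r * g1, ?_, ?_⟩
      · have h1 := len_mul_le hS.gen (p * r) g1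
        have h2 := len_mul_le hS.gen p r
        have h3 : (len S (p * r * g1) : ℝ) ≤ len S p + len S r + len S g1 := by
          have : len S (p * r * g1) ≤ len S p + len S r + len S g1 := by omega
          exact_mod_cast this
        push_cast
        linarith only [h3, hr1, hp1, hn1R, hg1]
      · have h1 := Rel_step π c hc (n := n1) hn1r.le hr3 hr5 hp2 hg1'
        have h2 : ((((q + 1 : ℕ) : ℝ) * n1) • v : V) = ((q : ℝ) * n1) • v + (n1 : ℝ) • v := by
          rw [← add_smul]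
          push_cast
          congr 1
          ring
        rw [h2]
        refine h1.trans ?_
        push_cast
        linarith only [hn1R]
  refine ⟨⌈n1 * ‖v‖ / (η / 2)⌉₊, fun n hn => ?_⟩
  obtain ⟨p, hp1, hp2⟩ := key (n / n1)
  have hdiv : (n : ℝ) = ((n / n1 : ℕ) : ℝ) * n1 + ((n % n1 : ℕ) : ℝ) := by
    have : n = n / n1 * n1 + n % n1 := by
      rw [mul_comm]; exact (Nat.div_add_mod n n1).symm
    exact_mod_cast this
  have hmod : ((n % n1 : ℕ) : ℝ) ≤ n1 := by
    have : n % n1 ≤ n1 := (Nat.mod_lt n hn1pos).le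
    exact_mod_cast this
  have hmod0 : (0 : ℝ) ≤ ((n % n1 : ℕ) : ℝ) := Nat.cast_nonneg _
  have hqn : ((n / n1 : ℕ) : ℝ) * n1 ≤ n := by linarith only [hmod0, hdiv]
  have hvn : n1 * ‖v‖ ≤ (η / 2) * n := by
    have h1 : n1 * ‖v‖ / (η / 2) ≤ n := (Nat.le_ceil _).trans (by exact_mod_cast hn)
    rw [div_le_iff₀ (by positivity)] at h1
    linarith only [h1]
  refine ⟨p, ?_, ?_⟩
  · have h1 : ((n / n1 : ℕ) : ℝ) * ((ρ + 2 * (η / 8)) * n1) ≤ (ρ + 2 * (η / 8)) * n := by
      have := mul_le_mul_of_nonneg_left hqn (by (clear * - hρ hη; positivity) : 0 ≤ ρ + 2 * (η / 8))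
      linarith only [this]
    have h2 : (0 : ℝ) ≤ n := Nat.cast_nonneg _
    have h3 : (ρ + 2 * (η / 8)) * n ≤ (ρ + η) * n :=
      mul_le_mul_of_nonneg_right (by linarith only [hη']) h2
    linarith only [h3, h1, hp1]
  · have h1 : c p - (n : ℝ) • v = (c p - (((n / n1 : ℕ) : ℝ) * n1) • v) -
        ((n % n1 : ℕ) : ℝ) • v := by
      rw [sub_sub, ← add_smul, ← hdiv]
    rw [h1]
    refine (norm_sub_le _ _).trans ?_
    rw [norm_smul, Real.norm_of_nonneg hmod0]
    have h2 : ((n % n1 : ℕ) : ℝ) * ‖v‖ ≤ n1 * ‖v‖ :=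
      mul_le_mul_of_nonneg_right hmod (norm_nonneg _)
    have h3 : ((n / n1 : ℕ) : ℝ) * (3 * (η / 8) * n1) ≤ 3 * (η / 8) * n := by
      have := mul_le_mul_of_nonneg_left hqn (by positivity : 0 ≤ 3 * (η / 8))
      linarith only [this]
    have h4 : (0 : ℝ) ≤ η * n := by (clear * - hη; (clear * - hη; positivity))
    linarith only [h4, h3, h2, hvn, hp2]

theorem rel_add (hS : SymGen S) (π : H →* (V ≃ₗᵢ[ℝ] V)) (c : H → V) (hc : IsCocycle π c)
    {v w : V} (hw : TB π w) {ρ σ : ℝ} (h : Rel S c v ρ) (h' : Rel S c w σ) :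
    Rel S c (v + w) (ρ + σ) := by
  intro η hη
  have hη' : 0 < η / 8 := by (clear * - hη; positivity)
  obtain ⟨R, hR0, hR⟩ := Rel_twist S π c hw hη'
  obtain ⟨n1, hn1⟩ := h (η / 8) hη'
  obtain ⟨n2, hn2⟩ := h' (η / 8) hη'
  refine ⟨max (max n1 n2) ⌈R / (η / 2)⌉₊, fun n hn => ?_⟩
  have hn1' : n1 ≤ n := (le_max_left _ _).trans ((le_max_left _ _).trans hn)
  have hn2' : n2 ≤ n := (le_max_right _ _).trans ((le_max_left _ _).trans hn)
  have hnR : R ≤ (η / 2) * n := by
    have h1 : R / (η / 2) ≤ n := (Nat.le_ceil _).trans (by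
      exact_mod_cast (le_max_right _ _).trans hn)
    rw [div_le_iff₀ (by (clear * - hη; positivity))] at h1
    linarith only [h1]
  obtain ⟨g, hg1, hg2⟩ := hn1 n hn1'
  obtain ⟨g', hg1', hg2'⟩ := hn2 n hn2'
  obtain ⟨r, hr1, hr2, hr3, hr4, hr5⟩ := hR g
  have hn0 : (0 : ℝ) ≤ n := Nat.cast_nonneg _
  have hηn : (0 : ℝ) ≤ η * n := by (clear * - hη; positivity)
  refine ⟨g * r * g', ?_, ?_⟩
  · have h1 := len_mul_le hS.gen (g * r) g'
    have h2 := len_mul_le hS.gen g r
    have h3 : (len S (g * r * g') : ℝ) ≤ len S g + len S r + len S g' := by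
      have : len S (g * r * g') ≤ len S g + len S r + len S g' := by omega
      exact_mod_cast this
    linarith only [h3, hηn, hr1, hg1', hg1, hnR]
  · have h1 := Rel_step π c hc hn0 hr3 hr5 hg2 hg2'
    rw [smul_add]
    linarith only [h1, hηn, hnR]

theorem rel_smul (c : H → V) {v : V} {ρ : ℝ} (hρ : 0 ≤ ρ) (h : Rel S c v ρ) {a : ℝ}
    (ha : 0 ≤ a) (h1 : c 1 = 0) : Rel S c (a • v) (a * ρ) := by
  intro η hη
  rcases ha.eq_or_lt with rfl | ha
  · refine ⟨0, fun n _ => ⟨1, ?_, ?_⟩⟩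
    · rw [len_one]
      have : (0 : ℝ) ≤ n := Nat.cast_nonneg _
      push_cast
      linarith only [mul_nonneg (le_of_lt (sub_pos.2 hη)) (sub_nonneg.2 this)]
    · rw [h1, zero_smul, smul_zero, sub_zero, norm_zero]
      (clear * - hη; positivity)
  · obtain ⟨n1, hn1⟩ := h (η / (2 * a)) (by (clear * - hη ha; positivity))
    refine ⟨max ⌈(n1 + 1) / a⌉₊ ⌈‖v‖ / (η / 2)⌉₊, fun n hn => ?_⟩
    have hna : ((n1 : ℝ) + 1) ≤ a * n := by
      have h2 : ((n1 : ℝ) + 1) / a ≤ n := (Nat.le_ceil _).trans (by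
        exact_mod_cast (le_max_left _ _).trans hn)
      rw [div_le_iff₀ ha] at h2
      linarith only [h2]
    have hnv : ‖v‖ ≤ (η / 2) * n := by
      have h2 : ‖v‖ / (η / 2) ≤ n := (Nat.le_ceil _).trans (by
        exact_mod_cast (le_max_right _ _).trans hn)
      rw [div_le_iff₀ (by positivity)] at h2
      linarith only [h2]
    have hn0 : (0 : ℝ) ≤ n := Nat.cast_nonneg _
    have han : 0 ≤ a * n := by (clear * - ha; positivity)
    have hfl : ((⌊a * n⌋₊ : ℕ) : ℝ) ≤ a * n := Nat.floor_le han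
    have hfl2 : a * n < (⌊a * n⌋₊ : ℕ) + 1 := Nat.lt_floor_add_one _
    have hn1' : n1 ≤ ⌊a * n⌋₊ := Nat.le_floor (by linarith only [hna])
    obtain ⟨g, hg1, hg2⟩ := hn1 _ hn1'
    have hηa : η / (2 * a) * (a * n) = η / 2 * n := by
      (clear * - ha hη; field_simp)
    refine ⟨g, ?_, ?_⟩
    · have h2 : (ρ + η / (2 * a)) * ((⌊a * n⌋₊ : ℕ) : ℝ) ≤ (ρ + η / (2 * a)) * (a * n) :=
        mul_le_mul_of_nonneg_left hfl (by (clear * - hρ hη ha; positivity))
      have h3 : (ρ + η / (2 * a)) * (a * n) = a * ρ * n + η / 2 * n := by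
        rw [add_mul, hηa]; ring
      have h4 : (0 : ℝ) ≤ η * n := by (clear * - hη; positivity)
      linarith only [h4, h3, h2, hg1]
    · have h2 : c g - (n : ℝ) • a • v = (c g - ((⌊a * n⌋₊ : ℕ) : ℝ) • v) -
          (a * n - ((⌊a * n⌋₊ : ℕ) : ℝ)) • v := by
        rw [sub_smul, smul_smul, mul_comm (n : ℝ) a]
        abel
      rw [h2]
      refine (norm_sub_le _ _).trans ?_
      rw [norm_smul, Real.norm_of_nonneg (by linarith only [hfl])]
      have h3 : (a * n - ((⌊a * n⌋₊ : ℕ) : ℝ)) * ‖v‖ ≤ 1 * ‖v‖ :=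
        mul_le_mul_of_nonneg_right (by linarith only [hfl2]) (norm_nonneg _)
      have h4 : η / (2 * a) * ((⌊a * n⌋₊ : ℕ) : ℝ) ≤ η / (2 * a) * (a * n) :=
        mul_le_mul_of_nonneg_left hfl (by positivity)
      rw [hηa] at h4
      linarith only [h4, h3, hg2, hnv]

theorem rel_neg (hS : SymGen S) (π : H →* (V ≃ₗᵢ[ℝ] V)) (c : H → V) (hc : IsCocycle π c)
    {v : V} (hv : TB π v) {ρ : ℝ} (hρ : 0 ≤ ρ) (h : Rel S c v ρ) : Rel S c (-v) ρ := by
  intro η hη
  have hη' : 0 < η / 8 := by (clear * - hη; positivity)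
  obtain ⟨R, hR0, hR⟩ := Rel_twist S π c hv hη'
  obtain ⟨n1, hn1⟩ := h (η / 8) hη'
  refine ⟨max n1 ⌈R / (η / 2)⌉₊, fun n hn => ?_⟩
  have hnR : R ≤ (η / 2) * n := by
    have h1 : R / (η / 2) ≤ n := (Nat.le_ceil _).trans (by
      exact_mod_cast (le_max_right _ _).trans hn)
    rw [div_le_iff₀ (by positivity)] at h1
    linarith only [h1]
  obtain ⟨g, hg1, hg2⟩ := hn1 n ((le_max_left _ _).trans hn)
  obtain ⟨r, hr1, hr2, hr3, hr4, hr5⟩ := hR g
  have hn0 : (0 : ℝ) ≤ n := Nat.cast_nonneg _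
  have hηn : (0 : ℝ) ≤ η * n := by (clear * - hη; positivity)
  refine ⟨r⁻¹ * g⁻¹, ?_, ?_⟩
  · have h1 := len_mul_le hS.gen r⁻¹ g⁻¹
    have h2 := len_inv_le hS.gen g
    have h3 : (len S (r⁻¹ * g⁻¹) : ℝ) ≤ len S r⁻¹ + len S g := by
      have : len S (r⁻¹ * g⁻¹) ≤ len S r⁻¹ + len S g := by omega
      exact_mod_cast this
    linarith only [h3, hηn, hr2, hg1, hnR]
  · have h1 : c (r⁻¹ * g⁻¹) - (n : ℝ) • (-v) =
        c r⁻¹ - (π r⁻¹ (π g⁻¹ (c g - (n : ℝ) • v)) +
          (n : ℝ) • (π r⁻¹ (π g⁻¹ v) - v)) := by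
      rw [hc, Rel_inv π c hc g, map_neg, map_sub, map_sub, map_smul, map_smul, smul_sub, smul_neg]
      abel
    have h2 : ‖π r⁻¹ (π g⁻¹ v) - v‖ ≤ η / 8 := by
      have h3 : π r⁻¹ (π g⁻¹ v) - v = π r⁻¹ (π g⁻¹ v - π r v) := by
        rw [map_sub]
        have h5 : π r⁻¹ (π r v) = v := by
          have : π (r⁻¹ * r) v = v := by rw [inv_mul_cancel, map_one]; rfl
          rw [map_mul] at this
          exact this
        rw [h5]
      rw [h3, LinearIsometryEquiv.norm_map]
      exact hr5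
    rw [h1]
    refine (norm_sub_le _ _).trans ?_
    have h6 : ‖π r⁻¹ (π g⁻¹ (c g - (n : ℝ) • v)) + (n : ℝ) • (π r⁻¹ (π g⁻¹ v) - v)‖ ≤
        η / 8 * n + n * (η / 8) := by
      refine (norm_add_le _ _).trans (add_le_add ?_ ?_)
      · rw [LinearIsometryEquiv.norm_map, LinearIsometryEquiv.norm_map]
        exact hg2
      · rw [norm_smul, Real.norm_of_nonneg hn0]
        exact mul_le_mul_of_nonneg_left h2 hn0
    linarith only [h6, hηn, hr4, hnR]

/-- the realized vectors form a subspace -/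
theorem exists_relSpace (hS : SymGen S) (π : H →* (V ≃ₗᵢ[ℝ] V)) (c : H → V)
    (hc : IsCocycle π c) :
    ∃ B : Submodule ℝ V, ∀ v, v ∈ B ↔ TB π v ∧ ∃ ρ : ℝ, 0 ≤ ρ ∧ Rel S c v ρ := by
  refine ⟨{ carrier := {v | TB π v ∧ ∃ ρ : ℝ, 0 ≤ ρ ∧ Rel S c v ρ}
            add_mem' := ?_, zero_mem' := ?_, smul_mem' := ?_ }, fun v => Iff.rfl⟩
  · rintro v w ⟨hv, ρ, hρ, h⟩ ⟨hw, σ, hσ, h'⟩
    exact ⟨TB_add π hv hw, ρ + σ, add_nonneg hρ hσ, rel_add hS π c hc hw h h'⟩
  · refine ⟨fun η hη => ⟨{1}, fun g => ⟨1, Finset.mem_singleton_self _, ?_⟩⟩, 0, le_rfl,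
      fun η hη => ⟨0, fun n _ => ⟨1, ?_, ?_⟩⟩⟩
    · rw [map_zero, map_zero, sub_zero, norm_zero]
      exact hη.le
    · rw [len_one]
      have : (0 : ℝ) ≤ n := Nat.cast_nonneg _
      push_cast
      linarith only [mul_nonneg (le_of_lt (sub_pos.2 hη)) (sub_nonneg.2 this)]
    · rw [Rel_one π c hc, smul_zero, sub_zero, norm_zero]
      (clear * - hη; positivity)
  · rintro a v ⟨hv, ρ, hρ, h⟩
    refine ⟨TB_smul π hv a, ?_⟩
    rcases le_total 0 a with ha | ha
    · exact ⟨a * ρ, mul_nonneg ha hρ, rel_smul c hρ h ha (Rel_one π c hc)⟩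
    · refine ⟨-a * ρ, mul_nonneg (neg_nonneg.mpr ha) hρ, ?_⟩
      have h1 := rel_smul c hρ (rel_neg hS π c hc hv hρ h) (neg_nonneg.mpr ha) (Rel_one π c hc)
      rwa [neg_smul_neg] at h1

end Rep

end Vale.Agent.P188.SG
end
end
end

section

section

section

/-! P188, Theorem S+: linear growth in every direction of a finite-dimensional subspace. -/

universe u v w

open Filter Topology Pointwise

namespace Vale.Agent.P188.SG

section Rep

variable {H : Type u} [Group H] {S : Finset H}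
variable {V : Type v} [NormedAddCommGroup V] [InnerProductSpace ℝ V]

theorem Greedy_one (π : H →* (V ≃ₗᵢ[ℝ] V)) (c : H → V) (hc : IsCocycle π c) : c 1 = 0 := by
  have h := hc 1 1
  rw [mul_one, map_one] at h
  have h2 : c 1 = c 1 + c 1 := h
  have h3 := add_eq_left.1 h2.symm
  exact h3

/-- adjointness -/
theorem Greedy_adj (π : H →* (V ≃ₗᵢ[ℝ] V)) (g : H) (x w : V) :
    inner ℝ (π g x) w = inner ℝ x (π g⁻¹ w) := by
  have h : w = π g (π g⁻¹ w) := by
    have h1 : π (g * g⁻¹) w = π g (π g⁻¹ w) := by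
      rw [map_mul]
      rfl
    rw [← h1, mul_inv_cancel, map_one]
    rfl
  conv_lhs => rw [h]
  exact LinearIsometryEquiv.inner_map_map (π g) x (π g⁻¹ w)

/-- a harmonic nonpositive function vanishing at one is zero -/
theorem Greedy_harm (hS : SymGen S) (φ : H → ℝ) (h1 : φ 1 = 0) (h0 : ∀ g, φ g ≤ 0)
    (hh : ∀ g, ∑ s ∈ S, φ (g * s) = S.card * φ g) (g : H) : φ g = 0 := by
  have step : ∀ x, φ x = 0 → ∀ s ∈ S, φ (x * s) = 0 := by
    intro x hx s hs
    have h2 := hh x
    rw [hx, mul_zero] at h2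
    exact (Finset.sum_eq_zero_iff_of_nonpos fun s _ => h0 (x * s)).1 h2 s hs
  have key : ∀ g ∈ Subgroup.closure (S : Set H),
      (∀ x, φ x = 0 → φ (x * g) = 0) ∧ ∀ x, φ x = 0 → φ (x * g⁻¹) = 0 := by
    intro g hg
    induction hg using Subgroup.closure_induction with
    | mem s hs =>
      exact ⟨fun x hx => step x hx s hs, fun x hx => step x hx s⁻¹ (hS.inv s hs)⟩
    | one =>
      refine ⟨fun x hx => ?_, fun x hx => ?_⟩
      · rw [mul_one]; exact hx
      · rw [inv_one, mul_one]; exact hx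
    | mul a b _ _ ha hb =>
      refine ⟨fun x hx => ?_, fun x hx => ?_⟩
      · rw [← mul_assoc]
        exact hb.1 _ (ha.1 x hx)
      · rw [mul_inv_rev, ← mul_assoc]
        exact ha.2 _ (hb.2 x hx)
    | inv a _ ha =>
      refine ⟨ha.2, fun x hx => ?_⟩
      rw [inv_inv]
      exact ha.1 x hx
  have h3 := (key g (by rw [hS.gen]; exact Subgroup.mem_top g)).1 1 h1
  rwa [one_mul] at h3

theorem Greedy_pos (hS : SymGen S) (π : H →* (V ≃ₗᵢ[ℝ] V)) (c : H → V) (hc : IsCocycle π c)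
    (hh : ∑ s ∈ S, c s = 0) (w : V) (hw : ∃ g, inner ℝ (c g) w ≠ 0) :
    ∃ r, 0 < inner ℝ (c r) w := by
  by_contra hcon
  push Not at hcon
  obtain ⟨g, hg⟩ := hw
  refine hg (Greedy_harm hS (fun g => inner ℝ (c g) w) ?_ hcon (fun g => ?_) g)
  · change inner ℝ (c 1) w = 0
    rw [Greedy_one π c hc, inner_zero_left]
  · change ∑ s ∈ S, inner ℝ (c (g * s)) w = S.card * inner ℝ (c g) w
    have h1 : ∀ s ∈ S, inner ℝ (c (g * s)) w = inner ℝ (c g) w + inner ℝ (c s) (π g⁻¹ w) := by
      intro s _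
      rw [hc g s, inner_add_left, Greedy_adj]
    rw [Finset.sum_congr rfl h1, Finset.sum_add_distrib, Finset.sum_const, nsmul_eq_mul,
      ← sum_inner, hh, inner_zero_left, add_zero]

variable [CompleteSpace V]

/-- in a finite-dimensional invariant subspace on which no vector is orthogonal to `c`, linear growth
in every direction -/
theorem greedy (hS : SymGen S) (π : H →* (V ≃ₗᵢ[ℝ] V)) (c : H → V) (hc : IsCocycle π c)
    (hh : ∑ s ∈ S, c s = 0) (W : Submodule ℝ V) (hW : FiniteDimensional ℝ W) (hi : Inv π W)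
    (hn : ∀ w ∈ W, w ≠ 0 → ∃ g, inner ℝ (c g) w ≠ 0) :
    ∃ (R : ℕ) (a : ℝ), 0 < a ∧ ∀ w ∈ W, ‖w‖ = 1 → ∀ m : ℕ, ∃ p : H, len S p ≤ R * m ∧
      a * m ≤ inner ℝ (c p) w := by
  have hR : ∃ n : ℕ, ∀ w : W, ‖w‖ = 1 → ∃ r : H, len S r ≤ n ∧
      1 / ((n : ℝ) + 1) ≤ inner ℝ (c r) (w : V) := by
    by_contra hcon
    push Not at hcon
    choose w hw1 hw2 using hcon
    have hmem : ∀ n, w n ∈ Metric.sphere (0 : W) 1 := fun n => by
      rw [mem_sphere_zero_iff_norm]
      exact hw1 n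
    obtain ⟨w₀, hw₀, ψ, hψ, hlim⟩ := (isCompact_sphere (0 : W) 1).tendsto_subseq hmem
    have hw₀1 : ‖(w₀ : V)‖ = 1 := by
      rw [mem_sphere_zero_iff_norm] at hw₀
      exact hw₀
    have hne : (w₀ : V) ≠ 0 := by
      intro h
      rw [h, norm_zero] at hw₀1
      exact zero_ne_one hw₀1
    obtain ⟨r, hr⟩ := Greedy_pos hS π c hc hh (w₀ : V) (hn _ w₀.2 hne)
    have hcont : Tendsto (fun n => inner ℝ (c r) ((w (ψ n) : W) : V)) atTop
        (𝓝 (inner ℝ (c r) (w₀ : V))) := by
      have h1 : Continuous fun x : W => inner ℝ (c r) (x : V) :=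
        continuous_const.inner continuous_subtype_val
      exact (h1.tendsto w₀).comp hlim
    have h2 : Tendsto (fun n : ℕ => 1 / (((ψ n : ℕ) : ℝ) + 1)) atTop (𝓝 0) :=
      tendsto_one_div_add_atTop_nhds_zero_nat.comp hψ.tendsto_atTop
    have h3 : ∀ᶠ n in atTop, inner ℝ (c r) ((w (ψ n) : W) : V) < 1 / (((ψ n : ℕ) : ℝ) + 1) := by
      filter_upwards [eventually_ge_atTop (len S r)] with n hn'
      exact hw2 (ψ n) r (hn'.trans (hψ.id_le n))
    have h4 : inner ℝ (c r) (w₀ : V) ≤ 0 :=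
      le_of_tendsto_of_tendsto hcont h2 (h3.mono fun n h => h.le)
    exact absurd hr (not_lt.2 h4)
  obtain ⟨R, hR⟩ := hR
  have ha : (0 : ℝ) < 1 / ((R : ℝ) + 1) := by (clear * -; positivity)
  refine ⟨R, 1 / ((R : ℝ) + 1), ha, fun w hw hw1 m => ?_⟩
  induction m with
  | zero =>
    refine ⟨1, ?_, ?_⟩
    · rw [len_one]
      exact Nat.zero_le _
    · rw [Greedy_one π c hc, inner_zero_left, Nat.cast_zero, mul_zero]
  | succ m ih =>
    obtain ⟨p, hp1, hp2⟩ := ih
    have hw' : π p⁻¹ w ∈ W := hi p⁻¹ w hw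
    have hw1' : ‖π p⁻¹ w‖ = 1 := by rw [LinearIsometryEquiv.norm_map, hw1]
    obtain ⟨r, hr1, hr2⟩ := hR ⟨π p⁻¹ w, hw'⟩ hw1'
    refine ⟨p * r, ?_, ?_⟩
    · have h1 := len_mul_le hS.gen p r
      rw [mul_add, mul_one]
      omega
    · rw [hc p r, inner_add_left, Greedy_adj]
      change 1 / ((R : ℝ) + 1) ≤ inner ℝ (c r) (π p⁻¹ w) at hr2
      push_cast
      linarith only [hr2, hp2]

end Rep

end Vale.Agent.P188.SG
end
end
end

section

section

section

/-!
P188, Theorem S+: the affine isometric action on the span of a harmonic cocycle has cobounded orbits.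
-/

universe u v

open Filter Topology

namespace Vale.Agent.P188.SG

section Rep

variable {H : Type u} [Group H] {S : Finset H}
variable {V : Type v} [NormedAddCommGroup V] [InnerProductSpace ℝ V] [CompleteSpace V]

/-- the values of a harmonic cocycle are cobounded in their finite-dimensional span -/
theorem Cob_exists (hS : SymGen S) (π : H →* (V ≃ₗᵢ[ℝ] V)) (c : H → V) (hc : IsCocycle π c)
    (hh : ∑ s ∈ S, c s = 0) (W : Submodule ℝ V) (hW : FiniteDimensional ℝ W) (hi : Inv π W)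
    (hcW : ∀ g, c g ∈ W) (hn : ∀ w ∈ W, w ≠ 0 → ∃ g, inner ℝ (c g) w ≠ 0) :
    ∃ D : ℝ, ∀ w ∈ W, ∃ g, ‖c g - w‖ ≤ D := by
  obtain ⟨R, a, ha, hR⟩ := greedy hS π c hc hh W hW hi hn
  have h0 : 0 ≤ ∑ s ∈ S, ‖c s‖ := Finset.sum_nonneg fun s _ => norm_nonneg _
  set L : ℝ := ∑ s ∈ S, ‖c s‖ with hL
  have hLip : ∀ g, ‖c g‖ ≤ L * len S g := fun g => fd_norm_le_len hS π c hc h0
    (fun s hs => Finset.single_le_sum (f := fun s => ‖c s‖) (fun s _ => norm_nonneg _) hs) g
  set Q : ℝ := (L * R) ^ 2 with hQ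
  have hQ0 : 0 ≤ Q := sq_nonneg _
  refine ⟨(Q + a ^ 2) / a, fun w hw => ?_⟩
  by_contra hcon
  push Not at hcon
  -- the infimum of the distances
  set I : ℝ := sInf (Set.range fun g => ‖c g - w‖) with hI
  have hbdd : BddBelow (Set.range fun g => ‖c g - w‖) :=
    ⟨0, by rintro _ ⟨g, rfl⟩; exact norm_nonneg _⟩
  obtain ⟨x, ⟨g, rfl⟩, hg⟩ := exists_lt_of_csInf_lt (Set.range_nonempty fun g => ‖c g - w‖)
    (show I < I + a / 2 by linarith only [ha])
  have hg' : ‖c g - w‖ < I + a / 2 := hg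
  set x : V := w - c g with hx
  have hxW : x ∈ W := W.sub_mem hw (hcW g)
  have hxn : (Q + a ^ 2) / a < ‖x‖ := by
    have := hcon g
    rwa [norm_sub_rev] at this
  have hxpos : 0 < ‖x‖ := lt_of_le_of_lt (by (clear * - ha; (clear * - ha; positivity))) hxn
  have hx1 : ‖x‖ < I + a / 2 := by rwa [hx, norm_sub_rev]
  -- the rotated unit vector
  have huW : π g⁻¹ ((‖x‖)⁻¹ • x) ∈ W := hi _ _ (W.smul_mem _ hxW)
  have hu1 : ‖π g⁻¹ ((‖x‖)⁻¹ • x)‖ = 1 := by
    rw [LinearIsometryEquiv.norm_map, norm_smul, norm_inv, norm_norm,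
      inv_mul_cancel₀ hxpos.ne']
  obtain ⟨r, hr, hra⟩ := hR _ huW hu1 1
  rw [Nat.cast_one, mul_one] at hra
  rw [mul_one] at hr
  have hin : a * ‖x‖ ≤ inner ℝ (π g (c r)) x := by
    have h2 : inner ℝ (c r) (π g⁻¹ ((‖x‖)⁻¹ • x)) = (‖x‖)⁻¹ * inner ℝ (π g (c r)) x := by
      rw [map_smul, inner_smul_right, Greedy_adj]
    rw [h2] at hra
    have h3 := mul_le_mul_of_nonneg_right hra hxpos.le
    rwa [mul_comm (‖x‖)⁻¹, mul_assoc, inv_mul_cancel₀ hxpos.ne', mul_one] at h3
  have hcr : ‖c r‖ ^ 2 ≤ Q := by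
    have h4 : ‖c r‖ ≤ L * R := (hLip r).trans
      (mul_le_mul_of_nonneg_left (by exact_mod_cast hr) h0)
    exact pow_le_pow_left₀ (norm_nonneg _) h4 2
  have hnew : I ≤ ‖c (g * r) - w‖ := csInf_le hbdd ⟨g * r, rfl⟩
  have hI0 : 0 ≤ I := le_csInf (Set.range_nonempty _)
    (by rintro _ ⟨g, rfl⟩; exact norm_nonneg _)
  have h5 : ‖c (g * r) - w‖ ^ 2 = ‖x‖ ^ 2 - 2 * inner ℝ (π g (c r)) x + ‖c r‖ ^ 2 := by
    rw [hc g r]
    have : c g + π g (c r) - w = π g (c r) - x := by rw [hx]; abel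
    rw [this, norm_sub_sq_real, LinearIsometryEquiv.norm_map]
    ring
  have h6 : I ^ 2 ≤ ‖c (g * r) - w‖ ^ 2 := pow_le_pow_left₀ hI0 hnew 2
  have h7 : Q + a ^ 2 < a * ‖x‖ := by
    rw [div_lt_iff₀ ha] at hxn
    linarith only [hxn]
  have h8 : I ^ 2 ≤ ‖x‖ ^ 2 - 2 * (a * ‖x‖) + Q := by
    rw [h5] at h6
    linarith only [h6, hcr, hin]
  have h9 : a < ‖x‖ := by
    by_contra h
    have h10 : a * ‖x‖ ≤ a * a := mul_le_mul_of_nonneg_left (not_lt.1 h) ha.le
    linarith only [h10, h7, hQ0]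
  have h11 : (‖x‖ - a / 2) ^ 2 ≤ I ^ 2 :=
    pow_le_pow_left₀ (by linarith only [h9, ha]) (by linarith only [hx1]) 2
  linarith only [mul_nonneg (le_of_lt (sub_pos.2 h9)) (sub_nonneg.2 h11), mul_nonneg (sub_nonneg.2 h8) (le_of_lt (sub_pos.2 h9)), mul_pos (sub_pos.2 h7) (sub_pos.2 h9), mul_pos (sub_pos.2 ha) (sub_pos.2 h7), mul_nonneg (le_of_lt (sub_pos.2 ha)) (sub_nonneg.2 hQ0)]

end Rep

end Vale.Agent.P188.SG
end
end
end

section

section

section

/-!
P188, Theorem S+: word length of products of short elements whose partial products have bounded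
displacement of `co θ ∘ F`.
-/

universe u v w

open Filter Topology Pointwise

namespace Vale.Agent.P188.SG

section Exc

variable {H : Type u} [Group H] {S : Finset H}

/-- concatenation of geodesics -/
lemma Exc_path (hS : Subgroup.closure (S : Set H) = ⊤) {M : ℝ} (l : List H)
    (hl : ∀ x ∈ l, (len S x : ℝ) ≤ M) (hM : 0 ≤ M) :
    ∃ (L : ℕ) (q : ℕ → H), q 0 = 1 ∧ q L = l.prod ∧ (L : ℝ) ≤ l.length * M ∧
      (∀ i, len S ((q i)⁻¹ * q (i + 1)) ≤ 1) ∧
      ∀ i, ∃ j ≤ l.length, (len S ((l.take j).prod⁻¹ * q i) : ℝ) ≤ M := by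
  have len_one' : len S (1 : H) = 0 := by
    have h1 : len S (1 : H) ≤ 0 := by
      unfold len wordDist
      exact Nat.sInf_le ⟨[], rfl, by simp, by simp⟩
    omega
  induction l with
  | nil =>
    refine ⟨0, fun _ => 1, rfl, by simp, by simp, fun i => by simp only [inv_one, mul_one, len_one', zero_le], fun i => ?_⟩
    exact ⟨0, le_rfl, by simp only [List.take_nil, List.prod_nil, inv_one, mul_one, len_one', CharP.cast_eq_zero, hM]⟩
  | cons x l ih =>
    obtain ⟨L, q, hq0, hqL, hLM, hst, hnear⟩ := ih fun z hz => hl z (List.mem_cons_of_mem _ hz)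
    obtain ⟨p, hp0, hpx, hpst, hplen, _⟩ := exists_path hS x
    have hx := hl x List.mem_cons_self
    refine ⟨len S x + L, fun i => if i < len S x then p i else x * q (i - len S x), ?_, ?_, ?_,
      ?_, ?_⟩
    · by_cases h0 : 0 < len S x
      · simp [h0, hp0]
      · have h1 : len S x = 0 := by omega
        have h2 : x = 1 := by rw [← hpx, h1, hp0]
        have h3 : ¬ (0 < len S x) := h0
        simp only [h3, if_false]
        rw [h1, Nat.sub_zero, hq0, h2, mul_one]
    · have h1 : ¬ (len S x + L < len S x) := by omega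
      simp only [h1, if_false]
      rw [Nat.add_sub_cancel_left, hqL, List.prod_cons]
    · rw [List.length_cons]
      push_cast
      have h1 : ((l.length : ℝ) + 1) * M = l.length * M + M := by ring
      rw [h1]
      linarith only [hLM, hx]
    · intro i
      by_cases h1 : i + 1 < len S x
      · have h2 : i < len S x := by omega
        simp only [h1, h2, if_true]
        exact hpst i
      · by_cases h2 : i < len S x
        · have h3 : i + 1 = len S x := by omega
          have h4 : i + 1 - len S x = 0 := by omega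
          simp only [h1, h2, if_true, if_false]
          rw [h4, hq0, mul_one]
          conv_lhs => rw [← hpx, ← h3]
          exact hpst i
        · have h3 : i + 1 - len S x = (i - len S x) + 1 := by omega
          simp only [h1, h2, if_false]
          rw [h3]
          have h4 : (x * q (i - len S x))⁻¹ * (x * q (i - len S x + 1)) =
              (q (i - len S x))⁻¹ * q (i - len S x + 1) := by group
          rw [h4]
          exact hst _
    · intro i
      by_cases h1 : i < len S x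
      · refine ⟨0, Nat.zero_le _, ?_⟩
        simp only [h1, if_true, List.take_zero, List.prod_nil, inv_one, one_mul]
        exact le_trans (by exact_mod_cast hplen i) hx
      · obtain ⟨j, hj, hj'⟩ := hnear (i - len S x)
        refine ⟨j + 1, by simpa only [List.length_cons, add_le_add_iff_right] using hj, ?_⟩
        simp only [h1, if_false, List.take_succ_cons, List.prod_cons]
        have h4 : (x * (List.take j l).prod)⁻¹ * (x * q (i - len S x)) =
            (List.take j l).prod⁻¹ * q (i - len S x) := by group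
        rw [h4]
        exact hj'

end Exc

theorem excursion_len {H : Type u} [Group H] {S : Finset H} {G : Type v} [Group G] {k : ℕ}
    {θ : G →* Multiplicative (Fin k → ℤ)} {A T : Finset G}
    (h : ExpExt θ A T) (hS : Subgroup.closure (S : Set H) = ⊤)
    (K C : ℝ) (hK : 1 ≤ K) (hC : 0 ≤ C) (F : H → G)
    (hq : IsQuasiIsometry (wordDist (S : Set H)) (wordDist (T : Set G)) K C F) :
    ∃ C₁ : ℝ, 0 ≤ C₁ ∧ ∀ (M E : ℝ) (y : H) (l : List H), 0 ≤ M → 0 ≤ E →
      (∀ x ∈ l, (len S x : ℝ) ≤ M) →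
      (∀ l' : List H, l' <+: l → ∀ i,
        |co θ (F (y * l'.prod)) i - co θ (F y) i| ≤ E) →
      (len S l.prod : ℝ) ≤ C₁ * (1 + M + E + Real.log (1 + l.length * M)) := by
  obtain ⟨Lc, hLc, hLip⟩ := co_lip h
  obtain ⟨Cp, hCp, hpath⟩ := path_lemma h ⌊K + C⌋₊
  have hK0 : 0 < K := by linarith only [hK]
  -- the quasi-isometry in terms of `len`
  have hup : ∀ y x : H, (len T ((F y)⁻¹ * F (y * x)) : ℝ) ≤ K * len S x + C := by
    intro y x
    have h2 := (hq.1 y (y * x)).2
    rw [wordDist_eq_len, wordDist_eq_len, inv_mul_cancel_left] at h2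
    exact h2
  have hlow : ∀ y x : H, K⁻¹ * (len S x : ℝ) - C ≤ (len T ((F y)⁻¹ * F (y * x)) : ℝ) := by
    intro y x
    have h2 := (hq.1 y (y * x)).1
    rw [wordDist_eq_len, wordDist_eq_len, inv_mul_cancel_left] at h2
    exact h2
  have hco : ∀ (y x : H) (i : Fin k),
      |co θ (F (y * x)) i - co θ (F y) i| ≤ Lc * (K * len S x + C) := by
    intro y x i
    have h1 := hLip (F y) ((F y)⁻¹ * F (y * x)) i
    rw [mul_inv_cancel_left] at h1
    exact h1.trans (mul_le_mul_of_nonneg_left (hup y x) hLc)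
  refine ⟨K * (Cp * (1 + Lc * C + Lc * K) + C), by (clear * - hK hCp hLc hC; (clear * - hK hCp hLc hC; positivity)), ?_⟩
  intro M E y l hM hE0 hlM hdisp'
  set w : ℕ → H := fun j => (l.take j).prod with hw
  have hdisp : ∀ j i, |co θ (F (y * w j)) i - co θ (F y) i| ≤ E := fun j i =>
    hdisp' _ (List.take_prefix j l) i
  -- the path
  obtain ⟨L, q, hq0, hqL, hLM, hst, hnear⟩ := Exc_path hS l hlM hM
  have hE : 0 ≤ E + Lc * (K * M + C) := by (clear * - hE0 hLc hK hM hC; positivity)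
  have key := hpath L (E + Lc * (K * M + C)) (fun i => F (y * q i)) hE ?_ ?_
  · rw [hq0, mul_one, hqL] at key
    have h1 := (hlow y l.prod).trans key
    have hlog : Real.log (1 + L) ≤ Real.log (1 + l.length * M) :=
      Real.log_le_log (by (clear * -; positivity)) (by linarith only [hLM])
    have hlog0 : 0 ≤ Real.log (1 + l.length * M) := Real.log_nonneg (by
      have : (0 : ℝ) ≤ l.length * M := by (clear * - hM; positivity)
      linarith only [this])
    set lg := Real.log (1 + l.length * M) with hlg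
    have h2 : Cp * (1 + (E + Lc * (K * M + C)) + Real.log (1 + L)) ≤
        Cp * (1 + (E + Lc * (K * M + C)) + lg) :=
      mul_le_mul_of_nonneg_left (by linarith only [hlog]) hCp
    have h3 : (len S l.prod : ℝ) ≤ K * (Cp * (1 + (E + Lc * (K * M + C)) + lg) + C) := by
      have h4 : K⁻¹ * (len S l.prod : ℝ) ≤ Cp * (1 + (E + Lc * (K * M + C)) + lg) + C := by
        linarith only [h2, h1]
      have h5 := mul_le_mul_of_nonneg_left h4 hK0.le
      rwa [mul_inv_cancel_left₀ hK0.ne'] at h5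
    refine h3.trans ?_
    rw [mul_assoc]
    refine mul_le_mul_of_nonneg_left ?_ hK0.le
    set s := 1 + M + E + lg with hs
    have hs1 : 1 ≤ s := by linarith only [hlog0, hE0, hM]
    have hsM : M ≤ s := by linarith only [hlog0, hE0]
    have e1 : 1 + (E + Lc * (K * M + C)) + lg ≤ (1 + Lc * C + Lc * K) * s := by
      have e2 : Lc * C ≤ Lc * C * s := le_mul_of_one_le_right (by (clear * - hLc hC; positivity)) hs1
      have e3 : Lc * K * M ≤ Lc * K * s := mul_le_mul_of_nonneg_left hsM (by (clear * - hLc hK; positivity))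
      have e4 : (1 + Lc * C + Lc * K) * s = s + Lc * C * s + Lc * K * s := by ring
      have e5 : Lc * (K * M + C) = Lc * K * M + Lc * C := by ring
      rw [e4, e5]
      linarith only [e3, e2, hM]
    have e2 : Cp * (1 + (E + Lc * (K * M + C)) + lg) ≤ Cp * ((1 + Lc * C + Lc * K) * s) :=
      mul_le_mul_of_nonneg_left e1 hCp
    have e3 : C ≤ C * s := le_mul_of_one_le_right hC hs1
    calc Cp * (1 + (E + Lc * (K * M + C)) + lg) + C
        ≤ Cp * ((1 + Lc * C + Lc * K) * s) + C * s := add_le_add e2 e3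
      _ = (Cp * (1 + Lc * C + Lc * K) + C) * s := by ring
  · intro i _
    refine Nat.le_floor ?_
    have h1 := hup (y * q i) ((q i)⁻¹ * q (i + 1))
    rw [mul_assoc y, mul_inv_cancel_left] at h1
    refine h1.trans ?_
    have h2 : (len S ((q i)⁻¹ * q (i + 1)) : ℝ) ≤ 1 := by exact_mod_cast hst i
    have h3 : K * (len S ((q i)⁻¹ * q (i + 1)) : ℝ) ≤ K * 1 := mul_le_mul_of_nonneg_left h2 hK0.le
    linarith only [h3]
  · intro i _ j
    rw [hq0, mul_one]
    obtain ⟨m, hm, hm'⟩ := hnear i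
    have h1 := hdisp m j
    have h2 := hco (y * w m) ((w m)⁻¹ * q i) j
    rw [mul_assoc y, mul_inv_cancel_left] at h2
    have h3 : Lc * (K * (len S ((w m)⁻¹ * q i) : ℝ) + C) ≤ Lc * (K * M + C) := by
      refine mul_le_mul_of_nonneg_left ?_ hLc
      have := mul_le_mul_of_nonneg_left hm' hK0.le
      linarith only [this]
    have h4 : co θ (F (y * q i)) j - co θ (F y) j =
        (co θ (F (y * w m)) j - co θ (F y) j) +
        (co θ (F (y * q i)) j - co θ (F (y * w m)) j) := by ring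
    rw [h4]
    refine (abs_add_le _ _).trans ?_
    linarith only [h1, h2, h3]

end Vale.Agent.P188.SG
end
end
end

section

section

section

/-!
P188, Theorem S: the recursion for the word length on the kernel.
-/

set_option linter.all false

universe u v w

open Filter Topology Pointwise

namespace Vale.Agent.P188.SG

section Rec

variable {H : Type u} [Group H] {S : Finset H}
variable {G : Type v} [Group G] {k : ℕ} {θ : G →* Multiplicative (Fin k → ℤ)} {A T : Finset G}

/-- powers of a subset of a subgroup -/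
lemma Rec2_pow_subset {N : Subgroup H} {B : Set H} (hB : B ⊆ N) :
    ∀ (j : ℕ), ∀ x ∈ B ^ j, x ∈ N := by
  intro j
  induction j with
  | zero =>
    intro x hx
    rw [pow_zero, Set.mem_one] at hx
    rw [hx]
    exact N.one_mem
  | succ j ih =>
    intro x hx
    rw [pow_succ, Set.mem_mul] at hx
    obtain ⟨y, hy, z, hz, rfl⟩ := hx
    exact N.mul_mem (ih y hy) (hB hz)

/-- a product of at most `n * m` elements is a product of `n` products of at most `m` elements -/
lemma Rec2_split (B : Set H) (m : ℕ) : ∀ (n i : ℕ), i ≤ n * m → ∀ x ∈ B ^ i,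
    ∃ l : List H, l.length = n ∧ l.prod = x ∧ ∀ y ∈ l, ∃ j ≤ m, y ∈ B ^ j := by
  intro n
  induction n with
  | zero =>
    intro i hi x hx
    have h0 : i = 0 := by omega
    subst h0
    rw [pow_zero, Set.mem_one] at hx
    exact ⟨[], rfl, by simp [hx], by simp only [List.not_mem_nil, IsEmpty.forall_iff, implies_true]⟩
  | succ n ih =>
    intro i hi x hx
    by_cases h : i ≤ m
    · refine ⟨x :: List.replicate n 1, by simp, by simp only [List.prod_cons, List.prod_replicate, one_pow, mul_one], ?_⟩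
      intro y hy
      rcases List.mem_cons.mp hy with rfl | hy
      · exact ⟨i, h, hx⟩
      · refine ⟨0, Nat.zero_le _, ?_⟩
        rw [List.eq_of_mem_replicate hy, pow_zero]
        exact Set.one_mem_one
    · have h1 : i = m + (i - m) := by omega
      have h2 : i - m ≤ n * m := by
        rw [Nat.succ_mul] at hi
        omega
      rw [h1, pow_add, Set.mem_mul] at hx
      obtain ⟨y, hy, z, hz, rfl⟩ := hx
      obtain ⟨l, hl1, hl2, hl3⟩ := ih (i - m) h2 z hz
      refine ⟨y :: l, by simp [hl1], by simp [hl2], ?_⟩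
      intro w hw
      rcases List.mem_cons.mp hw with rfl | hw
      · exact ⟨m, le_rfl, hy⟩
      · exact hl3 w hw

/-- the numerical recursion -/
lemma Rec2_step {C₁ a M : ℝ} {n : ℕ} (hC₁ : 0 ≤ C₁) (ha : 0 ≤ a) (hM : 0 ≤ M) (hn : 1 ≤ n) :
    C₁ * (1 + M + n * ((n : ℝ)⁻¹ * M + a) + Real.log (1 + n * M)) ≤
      (3 * C₁ + 2) * (M + C₁ * (1 + n * a + Real.log n)) - C₁ * (1 + n * a + Real.log n) := by
  have hn0 : (0 : ℝ) < n := by exact_mod_cast hn
  have hn1 : (1 : ℝ) ≤ n := by exact_mod_cast hn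
  have h1 : (n : ℝ) * ((n : ℝ)⁻¹ * M + a) = M + n * a := by
    field_simp
  have h2 : Real.log (1 + n * M) ≤ Real.log n + M := by
    have h3 : 1 + n * M ≤ n * (1 + M) := by linarith only [hn1]
    have h4 : (0 : ℝ) < 1 + n * M := by (clear * - hn hM; positivity)
    have h5 : Real.log (1 + M) ≤ M := by
      have := Real.log_le_sub_one_of_pos (show (0 : ℝ) < 1 + M by linarith only [hM])
      linarith only [this]
    calc Real.log (1 + n * M) ≤ Real.log (n * (1 + M)) := Real.log_le_log h4 h3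
      _ = Real.log n + Real.log (1 + M) := Real.log_mul hn0.ne' (by positivity)
      _ ≤ Real.log n + M := by linarith only [h5]
  have hlog : 0 ≤ Real.log n := Real.log_nonneg hn1
  rw [h1]
  set c : ℝ := C₁ * (1 + n * a + Real.log n) with hc
  have hc0 : 0 ≤ c := by (clear * - hC₁ hn ha; positivity)
  have h6 : C₁ * (1 + M + (M + n * a) + Real.log (1 + n * M)) ≤ 3 * C₁ * M + c := by
    have h7 : 1 + M + (M + n * a) + Real.log (1 + n * M) ≤
        3 * M + (1 + n * a + Real.log n) := by linarith only [h2]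
    calc C₁ * (1 + M + (M + n * a) + Real.log (1 + n * M))
        ≤ C₁ * (3 * M + (1 + n * a + Real.log n)) := mul_le_mul_of_nonneg_left h7 hC₁
      _ = 3 * C₁ * M + c := by rw [hc]; ring
  have h8 : 0 ≤ C₁ * c := mul_nonneg hC₁ hc0
  linarith only [h8, h6, hM]

theorem kernel_len (h : ExpExt θ A T) (hS : Subgroup.closure (S : Set H) = ⊤)
    (K C : ℝ) (hK : 1 ≤ K) (hC : 0 ≤ C) (F : H → G)
    (hq : IsQuasiIsometry (wordDist (S : Set H)) (wordDist (T : Set G)) K C F)
    (μ : (H → ℝ) → ℝ) (hμ : IsMean μ)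
    (hinv : ∀ (g : H) (f : H → ℝ), Bdd f → μ (fun x => f (x * g)) = μ f)
    (α : ℝ) (hα : 0 < α) :
    ∃ ε : ℝ, 0 < ε ∧ ∀ (N : Subgroup H) (C' : ℝ),
      (∀ x ∈ N, μ (fun y => ∑ i, (co θ (F (y * x)) i - co θ (F y) i) ^ 2) ≤
        (ε * len S x + C') ^ 2) →
      ∀ B : Set H, B.Finite → B ⊆ N → ∃ D : ℝ, ∀ (m : ℕ), ∀ x ∈ B ^ m,
        (len S x : ℝ) ≤ D * (m : ℝ) ^ α := by
  obtain ⟨C₁, hC₁, hprod⟩ := product_len h hS K C hK hC F hq μ hμ hinv
  set q : ℝ := 3 * C₁ + 2 with hqdef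
  have hq0 : 0 < q := by (clear * - hC₁; positivity)
  have hq1 : 1 ≤ q := by linarith only [hC₁]
  set n : ℕ := ⌈q ^ α⁻¹⌉₊ + 2 with hn
  have hn2 : 2 ≤ n := by omega
  have hn1 : 1 ≤ n := by omega
  have hn0 : (0 : ℝ) < n := by exact_mod_cast hn1
  have hnq : q ≤ (n : ℝ) ^ α := by
    have h1 : q ^ α⁻¹ ≤ (n : ℝ) := by
      have h2 : q ^ α⁻¹ ≤ (⌈q ^ α⁻¹⌉₊ : ℝ) := Nat.le_ceil _
      have h3 : ((⌈q ^ α⁻¹⌉₊ : ℕ) : ℝ) ≤ (n : ℝ) := by
        rw [hn]; push_cast; linarith only []
      exact h2.trans h3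
    calc q = (q ^ α⁻¹) ^ α := by
          rw [← Real.rpow_mul hq0.le, inv_mul_cancel₀ hα.ne', Real.rpow_one]
      _ ≤ (n : ℝ) ^ α := Real.rpow_le_rpow (by (clear * - hC₁; positivity)) h1 hα.le
  refine ⟨(n : ℝ)⁻¹, by (clear * - hC₁; positivity), fun N C' hN B hB hBN => ?_⟩
  set a : ℝ := |C'| with ha
  have ha0 : 0 ≤ a := abs_nonneg _
  set c : ℝ := C₁ * (1 + n * a + Real.log n) with hc
  have hc0 : 0 ≤ c := by
    have : 0 ≤ Real.log n := Real.log_nonneg (by exact_mod_cast hn1)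
    (clear * - hC₁; positivity)
  -- bound on `B`
  obtain ⟨M₁, hM₁0, hM₁⟩ : ∃ M₁ : ℝ, 0 ≤ M₁ ∧ ∀ x ∈ B, (len S x : ℝ) ≤ M₁ := by
    obtain ⟨M, hM⟩ := (hB.image fun x => (len S x : ℝ)).bddAbove
    refine ⟨max M 0, le_max_right _ _, fun x hx => ?_⟩
    exact (hM (Set.mem_image_of_mem _ hx)).trans (le_max_left _ _)
  -- the recursion
  have key : ∀ j : ℕ, ∀ i ≤ n ^ j, ∀ x ∈ B ^ i,
      (len S x : ℝ) ≤ q ^ j * (M₁ + c) - c := by
    intro j
    induction j with
    | zero =>
      intro i hi x hx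
      rw [pow_zero] at hi
      have hi' : i = 0 ∨ i = 1 := by omega
      rcases hi' with rfl | rfl
      · rw [pow_zero, Set.mem_one] at hx
        rw [hx, len_one]
        simpa only [CharP.cast_eq_zero, pow_zero, one_mul, add_sub_cancel_right, ge_iff_le] using hM₁0
      · rw [pow_one] at hx
        have := hM₁ x hx
        simpa only [pow_zero, one_mul, add_sub_cancel_right, ge_iff_le] using this
    | succ j ih =>
      intro i hi x hx
      have hM0 : 0 ≤ q ^ j * (M₁ + c) - c := by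
        have h1 : 1 ≤ q ^ j := one_le_pow₀ hq1
        linarith only [mul_nonneg (sub_nonneg.2 hM₁0) (sub_nonneg.2 h1), mul_nonneg (sub_nonneg.2 hc0) (sub_nonneg.2 h1), hM₁0]
      set M : ℝ := q ^ j * (M₁ + c) - c with hM
      rw [pow_succ, mul_comm] at hi
      obtain ⟨l, hl1, hl2, hl3⟩ := Rec2_split B (n ^ j) n i hi x hx
      have h1 : (len S l.prod : ℝ) ≤
          C₁ * (1 + M + n * ((n : ℝ)⁻¹ * M + a) + Real.log (1 + n * M)) := by
        refine hprod n M ((n : ℝ)⁻¹ * M + a) l hl1 hM0 (by (clear * - hC₁ hM0; (clear * - hC₁ hM0; positivity))) ?_ ?_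
        · intro y hy
          obtain ⟨t, ht, hyt⟩ := hl3 y hy
          exact ih t ht y hyt
        · intro y hy
          obtain ⟨t, ht, hyt⟩ := hl3 y hy
          refine (hN y (Rec2_pow_subset hBN t y hyt)).trans ?_
          have h2 := ih t ht y hyt
          apply sq_le_sq'
          · have h3 : -a ≤ C' := neg_abs_le C'
            have h4 : 0 ≤ (n : ℝ)⁻¹ * len S y := by (clear * - hC₁; positivity)
            have h5 : 0 ≤ (n : ℝ)⁻¹ * M := by (clear * - hC₁ hM0; positivity)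
            linarith only [h5, h4, h3]
          · have h3 : C' ≤ a := le_abs_self C'
            have h4 : (n : ℝ)⁻¹ * len S y ≤ (n : ℝ)⁻¹ * M :=
              mul_le_mul_of_nonneg_left h2 (by (clear * - hC₁; positivity))
            linarith only [h4, h3]
      rw [hl2] at h1
      refine h1.trans ((Rec2_step hC₁ ha0 hM0 hn1).trans (le_of_eq ?_))
      rw [← hc, ← hqdef, hM, pow_succ]
      ring
  refine ⟨q * (M₁ + c), fun m x hx => ?_⟩
  rcases Nat.eq_zero_or_pos m with rfl | hm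
  · rw [pow_zero, Set.mem_one] at hx
    rw [hx, len_one]
    simp [Real.zero_rpow hα.ne']
  · set j := Nat.log n m with hj
    have h1 : n ^ j ≤ m := Nat.pow_log_le_self n hm.ne'
    have h2 : m < n ^ (j + 1) := Nat.lt_pow_succ_log_self (by omega) m
    have h3 := key (j + 1) m h2.le x hx
    have h4 : q ^ j ≤ (m : ℝ) ^ α := by
      calc q ^ j ≤ ((n : ℝ) ^ α) ^ j := pow_le_pow_left₀ hq0.le hnq j
        _ = ((n : ℝ) ^ j) ^ α := by
            rw [← Real.rpow_natCast, ← Real.rpow_natCast, ← Real.rpow_mul hn0.le,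
              ← Real.rpow_mul hn0.le, mul_comm]
        _ ≤ (m : ℝ) ^ α := by
            refine Real.rpow_le_rpow (by (clear * - hC₁; (clear * - hC₁; positivity))) ?_ hα.le
            exact_mod_cast h1
    have h5 : 0 ≤ M₁ + c := by (clear * - hM₁0 hC₁; (clear * - hM₁0 hC₁; positivity))
    calc (len S x : ℝ) ≤ q ^ (j + 1) * (M₁ + c) - c := h3
      _ ≤ q ^ (j + 1) * (M₁ + c) := by linarith only [hc0]
      _ = q * (M₁ + c) * q ^ j := by rw [pow_succ]; ring
      _ ≤ q * (M₁ + c) * (m : ℝ) ^ α := mul_le_mul_of_nonneg_left h4 (by (clear * - hC₁ hM₁0; positivity))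

end Rec

end Vale.Agent.P188.SG
end
end
end

section

section

attribute [-instance] ProperSMul.toContinuousSMul IsTopologicalTorsor.toContinuousSMul IdemSemiring.toCanonicallyOrderedAdd IdemSemiring.toMulLeftMono IdemSemiring.toMulRightMono AddQuantale.instAddLeftMono AddQuantale.instAddRightMono Quantale.instMulLeftMono Quantale.instMulRightMono FiniteDimensional.rclike_to_real IsScalarTower.complexToReal FiniteDimensional.complexToReal

section

/-!
P188, Theorem S+, Q0b: the Hilbert space of a mean and the cocycle of a coarse map, with the map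
from bounded functions to the Hilbert space and its equivariance.
-/

universe u v w

open Filter Topology

namespace Vale.Agent.P188.SG

section Completion

variable {H : Type u} [Group H] {X₀ : Type v}

/-- An isometric representation with a cocycle on a semi-inner product space extends to the
completion. -/
private theorem meanL2c_completion [SeminormedAddCommGroup X₀] [InnerProductSpace ℝ X₀]
    (ρ : H → X₀ →ₗᵢ[ℝ] X₀) (h1 : ∀ x, ρ 1 x = x)
    (hmul : ∀ g h x, ρ (g * h) x = ρ g (ρ h x)) (b₀ : H → X₀)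
    (hb : ∀ g h, b₀ (g * h) = b₀ g + ρ g (b₀ h)) :
    ∃ (V : Type v) (_ : NormedAddCommGroup V) (_ : InnerProductSpace ℝ V)
      (_ : CompleteSpace V) (π : H →* (V ≃ₗᵢ[ℝ] V)) (b : H → V) (j : X₀ → V), IsCocycle π b ∧
      (∀ h, b h = j (b₀ h)) ∧ (∀ x y, j (x + y) = j x + j y) ∧
      (∀ (a : ℝ) x, j (a • x) = a • j x) ∧ (∀ x, ‖j x‖ = ‖x‖) ∧
      (∀ (v : V) (η : ℝ), 0 < η → ∃ x, ‖v - j x‖ ≤ η) ∧
      (∀ h x, π h (j x) = j (ρ h x)) := by
  let C : H → UniformSpace.Completion X₀ →L[ℝ] UniformSpace.Completion X₀ :=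
    fun h => (ρ h).toContinuousLinearMap.completion
  have hC : ∀ h (x : X₀), C h (x : UniformSpace.Completion X₀) = ((ρ h x : X₀) : _) := fun h x =>
    ContinuousLinearMap.completion_apply_coe _ _
  have hC1 : ∀ x, C 1 x = x := fun x => by
    induction x using UniformSpace.Completion.induction_on with
    | hp => exact isClosed_eq (C 1).continuous continuous_id
    | ih x => rw [hC, h1]
  have hCmul : ∀ g h x, C (g * h) x = C g (C h x) := fun g h x => by
    induction x using UniformSpace.Completion.induction_on with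
    | hp => exact isClosed_eq (C _).continuous ((C g).continuous.comp (C h).continuous)
    | ih x => rw [hC, hC, hC, hmul]
  have hCn : ∀ h x, ‖C h x‖ = ‖x‖ := fun h x => by
    induction x using UniformSpace.Completion.induction_on with
    | hp => exact isClosed_eq (C h).continuous.norm continuous_norm
    | ih x => rw [hC, UniformSpace.Completion.norm_coe, UniformSpace.Completion.norm_coe,
        LinearIsometry.norm_map]
  have hinv1 : ∀ h x, C h (C h⁻¹ x) = x := fun h x => by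
    rw [← hCmul, mul_inv_cancel, hC1]
  have hinv2 : ∀ h x, C h⁻¹ (C h x) = x := fun h x => by
    rw [← hCmul, inv_mul_cancel, hC1]
  let E : H → UniformSpace.Completion X₀ ≃ₗᵢ[ℝ] UniformSpace.Completion X₀ := fun h =>
    { toLinearEquiv := LinearEquiv.ofLinearMap (C h).toLinearMap (C h⁻¹).toLinearMap
        (LinearMap.ext fun x => hinv1 h x) (LinearMap.ext fun x => hinv2 h x)
      norm_map' := fun x => hCn h x }
  have hE : ∀ h x, E h x = C h x := fun h x => rfl
  let π : H →* (UniformSpace.Completion X₀ ≃ₗᵢ[ℝ] UniformSpace.Completion X₀) :=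
    { toFun := E
      map_one' := LinearIsometryEquiv.ext fun x => by rw [hE, hC1]; rfl
      map_mul' := fun g h => LinearIsometryEquiv.ext fun x => by
        rw [hE, hCmul]; rfl }
  refine ⟨UniformSpace.Completion X₀, inferInstance, inferInstance, inferInstance, π,
    fun h => ((b₀ h : X₀) : _), fun x => (x : _), fun g h => ?_, fun h => rfl,
    fun x y => UniformSpace.Completion.coe_add _ _,
    fun a x => UniformSpace.Completion.coe_smul _ _,
    fun x => UniformSpace.Completion.norm_coe _, fun v η hη => ?_, fun h x => hC h x⟩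
  · show ((b₀ (g * h) : X₀) : UniformSpace.Completion X₀) = (b₀ g : _) + C g (b₀ h : _)
    rw [hC, hb, UniformSpace.Completion.coe_add]
  · have hd : DenseRange ((↑) : X₀ → UniformSpace.Completion X₀) :=
      UniformSpace.Completion.denseRange_coe
    obtain ⟨x, hx⟩ := Metric.denseRange_iff.1 hd v η hη
    exact ⟨x, by rw [← dist_eq_norm]; exact hx.le⟩

/-- The same for a positive semidefinite form. -/
private theorem meanL2c_core [AddCommGroup X₀] [Module ℝ X₀] (c : PreInnerProductSpace.Core ℝ X₀)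
    (ρ : H → X₀ →ₗ[ℝ] X₀) (h1 : ∀ x, ρ 1 x = x)
    (hmul : ∀ g h x, ρ (g * h) x = ρ g (ρ h x))
    (hρ : ∀ h x, c.inner (ρ h x) (ρ h x) = c.inner x x) (b₀ : H → X₀)
    (hb : ∀ g h, b₀ (g * h) = b₀ g + ρ g (b₀ h)) :
    ∃ (V : Type v) (_ : NormedAddCommGroup V) (_ : InnerProductSpace ℝ V)
      (_ : CompleteSpace V) (π : H →* (V ≃ₗᵢ[ℝ] V)) (b : H → V) (j : X₀ → V), IsCocycle π b ∧
      (∀ h, b h = j (b₀ h)) ∧ (∀ x y, j (x + y) = j x + j y) ∧
      (∀ (a : ℝ) x, j (a • x) = a • j x) ∧ (∀ x, ‖j x‖ ^ 2 = c.inner x x) ∧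
      (∀ (v : V) (η : ℝ), 0 < η → ∃ x, ‖v - j x‖ ≤ η) ∧
      (∀ h x, π h (j x) = j (ρ h x)) := by
  let i1 : SeminormedAddCommGroup X₀ :=
    @InnerProductSpace.Core.toSeminormedAddCommGroup ℝ X₀ _ _ _ c
  let i2 : InnerProductSpace ℝ X₀ := InnerProductSpace.ofCore c
  have hnorm : ∀ x : X₀, ‖x‖ ^ 2 = c.inner x x := fun x => by
    rw [← real_inner_self_eq_norm_sq]
  obtain ⟨V, j1, j2, j3, π, b, j, hc, hbj, hadd, hsmul, hn, hd, he⟩ :=
    meanL2c_completion (X₀ := X₀)
    (fun h => { toLinearMap := ρ h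
                norm_map' := fun x => by
                  have h2 : ‖ρ h x‖ ^ 2 = ‖x‖ ^ 2 := by rw [hnorm, hnorm, hρ]
                  exact (pow_left_inj₀ (norm_nonneg _) (norm_nonneg _) two_ne_zero).1 h2 })
    h1 hmul b₀ hb
  exact ⟨V, j1, j2, j3, π, b, j, hc, hbj, hadd, hsmul, fun x => by rw [hn, hnorm], hd,
    fun h x => he h x⟩

end Completion

/-- Vector valued functions with bounded coordinates. -/
private def meanL2cX (H : Type u) (k : ℕ) : Submodule ℝ (H → Fin k → ℝ) where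
  carrier := {φ | ∀ i, Bdd (fun y => φ y i)}
  add_mem' := fun ha hb i => (ha i).add (hb i)
  zero_mem' := fun _ => Bdd.const 0
  smul_mem' := fun c _ ha i => (ha i).const_mul c

private lemma meanL2c_bdd_mul {X : Type u} {f g : X → ℝ} (hf : Bdd f) (hg : Bdd g) :
    Bdd (fun x => f x * g x) := by
  obtain ⟨M, hM⟩ := hf
  obtain ⟨N, hN⟩ := hg
  refine ⟨M * N, fun x => ?_⟩
  rw [abs_mul]
  exact mul_le_mul (hM x) (hN x) (abs_nonneg _) ((abs_nonneg _).trans (hM x))

private lemma meanL2c_bdd_sum {X : Type u} {k : ℕ} {f : X → Fin k → ℝ}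
    (hf : ∀ i, Bdd (fun x => f x i)) : Bdd (fun x => ∑ i, f x i) := by
  choose M hM using hf
  refine ⟨∑ i, M i, fun x => (Finset.abs_sum_le_sum_abs _ _).trans ?_⟩
  exact Finset.sum_le_sum fun i _ => hM i x

private lemma meanL2c_bdd {X : Type u} {k : ℕ} {φ ψ : X → Fin k → ℝ}
    (hφ : ∀ i, Bdd (fun y => φ y i)) (hψ : ∀ i, Bdd (fun y => ψ y i)) :
    Bdd (fun y => ∑ i, φ y i * ψ y i) :=
  meanL2c_bdd_sum fun i => meanL2c_bdd_mul (hφ i) (hψ i)

theorem exists_rep'' {H : Type u} [Group H] (μ : (H → ℝ) → ℝ) (hμ : IsMean μ)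
    (hinv : ∀ (g : H) (f : H → ℝ), Bdd f → μ (fun x => f (x * g)) = μ f) {k : ℕ}
    (f : H → Fin k → ℝ) (hf : ∀ h i, Bdd (fun y => f (y * h) i - f y i)) :
    ∃ (V : Type u) (_ : NormedAddCommGroup V) (_ : InnerProductSpace ℝ V)
      (_ : CompleteSpace V) (π : H →* (V ≃ₗᵢ[ℝ] V)) (b : H → V) (ι : (H → Fin k → ℝ) → V),
      IsCocycle π b ∧
      (∀ h, b h = ι (fun y i => f (y * h) i - f y i)) ∧
      (∀ φ ψ, VBdd φ → VBdd ψ → ι (fun y i => φ y i + ψ y i) = ι φ + ι ψ) ∧
      (∀ (a : ℝ) φ, VBdd φ → ι (fun y i => a * φ y i) = a • ι φ) ∧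
      (∀ φ, VBdd φ → ‖ι φ‖ ^ 2 = μ (fun y => ∑ i, (φ y i) ^ 2)) ∧
      (∀ (v : V) (η : ℝ), 0 < η → ∃ φ, VBdd φ ∧ ‖v - ι φ‖ ≤ η) ∧
      (∀ h φ, VBdd φ → π h (ι φ) = ι (fun y i => φ (y * h) i)) := by
  let c : PreInnerProductSpace.Core ℝ (meanL2cX H k) :=
    { inner := fun φ ψ => μ (fun y => ∑ i, (φ : H → Fin k → ℝ) y i * (ψ : H → Fin k → ℝ) y i)
      conj_inner_symm := fun φ ψ => by
        show μ _ = μ _
        congr 1
        funext y
        exact Finset.sum_congr rfl fun i _ => mul_comm _ _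
      re_inner_nonneg := fun φ => hμ.nonneg _ (meanL2c_bdd φ.2 φ.2) fun y =>
        Finset.sum_nonneg fun i _ => mul_self_nonneg _
      add_left := fun φ ψ χ => by
        rw [← hμ.add _ _ (meanL2c_bdd φ.2 χ.2) (meanL2c_bdd ψ.2 χ.2)]
        congr 1
        funext y
        simp only [Pi.add_apply, Submodule.coe_add]
        rw [← Finset.sum_add_distrib]
        exact Finset.sum_congr rfl fun i _ => by ring
      smul_left := fun φ ψ r => by
        show μ _ = r * μ _
        rw [← hμ.smul r _ (meanL2c_bdd φ.2 ψ.2)]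
        congr 1
        funext y
        simp only [Submodule.coe_smul, Pi.smul_apply, smul_eq_mul]
        rw [Finset.mul_sum]
        exact Finset.sum_congr rfl fun i _ => by ring }
  let ρ : H → meanL2cX H k →ₗ[ℝ] meanL2cX H k := fun h =>
    { toFun := fun φ => ⟨fun y => (φ : H → Fin k → ℝ) (y * h), fun i =>
        (φ.2 i).comp (fun y => y * h)⟩
      map_add' := fun φ ψ => rfl
      map_smul' := fun r φ => rfl }
  let b₀ : H → meanL2cX H k := fun h => ⟨fun y i => f (y * h) i - f y i, fun i => hf h i⟩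
  obtain ⟨V, j1, j2, j3, π, b, j, hc, hbj, hadd, hsmul, hn, hd, he⟩ := meanL2c_core c ρ
    (fun φ => Subtype.ext (funext fun y => by
      show (φ : H → Fin k → ℝ) (y * 1) = _
      rw [mul_one]))
    (fun g h φ => Subtype.ext (funext fun y => by
      show (φ : H → Fin k → ℝ) (y * (g * h)) = (φ : H → Fin k → ℝ) (y * g * h)
      rw [mul_assoc]))
    (fun h φ => hinv h (fun y => ∑ i, (φ : H → Fin k → ℝ) y i * (φ : H → Fin k → ℝ) y i)
      (meanL2c_bdd φ.2 φ.2))
    b₀
    (fun g h => Subtype.ext (funext fun y => funext fun i => by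
      show f (y * (g * h)) i - f y i =
        (f (y * g) i - f y i) + (f (y * g * h) i - f (y * g) i)
      rw [mul_assoc]
      ring))
  classical
  let ι : (H → Fin k → ℝ) → V := fun φ => if h : VBdd φ then j ⟨φ, h⟩ else 0
  have hι : ∀ (φ : H → Fin k → ℝ) (h : VBdd φ), ι φ = j ⟨φ, h⟩ := fun φ h => dif_pos h
  refine ⟨V, j1, j2, j3, π, b, ι, hc, fun h => ?_, fun φ ψ hφ hψ => ?_, fun a φ hφ => ?_,
    fun φ hφ => ?_, fun v η hη => ?_, fun h φ hφ => ?_⟩
  · rw [hι _ (fun i => hf h i), hbj]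
  · have h2 : VBdd (fun y i => φ y i + ψ y i) := fun i => (hφ i).add (hψ i)
    rw [hι φ hφ, hι ψ hψ, hι _ h2]
    exact hadd ⟨φ, hφ⟩ ⟨ψ, hψ⟩
  · have h2 : VBdd (fun y i => a * φ y i) := fun i => (hφ i).const_mul a
    rw [hι φ hφ, hι _ h2]
    exact hsmul a ⟨φ, hφ⟩
  · rw [hι φ hφ]
    refine (hn ⟨φ, hφ⟩).trans ?_
    show μ _ = μ _
    congr 1
    funext y
    exact Finset.sum_congr rfl fun i _ => (sq _).symm
  · obtain ⟨x, hx⟩ := hd v η hη
    refine ⟨x.1, x.2, ?_⟩
    rw [hι x.1 x.2]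
    exact hx
  · have h2 : VBdd (fun y i => φ (y * h) i) := fun i => (hφ i).comp (fun y => y * h)
    rw [hι φ hφ, hι _ h2]
    exact he h ⟨φ, hφ⟩

end Vale.Agent.P188.SG
end
end
end

section

section

attribute [-instance] ProperSMul.toContinuousSMul IsTopologicalTorsor.toContinuousSMul IdemSemiring.toCanonicallyOrderedAdd IdemSemiring.toMulLeftMono IdemSemiring.toMulRightMono AddQuantale.instAddLeftMono AddQuantale.instAddRightMono Quantale.instMulLeftMono Quantale.instMulRightMono FiniteDimensional.rclike_to_real IsScalarTower.complexToReal FiniteDimensional.complexToReal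

section

/-!
P188, Theorem S+: composition of a right-invariant mean with a map of finite displacement whose
fibres have at most `M` elements.
-/

universe u v w

open Filter Topology Pointwise

namespace Vale.Agent.P188.SG

theorem MeanComp_finite {H : Type u} [Group H] (τ : H → H) (R : Finset H)
    (hR : ∀ y, y⁻¹ * τ y ∈ R) (x : H) : {y | τ y = x}.Finite := by
  refine (R.finite_toSet.image fun h => x * h⁻¹).subset ?_
  intro y hy
  refine ⟨y⁻¹ * τ y, hR y, ?_⟩
  have hy' : τ y = x := hy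
  simp only [hy']
  group

theorem MeanComp_card {H : Type u} [Group H] [DecidableEq H] (τ : H → H) (R : Finset H)
    (hR : ∀ y, y⁻¹ * τ y ∈ R) (M : ℕ) (hM : ∀ x, {y | τ y = x}.ncard ≤ M) (x : H) :
    (R.filter fun h => τ (x * h⁻¹) = x).card ≤ M := by
  refine le_trans ?_ (hM x)
  rw [← Set.ncard_coe_finset]
  refine Set.ncard_le_ncard_of_injOn (fun h => x * h⁻¹) ?_ ?_ (MeanComp_finite τ R hR x)
  · intro h hh
    exact (Finset.mem_filter.mp (Finset.mem_coe.mp hh)).2
  · intro a _ b _ hab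
    simpa only [mul_right_inj, inv_inj] using hab

/-- a right-invariant mean and a map of finite displacement with fibres of at most `M` elements -/
theorem mean_comp_le {H : Type u} [Group H] (μ : (H → ℝ) → ℝ) (hμ : IsMean μ)
    (hinv : ∀ (g : H) (f : H → ℝ), Bdd f → μ (fun x => f (x * g)) = μ f)
    (τ : H → H) (R : Finset H) (hR : ∀ y, y⁻¹ * τ y ∈ R) (M : ℕ)
    (hM : ∀ x, {y | τ y = x}.ncard ≤ M) (φ : H → ℝ) (hφ : Bdd φ) (h0 : ∀ y, 0 ≤ φ y) :
    μ (fun y => φ (τ y)) ≤ M * μ φ := by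
  classical
  have hFb : ∀ h : H, Bdd (fun y => if τ y = y * h then φ (y * h) else 0) := by
    intro h
    obtain ⟨C, hC⟩ := hφ
    refine ⟨|C|, fun y => ?_⟩
    by_cases hy : τ y = y * h
    · simp only [if_pos hy]
      exact (hC _).trans (le_abs_self C)
    · simp only [if_neg hy, abs_zero]
      exact abs_nonneg C
  have hGb : ∀ h : H, Bdd (fun x => if τ (x * h⁻¹) = x then φ x else 0) := by
    intro h
    obtain ⟨C, hC⟩ := hφ
    refine ⟨|C|, fun y => ?_⟩
    by_cases hy : τ (y * h⁻¹) = y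
    · simp only [if_pos hy]
      exact (hC _).trans (le_abs_self C)
    · simp only [if_neg hy, abs_zero]
      exact abs_nonneg C
  have h1 : (fun y => φ (τ y)) =
      fun y => ∑ h ∈ R, (if τ y = y * h then φ (y * h) else 0) := by
    funext y
    rw [Finset.sum_eq_single (y⁻¹ * τ y)]
    · simp
    · intro h _ hne
      rw [if_neg]
      intro hy
      apply hne
      rw [hy]
      group
    · intro hy
      exact absurd (hR y) hy
  have h2 : ∀ h ∈ R, μ (fun y => if τ y = y * h then φ (y * h) else 0) =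
      μ (fun x => if τ (x * h⁻¹) = x then φ x else 0) := by
    intro h _
    rw [← hinv h⁻¹ _ (hFb h)]
    simp only [inv_mul_cancel_right]
  rw [h1, NoInd1_mean_sum hμ R (fun h y => if τ y = y * h then φ (y * h) else 0)
    (fun h _ => hFb h), Finset.sum_congr rfl h2,
    ← NoInd1_mean_sum hμ R (fun h x => if τ (x * h⁻¹) = x then φ x else 0) (fun h _ => hGb h),
    ← hμ.smul _ _ hφ]
  refine hμ.le (NoInd1_bdd_sum R _ fun h _ => hGb h) (hφ.const_mul _) fun x => ?_
  rw [← Finset.sum_filter, Finset.sum_const, nsmul_eq_mul]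
  exact mul_le_mul_of_nonneg_right (by exact_mod_cast MeanComp_card τ R hR M hM x) (h0 x)

end Vale.Agent.P188.SG
end
end
end

section

section

section

section

section

/-!
Polycyclic groups are virtually poly-`ℤ`.
-/

universe u v w

namespace Vale.Agent.P188

variable {G : Type u} [Group G]

theorem adjoinCyc_step (U : Subgroup G) (t : G) (h1 : ∀ n ∈ U, t * n * t⁻¹ ∈ U)
    (h2 : ∀ n ∈ U, t⁻¹ * n * t ∈ U) : CycStep U (adjoinCyc U t h1 h2) t :=
  ⟨fun x hx => ⟨0, by simpa using hx⟩, ⟨1, by simp⟩, h1, h2, fun _ hg => hg⟩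

theorem PCS.exists_pzs {M : Subgroup G} (h : PCS M) :
    ∃ Q : Subgroup G, Q ≤ M ∧ PZS Q ∧ Q.relIndex M ≠ 0 := by
  induction h with
  | bot => exact ⟨⊥, le_rfl, .bot, by simp only [Subgroup.relIndex_self, ne_eq, one_ne_zero, not_false_eq_true]⟩
  | @step N M t hN hs ih =>
    obtain ⟨Q, hQN, hQ, hind⟩ := ih
    obtain ⟨E, hE, hEN, hcov⟩ := exists_cover_of_relIndex_ne_zero hind
    by_cases hk : ∃ k : ℤ, k ≠ 0 ∧ t ^ k ∈ N
    · obtain ⟨k, hk0, hk⟩ := hk
      refine ⟨Q, hQN.trans hs.le, hQ, ?_⟩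
      refine relIndex_ne_zero_of_cover
        (E := Set.image2 (fun (r : ℤ) (e : G) => t ^ r * e) (Set.Ico 0 |k|) E)
        (Set.Finite.image2 _ (Set.finite_Ico _ _) hE) ?_
      intro g hg
      obtain ⟨b, hb⟩ := hs.dec g hg
      have hn : (t ^ (b % k))⁻¹ * g ∈ N := by
        have e : (t ^ (b % k))⁻¹ * g = (t ^ k) ^ (b / k) * ((t ^ b)⁻¹ * g) := by
          have : t ^ b = t ^ (b % k) * (t ^ k) ^ (b / k) := by
            rw [← zpow_mul, ← zpow_add, Int.emod_add_mul_ediv]
          rw [this]; group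
        rw [e]
        exact N.mul_mem (N.zpow_mem hk _) hb
      obtain ⟨e, he, heq⟩ := hcov _ hn
      refine ⟨t ^ (b % k) * e, Set.mem_image2_of_mem ⟨Int.emod_nonneg _ hk0,
        Int.emod_lt_abs _ hk0⟩ he, ?_⟩
      have : (t ^ (b % k) * e)⁻¹ * g = e⁻¹ * ((t ^ (b % k))⁻¹ * g) := by group
      rw [this]; exact heq
    · push Not at hk
      have hk' : ∀ k : ℤ, t ^ k ∈ N → k = 0 := fun k hkN => by
        by_contra h0
        exact hk k h0 hkN
      let α : N ≃* N :=
        { toFun := fun n => ⟨t⁻¹ * n * t, hs.conj' n n.2⟩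
          invFun := fun n => ⟨t * n * t⁻¹, hs.conj n n.2⟩
          left_inv := fun n => Subtype.ext (by simp only [mul_assoc, mul_inv_cancel_left, mul_inv_cancel, mul_one])
          right_inv := fun n => Subtype.ext (by simp only [mul_assoc, inv_mul_cancel_left, inv_mul_cancel, mul_one])
          map_mul' := fun n n' => Subtype.ext (by simp only [Subgroup.coe_mul, mul_assoc, MulMemClass.mk_mul_mk, mul_inv_cancel_left]) }
      have hNfg : Group.FG N := (Group.fg_iff_subgroup_fg N).2 hN.fg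
      have hQfi : (Q.subgroupOf N).FiniteIndex := ⟨hind⟩
      obtain ⟨k, hk0, hkp⟩ := exists_pow_preserves hNfg (Q.subgroupOf N) hQfi α
      have hα : ∀ (k : ℕ) (x : N), (((α ^ k) x : N) : G) = (t ^ k)⁻¹ * x * t ^ k := by
        intro k
        induction k with
        | zero => intro x; simp
        | succ k ihk =>
          intro x
          rw [pow_succ, MulAut.mul_apply, ihk]
          show (t ^ k)⁻¹ * (t⁻¹ * x * t) * t ^ k = _
          have : t ^ (k + 1) = t * t ^ k := pow_succ' t k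
          rw [this]; group
      have c2 : ∀ n ∈ Q, (t ^ k)⁻¹ * n * t ^ k ∈ Q := by
        intro n hn
        have := (hkp ⟨n, hQN hn⟩).2 hn
        rw [Subgroup.mem_subgroupOf, hα] at this
        exact this
      have c1 : ∀ n ∈ Q, t ^ k * n * (t ^ k)⁻¹ ∈ Q := by
        intro n hn
        have hmem : t ^ k * n * (t ^ k)⁻¹ ∈ N := by
          have := conj_zpow hs.conj hs.conj' (k : ℤ) n (hQN hn)
          simpa only [zpow_natCast] using this
        have := (hkp ⟨_, hmem⟩).1 (by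
          rw [Subgroup.mem_subgroupOf, hα]
          simpa only [mul_assoc, inv_mul_cancel_left, inv_mul_cancel, mul_one] using hn)
        exact this
      have hst := adjoinCyc_step Q (t ^ k) c1 c2
      refine ⟨adjoinCyc Q (t ^ k) c1 c2, ?_, .step hQ hst ?_, ?_⟩
      · rintro x ⟨b, hb⟩
        have : x = (t ^ k) ^ b * (((t ^ k) ^ b)⁻¹ * x) := by group
        rw [this]
        exact M.mul_mem (M.zpow_mem (M.pow_mem hs.mem _) _) (hs.le (hQN hb))
      · intro j hj
        have h1 : t ^ ((k : ℤ) * j) ∈ N := by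
          rw [zpow_mul, zpow_natCast]; exact hQN hj
        have := hk' _ h1
        rcases mul_eq_zero.1 this with h | h
        · omega
        · exact h
      · refine relIndex_ne_zero_of_cover
          (E := Set.image2 (fun (r : ℤ) (e : G) => t ^ r * e) (Set.Ico 0 |(k : ℤ)|) E)
          (Set.Finite.image2 _ (Set.finite_Ico _ _) hE) ?_
        intro g hg
        obtain ⟨b, hb⟩ := hs.dec g hg
        have hk0' : (k : ℤ) ≠ 0 := by omega
        have e1 : t ^ b = t ^ (b % (k : ℤ)) * (t ^ k) ^ (b / (k : ℤ)) := by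
          rw [← zpow_natCast t k, ← zpow_mul, ← zpow_add, Int.emod_add_mul_ediv]
        have hn : (t ^ k) ^ (b / (k : ℤ)) * ((t ^ b)⁻¹ * g) * ((t ^ k) ^ (b / (k : ℤ)))⁻¹ ∈ N := by
          have := conj_zpow hs.conj hs.conj' ((k : ℤ) * (b / (k : ℤ))) _ hb
          rwa [zpow_mul, zpow_natCast] at this
        obtain ⟨e, he, heq⟩ := hcov _ hn
        refine ⟨t ^ (b % (k : ℤ)) * e, Set.mem_image2_of_mem ⟨Int.emod_nonneg _ hk0',
          Int.emod_lt_abs _ hk0'⟩ he, ?_⟩
        have e2 : (t ^ (b % (k : ℤ)) * e)⁻¹ * g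
            = (e⁻¹ * ((t ^ k) ^ (b / (k : ℤ)) * ((t ^ b)⁻¹ * g) *
              ((t ^ k) ^ (b / (k : ℤ)))⁻¹)) * (t ^ k) ^ (b / (k : ℤ)) := by
          rw [e1]; group
        rw [e2]
        exact Subgroup.mul_mem _ (hst.le heq) (Subgroup.zpow_mem _ hst.mem _)

theorem PolyZ.of_equiv : ∀ (n : ℕ) {G : Type u} [Group G] {G' : Type u} [Group G'],
    (G ≃* G') → PolyZ n G → PolyZ n G'
  | 0, _, _, _, _, e, h => by
    have h' : Subsingleton _ := h
    exact (e.symm.injective.subsingleton : Subsingleton _)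
  | n + 1, G, _, G', _, e, h => by
    obtain ⟨φ, hφ, hk⟩ := h
    refine ⟨φ.comp e.symm.toMonoidHom, hφ.comp e.symm.surjective, ?_⟩
    refine PolyZ.of_equiv n ?_ hk
    refine e.subgroupMap φ.ker |>.trans (MulEquiv.subgroupCongr ?_)
    ext x
    simp only [Subgroup.mem_map, MonoidHom.mem_ker, MonoidHom.comp_apply]
    constructor
    · rintro ⟨y, hy, rfl⟩
      simpa only [MulEquiv.toMonoidHom_eq_coe, MonoidHom.coe_coe, MulEquiv.symm_apply_apply] using hy
    · intro hx
      exact ⟨e.symm x, hx, by simp⟩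

theorem PZS.polyZ {M : Subgroup G} (h : PZS M) : ∃ n, PolyZ n M := by
  induction h with
  | bot => exact ⟨0, (inferInstance : Subsingleton (⊥ : Subgroup G))⟩
  | @step N M t _ hs hinj ih =>
    obtain ⟨n, hn⟩ := ih
    refine ⟨n + 1, ?_⟩
    have huniq : ∀ (g : G) (a b : ℤ), (t ^ a)⁻¹ * g ∈ N → (t ^ b)⁻¹ * g ∈ N → a = b := by
      intro g a b ha hb
      have : t ^ (b - a) ∈ N := by
        have e : t ^ (b - a) = ((t ^ a)⁻¹ * g * ((t ^ b)⁻¹ * g)⁻¹) := by
          rw [sub_eq_neg_add, zpow_add, zpow_neg]; group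
        rw [e]
        exact N.mul_mem ha (N.inv_mem hb)
      have := hinj _ this
      omega
    choose f hf using hs.dec
    let φ : M →* Multiplicative ℤ :=
      { toFun := fun g => Multiplicative.ofAdd (f g g.2)
        map_one' := by
          show Multiplicative.ofAdd _ = Multiplicative.ofAdd (0 : ℤ)
          congr 1
          exact huniq _ _ _ (hf _ _) (by simp)
        map_mul' := by
          intro g g'
          rw [← ofAdd_add]
          congr 1
          refine huniq _ _ _ (hf _ _) ?_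
          have h1 := hf g g.2
          have h2 := hf g' g'.2
          have e : (t ^ (f g g.2 + f g' g'.2))⁻¹ * ((g * g' : M) : G)
              = (t ^ (-(f g' g'.2)) * ((t ^ (f g g.2))⁻¹ * g) * (t ^ (-(f g' g'.2)))⁻¹) *
                ((t ^ (f g' g'.2))⁻¹ * g') := by
            rw [zpow_add, zpow_neg, Subgroup.coe_mul]; group
          rw [e]
          exact N.mul_mem (conj_zpow hs.conj hs.conj' _ _ h1) h2 }
    refine ⟨φ, ?_, ?_⟩
    · intro k
      refine ⟨⟨t ^ (Multiplicative.toAdd k), M.zpow_mem hs.mem _⟩, ?_⟩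
      show Multiplicative.ofAdd _ = k
      rw [← ofAdd_toAdd k]
      congr 1
      exact huniq _ _ _ (hf _ _) (by simp)
    · refine PolyZ.of_equiv n ?_ hn
      have hker : φ.ker = N.subgroupOf M := by
        ext g
        rw [MonoidHom.mem_ker, Subgroup.mem_subgroupOf]
        constructor
        · intro hg
          have h0 : f g g.2 = 0 := hg
          have := hf g g.2
          rw [h0] at this
          simpa only [zpow_ofNat, pow_zero, inv_one, one_mul] using this
        · intro hg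
          show Multiplicative.ofAdd _ = Multiplicative.ofAdd (0 : ℤ)
          congr 1
          exact huniq _ _ _ (hf _ _) (by simpa only [zpow_ofNat, pow_zero, inv_one, one_mul] using hg)
      exact ((MulEquiv.subgroupCongr hker).trans (Subgroup.subgroupOfEquivOfLe hs.le)).symm

end Vale.Agent.P188
end
end
end
end
end

section

section

section

section

section

/-!
Coarse equivalence with finite index subgroups.
-/

universe u v w

namespace Vale.Agent.P188

theorem coarseEquiv_of_finiteIndex {G : Type u} [Group G] (P : Subgroup G) (hP : P.FiniteIndex) :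
    CoarseEquiv G P := by
  classical
  have hr : ∀ g : G, g * (Quotient.out (QuotientGroup.mk g⁻¹ : G ⧸ P)) ∈ P := by
    intro g
    have h1 : (QuotientGroup.mk (Quotient.out (QuotientGroup.mk g⁻¹ : G ⧸ P)) : G ⧸ P)
      = QuotientGroup.mk g⁻¹ := Quotient.out_eq' _
    rw [QuotientGroup.eq] at h1
    have := P.inv_mem h1
    simpa only [mul_inv_rev, inv_inv] using this
  let R : Set G := Set.range (fun q : G ⧸ P => q.out)
  have hR : R.Finite := Set.finite_range _
  let r : G → G := fun g => Quotient.out (QuotientGroup.mk g⁻¹ : G ⧸ P)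
  have hrR : ∀ g, r g ∈ R := fun g => ⟨_, rfl⟩
  refine ⟨fun g => ⟨g * r g, hr g⟩, fun p => (p : G), ?_, ?_, ?_, ?_⟩
  · intro A hA
    have hfin : (Set.image2 (fun (a : G) (b : G × G) => b.1⁻¹ * a * b.2) A (R ×ˢ R)).Finite :=
      Set.Finite.image2 _ hA (hR.prod hR)
    refine ⟨(fun p : P => (p : G)) ⁻¹' (Set.image2 (fun (a : G) (b : G × G) => b.1⁻¹ * a * b.2) A (R ×ˢ R)),
      hfin.preimage Subtype.val_injective.injOn, ?_⟩
    intro x y hxy
    refine ⟨x⁻¹ * y, hxy, (r x, r y), ⟨hrR x, hrR y⟩, ?_⟩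
    simp only [mul_assoc, Subgroup.coe_mul, InvMemClass.coe_inv, mul_inv_rev]
  · intro A hA
    refine ⟨(fun p : P => (p : G)) '' A, hA.image _, ?_⟩
    intro x y hxy
    exact ⟨_, hxy, by simp only [Subgroup.coe_mul, InvMemClass.coe_inv]⟩
  · refine ⟨R, hR, ?_⟩
    intro x
    have : x⁻¹ * (x * r x) = r x := by group
    show x⁻¹ * (x * r x) ∈ R
    rw [this]; exact hrR x
  · refine ⟨(fun p : P => (p : G)) ⁻¹' R, hR.preimage Subtype.val_injective.injOn, ?_⟩
    intro x
    show ((x⁻¹ * ⟨(x : G) * r x, hr x⟩ : P) : G) ∈ R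
    have : ((x⁻¹ * ⟨(x : G) * r x, hr x⟩ : P) : G) = r x := by
      simp only [Subgroup.coe_mul, InvMemClass.coe_inv, inv_mul_cancel_left]
    rw [this]; exact hrR _

/-- A virtually polycyclic group has a poly-`ℤ` subgroup of finite index. -/
theorem IsVirtuallyPolycyclic.exists_polyZ {G : Type u} [Group G] (h : IsVirtuallyPolycyclic G) :
    ∃ Q : Subgroup G, Q.FiniteIndex ∧ ∃ n, PolyZ n Q := by
  obtain ⟨P, hP, hP'⟩ := isVirtuallyPolycyclic_iff.1 h
  obtain ⟨Q, hQP, hQ, hind⟩ := hP'.exists_pzs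
  refine ⟨Q, ⟨?_⟩, hQ.polyZ⟩
  rw [← Subgroup.relIndex_mul_index hQP]
  exact mul_ne_zero hind hP.index_ne_zero

/-- A virtually polycyclic group is coarsely equivalent to a poly-`ℤ` group. -/
theorem IsVirtuallyPolycyclic.exists_coarseEquiv {G : Type u} [Group G]
    (h : IsVirtuallyPolycyclic G) :
    ∃ (n : ℕ) (Z : Type u) (_ : Group Z), PolyZ n Z ∧ CoarseEquiv G Z := by
  obtain ⟨Q, hQ, n, hn⟩ := h.exists_polyZ
  exact ⟨n, Q, inferInstance, hn, coarseEquiv_of_finiteIndex Q hQ⟩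

end Vale.Agent.P188
end
end
end
end
end

section

section

section

/-! P188, Theorem S+: the values `c g / n`, `len g ≤ n`, lie in one compact set. -/

universe u v w

open Filter Topology Pointwise

namespace Vale.Agent.P188.SG

section Rep

variable {H : Type u} [Group H] {S : Finset H}
variable {V : Type v} [NormedAddCommGroup V] [InnerProductSpace ℝ V] [CompleteSpace V]

/-- The union of the orbits of the `c s`, and `0`. -/
def Comp_orb (S : Finset H) (π : H →* (V ≃ₗᵢ[ℝ] V)) (c : H → V) : Set V :=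
  {0} ∪ ⋃ s ∈ (S : Set H), Set.range fun g : H => π g (c s)

omit [CompleteSpace V] in
theorem Comp_orb_inv (π : H →* (V ≃ₗᵢ[ℝ] V)) (c : H → V) (a : H) {y : V}
    (hy : y ∈ Comp_orb S π c) : π a y ∈ Comp_orb S π c := by
  rcases hy with hy | hy
  · left
    rw [Set.mem_singleton_iff] at hy
    rw [hy, map_zero]
    exact Set.mem_singleton _
  · right
    rw [Set.mem_iUnion₂] at hy ⊢
    obtain ⟨s, hs, g, hg⟩ := hy
    refine ⟨s, hs, a * g, ?_⟩
    rw [← hg]
    show π (a * g) (c s) = π a (π g (c s))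
    rw [map_mul]
    rfl

omit [CompleteSpace V] in
theorem Comp_hull_inv (π : H →* (V ≃ₗᵢ[ℝ] V)) (c : H → V) (a : H) {y : V}
    (hy : y ∈ convexHull ℝ (Comp_orb S π c)) : π a y ∈ convexHull ℝ (Comp_orb S π c) := by
  have h1 : Comp_orb S π c ⊆ (π a).toLinearEquiv.toLinearMap ⁻¹'
      (convexHull ℝ (Comp_orb S π c)) := fun z hz =>
    subset_convexHull ℝ _ (Comp_orb_inv π c a hz)
  exact convexHull_min h1 ((convex_convexHull ℝ _).linear_preimage _) hy

omit [CompleteSpace V] in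
theorem Comp_orb_tb (π : H →* (V ≃ₗᵢ[ℝ] V)) (c : H → V) (hTB : ∀ s ∈ S, TB π (c s)) :
    TotallyBounded (Comp_orb S π c) := by
  refine TotallyBounded.union (Set.finite_singleton _).totallyBounded ?_
  refine (totallyBounded_biUnion (Finset.finite_toSet S)).2 fun s hs => ?_
  rw [Metric.totallyBounded_iff]
  intro ε hε
  obtain ⟨F, hF⟩ := hTB s hs (ε / 2) (half_pos hε)
  refine ⟨(fun r => π r (c s)) '' (F : Set H), (Finset.finite_toSet F).image _, ?_⟩
  rintro _ ⟨g, rfl⟩
  obtain ⟨r, hr, h⟩ := hF g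
  refine Set.mem_iUnion₂.mpr ⟨π r (c s), ⟨r, hr, rfl⟩, ?_⟩
  rw [Metric.mem_ball, dist_eq_norm]
  exact h.trans_lt (half_lt_self hε)

omit [CompleteSpace V] in
theorem Comp_list (π : H →* (V ≃ₗᵢ[ℝ] V)) (c : H → V) (hc : IsCocycle π c) (l : List H)
    (hl : ∀ a ∈ l, a ∈ S) :
    ∃ y ∈ convexHull ℝ (Comp_orb S π c), c l.prod = (l.length : ℝ) • y := by
  induction l with
  | nil =>
    refine ⟨0, subset_convexHull ℝ _ (Or.inl rfl), ?_⟩
    have h := hc 1 1
    rw [mul_one, map_one] at h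
    have h2 : c 1 = c 1 + c 1 := h
    simpa using h2
  | cons a l ih =>
    obtain ⟨y, hy, h⟩ := ih fun b hb => hl b (List.mem_cons_of_mem _ hb)
    have hm : (0 : ℝ) < (l.length : ℝ) + 1 := by (clear * -; positivity)
    have hca : c a ∈ convexHull ℝ (Comp_orb S π c) := by
      refine subset_convexHull ℝ _ (Or.inr ?_)
      refine Set.mem_iUnion₂.mpr ⟨a, hl a List.mem_cons_self, 1, ?_⟩
      show π 1 (c a) = c a
      rw [map_one]
      rfl
    refine ⟨((l.length : ℝ) + 1)⁻¹ • c a + ((l.length : ℝ) / (l.length + 1)) • π a y,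
      (convex_convexHull ℝ _) hca (Comp_hull_inv π c a hy) (by (clear * -; positivity)) (by (clear * -; positivity))
        (by field_simp; ring), ?_⟩
    rw [List.prod_cons, hc, h, List.length_cons, Nat.cast_add, Nat.cast_one, smul_add, smul_smul,
      smul_smul, mul_inv_cancel₀ hm.ne', one_smul, map_smul, mul_div_cancel₀ _ hm.ne']

/-- the values `c g / n`, `len g ≤ n`, lie in one compact set -/
theorem exists_compact (hS : SymGen S) (π : H →* (V ≃ₗᵢ[ℝ] V)) (c : H → V)
    (hc : IsCocycle π c) (hTB : ∀ s ∈ S, TB π (c s)) :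
    ∃ K : Set V, IsCompact K ∧ ∀ (n : ℕ) (g : H), 0 < n → len S g ≤ n →
      (n : ℝ)⁻¹ • c g ∈ K := by
  refine ⟨closure (convexHull ℝ (Comp_orb S π c)), ?_, fun n g hn hg => ?_⟩
  · exact isCompact_iff_totallyBounded_isComplete.mpr
      ⟨(Comp_orb_tb π c hTB).convexHull.closure, isClosed_closure.isComplete⟩
  · refine subset_closure ?_
    obtain ⟨l, h1, h2, h3⟩ := len_list hS.gen g
    obtain ⟨y, hy, h⟩ := Comp_list π c hc l fun a ha => (h2 a ha).elim id fun h' => by
      have := hS.inv _ h'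
      rwa [inv_inv] at this
    have hn' : (0 : ℝ) < n := Nat.cast_pos.mpr hn
    have h0 : (0 : V) ∈ convexHull ℝ (Comp_orb S π c) := subset_convexHull ℝ _ (Or.inl rfl)
    have hle : (n : ℝ)⁻¹ * (l.length : ℝ) ≤ 1 := by
      rw [h1, inv_mul_le_iff₀ hn', mul_one]
      exact_mod_cast hg
    rw [← h3, h, smul_smul]
    exact (convex_convexHull ℝ _).smul_mem_of_zero_mem h0 hy ⟨by (clear * - hn; positivity), hle⟩

end Rep

end Vale.Agent.P188.SG
end
end
end

section

section

section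

/-!
P188, Theorem S+: the realized vectors are dense in the closed span of the cocycle.
-/

universe u v w

open Filter Topology Pointwise

namespace Vale.Agent.P188.SG

section Rep

variable {H : Type u} [Group H] {S : Finset H}
variable {V : Type v} [NormedAddCommGroup V] [InnerProductSpace ℝ V] [CompleteSpace V]

omit [CompleteSpace V] in
private lemma dr_mul (π : H →* (V ≃ₗᵢ[ℝ] V)) (g h : H) (v : V) :
    π (g * h) v = π g (π h v) := by
  rw [map_mul]
  rfl

omit [CompleteSpace V] in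
private lemma dr_inv_apply (π : H →* (V ≃ₗᵢ[ℝ] V)) (g : H) (v : V) :
    π g (π g⁻¹ v) = v := by
  rw [← dr_mul, mul_inv_cancel, map_one]
  rfl

omit [CompleteSpace V] in
private lemma dr_inner (π : H →* (V ≃ₗᵢ[ℝ] V)) (g : H) (u v : V) :
    inner ℝ u (π g v) = inner ℝ (π g⁻¹ u) v := by
  have h : u = π g (π g⁻¹ u) := (dr_inv_apply π g u).symm
  conv_lhs => rw [h]
  rw [LinearIsometryEquiv.inner_map_map]

omit [CompleteSpace V] in
/-- translates of vectors with totally bounded orbits -/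
private lemma dr_TB (π : H →* (V ≃ₗᵢ[ℝ] V)) {v : V} (hv : TB π v) (g : H) :
    TB π (π g v) := by
  classical
  intro η hη
  obtain ⟨F, hF⟩ := hv η hη
  refine ⟨F.image fun r => r * g⁻¹, fun h => ?_⟩
  obtain ⟨r, hr, h'⟩ := hF (h * g)
  refine ⟨r * g⁻¹, Finset.mem_image_of_mem _ hr, ?_⟩
  rw [← dr_mul, ← dr_mul, inv_mul_cancel_right]
  exact h'

omit [CompleteSpace V] in
/-- translates of realized vectors -/
private lemma dr_Rel (hS : SymGen S) (π : H →* (V ≃ₗᵢ[ℝ] V)) (c : H → V)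
    (hc : IsCocycle π c) {v : V} {ρ : ℝ} (hv : Rel S c v ρ) (g : H) :
    Rel S c (π g v) ρ := by
  intro η hη
  obtain ⟨n₀, hn₀⟩ := hv (η / 2) (by (clear * - hη; positivity))
  obtain ⟨n₁, hn₁⟩ := exists_nat_ge (2 * len S g / η)
  obtain ⟨n₂, hn₂⟩ := exists_nat_ge (2 * ‖c g‖ / η)
  refine ⟨max n₀ (max n₁ n₂), fun n hn => ?_⟩
  obtain ⟨h, hl, hd⟩ := hn₀ n ((le_max_left _ _).trans hn)
  have e1 : (n₁ : ℝ) ≤ n := by
    exact_mod_cast ((le_max_left n₁ n₂).trans (le_max_right _ _)).trans hn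
  have e2 : (n₂ : ℝ) ≤ n := by
    exact_mod_cast ((le_max_right n₁ n₂).trans (le_max_right _ _)).trans hn
  have f1 : (len S g : ℝ) ≤ η / 2 * n := by
    have := hn₁.trans e1
    rw [div_le_iff₀ hη] at this
    linarith only [this]
  have f2 : ‖c g‖ ≤ η / 2 * n := by
    have := hn₂.trans e2
    rw [div_le_iff₀ hη] at this
    linarith only [this]
  refine ⟨g * h, ?_, ?_⟩
  · have h1 : (len S (g * h) : ℝ) ≤ len S g + len S h := by
      exact_mod_cast len_mul_le hS.gen g h
    have h2 : (ρ + η) * (n : ℝ) = η / 2 * n + (ρ + η / 2) * n := by ring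
    rw [h2]
    linarith only [h1, f1, hl]
  · rw [hc g h, ← map_smul]
    have h3 : c g + π g (c h) - π g ((n : ℝ) • v) = c g + π g (c h - (n : ℝ) • v) := by
      rw [map_sub]
      abel
    rw [h3]
    refine (norm_add_le _ _).trans ?_
    rw [LinearIsometryEquiv.norm_map]
    linarith only [f2, hd]

omit [CompleteSpace V] in
/-- the orthogonal complement of an invariant subspace is invariant -/
private lemma dr_inv_orth (π : H →* (V ≃ₗᵢ[ℝ] V)) {W : Submodule ℝ V} (hi : Inv π W) :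
    Inv π Wᗮ := by
  intro g w hw
  rw [Submodule.mem_orthogonal] at hw ⊢
  intro u hu
  rw [dr_inner]
  exact hw _ (hi g⁻¹ u hu)

theorem dense_rel (hS : SymGen S) (π : H →* (V ≃ₗᵢ[ℝ] V)) (c : H → V) (hc : IsCocycle π c)
    (hh : ∑ s ∈ S, c s = 0) (hfd : ∀ g, c g ∈ fdSpan π) (B : Submodule ℝ V)
    (hB : ∀ v, v ∈ B ↔ TB π v ∧ ∃ ρ : ℝ, 0 ≤ ρ ∧ Rel S c v ρ) :
    ∀ g, c g ∈ B.topologicalClosure := by
  classical
  intro g₀
  by_contra hg₀
  have hBi : Inv π B := by
    intro g v hv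
    obtain ⟨h1, ρ, h2, h3⟩ := (hB v).1 hv
    exact (hB _).2 ⟨dr_TB π h1 g, ρ, h2, dr_Rel hS π c hc h3 g⟩
  set U : Submodule ℝ V := B.topologicalClosure with hU
  have hUi : Inv π U := by
    intro g w hw
    exact map_mem_closure (f := fun x => π g x) (π g).continuous hw fun x hx => hBi g x hx
  have hUc : CompleteSpace U := (Submodule.isClosed_topologicalClosure _).completeSpace_coe
  -- the projection onto the complement
  set P : V →ₗ[ℝ] V := (Uᗮ.starProjection : V →L[ℝ] V).toLinearMap with hP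
  have hPval : ∀ v, P v = Uᗮ.starProjection v := fun _ => rfl
  have hUo : Inv π Uᗮ := dr_inv_orth π hUi
  have hPc : ∀ g v, P (π g v) = π g (P v) := fun g v => fd_proj_comm π Uᗮ hUo g v
  have hPm : ∀ v, P v ∈ Uᗮ := fun v => Uᗮ.starProjection_apply_mem v
  have hv0 : P (c g₀) ≠ 0 := by
    intro h0
    apply hg₀
    have h1 : c g₀ ∈ Uᗮᗮ := by
      rw [Submodule.mem_orthogonal']
      intro u hu
      have h2 := Uᗮ.starProjection_inner_eq_zero (c g₀) u hu
      rw [← hPval, h0, sub_zero] at h2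
      exact h2
    rwa [Submodule.orthogonal_orthogonal] at h1
  have hin : ∀ u v, inner ℝ (P u) v = inner ℝ u (P v) := fun u v =>
    Submodule.inner_starProjection_left_eq_right Uᗮ u v
  -- a finite-dimensional invariant subspace seeing `v₀`
  have hex : ∃ W₁ : Submodule ℝ V, FiniteDimensional ℝ W₁ ∧ Inv π W₁ ∧ ∃ w₁ ∈ W₁,
      inner ℝ (P w₁) (c g₀) ≠ 0 := by
    by_contra hno
    push Not at hno
    have h1 : fdSpan π ≤ (ℝ ∙ P (c g₀))ᗮ := by
      refine Submodule.topologicalClosure_minimal _ (sSup_le ?_)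
        (Submodule.isClosed_orthogonal _)
      rintro W₁ ⟨hf, hi⟩ w₁ hw₁
      rw [Submodule.mem_orthogonal_singleton_iff_inner_left]
      rw [← hin]
      exact hno W₁ hf hi w₁ hw₁
    have h2 := h1 (hfd g₀)
    rw [Submodule.mem_orthogonal_singleton_iff_inner_left] at h2
    have h3 : inner ℝ (P (c g₀)) (P (c g₀)) = (0 : ℝ) := by
      rw [hin]
      have h4 : P (P (c g₀)) = P (c g₀) :=
        Submodule.starProjection_eq_self_iff.2 (hPm _)
      rw [h4]
      exact h2
    exact hv0 (inner_self_eq_zero.1 h3)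
  obtain ⟨W₁, hW₁f, hW₁i, w₁, hw₁, hne⟩ := hex
  set W' : Submodule ℝ V := W₁.map P with hW'
  have hW'f : FiniteDimensional ℝ W' := inferInstance
  have hW'i : Inv π W' := by
    rintro g _ ⟨w, hw, rfl⟩
    exact ⟨π g w, hW₁i g w hw, hPc g w⟩
  have hW'U : W' ≤ Uᗮ := by
    rintro _ ⟨w, hw, rfl⟩
    exact hPm w
  let W'' : Submodule ℝ V :=
    { carrier := {w | w ∈ W' ∧ ∀ g, inner ℝ (c g) w = 0}
      add_mem' := fun {a b} ha hb => ⟨W'.add_mem ha.1 hb.1, fun g => by
        rw [inner_add_right, ha.2, hb.2, add_zero]⟩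
      zero_mem' := ⟨W'.zero_mem, fun g => inner_zero_right _⟩
      smul_mem' := fun r a ha => ⟨W'.smul_mem r ha.1, fun g => by
        rw [inner_smul_right, ha.2, mul_zero]⟩ }
  have hW''le : W'' ≤ W' := fun w hw => hw.1
  have hW''f : FiniteDimensional ℝ W'' := Submodule.finiteDimensional_of_le hW''le
  have hW''i : Inv π W'' := by
    rintro h w ⟨hw, hw'⟩
    refine ⟨hW'i h w hw, fun g => ?_⟩
    rw [dr_inner]
    have h1 := hc h⁻¹ g
    have h2 : π h⁻¹ (c g) = c (h⁻¹ * g) - c h⁻¹ := by rw [h1, add_sub_cancel_left]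
    rw [h2, inner_sub_left, hw', hw', sub_zero]
  set W : Submodule ℝ V := W' ⊓ W''ᗮ with hW
  have hWf : FiniteDimensional ℝ W := Submodule.finiteDimensional_of_le inf_le_left
  have hWi : Inv π W := fun g w hw => ⟨hW'i g w hw.1, dr_inv_orth π hW''i g w hw.2⟩
  have hWn : ∀ w ∈ W, w ≠ 0 → ∃ g, inner ℝ (c g) w ≠ 0 := by
    intro w hw hw0
    by_contra hno
    push Not at hno
    have h1 : w ∈ W'' := ⟨hw.1, hno⟩
    have h2 := (Submodule.mem_orthogonal _ _).1 hw.2 w h1
    exact hw0 (inner_self_eq_zero.1 h2)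
  -- a nonzero vector of `W`
  set y : V := P w₁ - W''.starProjection (P w₁) with hy
  have hyW : y ∈ W := by
    refine ⟨W'.sub_mem ⟨w₁, hw₁, rfl⟩ (hW''le (W''.starProjection_apply_mem _)), ?_⟩
    exact Submodule.sub_starProjection_mem_orthogonal _
  have hy0 : y ≠ 0 := by
    intro h0
    have h1 : P w₁ ∈ W'' := by
      have h2 : P w₁ = W''.starProjection (P w₁) := sub_eq_zero.1 h0
      rw [h2]
      exact W''.starProjection_apply_mem _
    exact hne (by rw [real_inner_comm]; exact h1.2 g₀)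
  obtain ⟨R, a, ha, hgr⟩ := greedy hS π c hc hh W hWf hWi hWn
  set w : V := ‖y‖⁻¹ • y with hw
  have hwW : w ∈ W := W.smul_mem _ hyW
  have hw1 : ‖w‖ = 1 := by
    rw [hw, norm_smul, norm_inv, norm_norm, inv_mul_cancel₀ (norm_ne_zero_iff.2 hy0)]
  choose p hpl hpa using hgr w hwW hw1
  obtain ⟨K, hK, hKm⟩ := exists_compact hS π c hc (fun s _ => TB_fdSpan π (hfd s))
  -- the normalised values
  set x : ℕ → V := fun m => (((R + 1) * (m + 1) : ℕ) : ℝ)⁻¹ • c (p (m + 1)) with hx
  have hxK : ∀ m, x m ∈ K := fun m => hKm _ _ (by (clear * -; (clear * -; positivity))) (by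
    refine (hpl (m + 1)).trans ?_
    exact Nat.mul_le_mul_right _ (Nat.le_succ R))
  obtain ⟨z, hzK, φ, hφ, hlim⟩ := hK.tendsto_subseq hxK
  have hR : (0 : ℝ) < R + 1 := by (clear * -; (clear * -; positivity))
  have hxfd : ∀ m, x m ∈ fdSpan π := fun m => (fdSpan π).smul_mem _ (hfd _)
  have hzfd : z ∈ fdSpan π :=
    (Submodule.isClosed_topologicalClosure _).mem_of_tendsto hlim
      (Eventually.of_forall fun k => hxfd (φ k))
  have hzin : a / (R + 1) ≤ inner ℝ z w := by
    refine ge_of_tendsto (hlim.inner tendsto_const_nhds) (Eventually.of_forall fun k => ?_)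
    change a / (R + 1) ≤ inner ℝ (x (φ k)) w
    rw [hx]
    simp only
    rw [real_inner_smul_left]
    have h1 := hpa (φ k + 1)
    have h2 : (0 : ℝ) < ((φ k + 1 : ℕ) : ℝ) := by (clear * -; positivity)
    have h3 : (((R + 1) * (φ k + 1) : ℕ) : ℝ) = ((R : ℝ) + 1) * ((φ k + 1 : ℕ) : ℝ) := by
      push_cast
      ring
    rw [h3, inv_mul_eq_div, div_le_div_iff₀ hR (mul_pos hR h2)]
    calc a * (((R : ℝ) + 1) * ((φ k + 1 : ℕ) : ℝ)) = (a * ((φ k + 1 : ℕ) : ℝ)) * (R + 1) := by ring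
      _ ≤ _ := mul_le_mul_of_nonneg_right h1 hR.le
  set v : V := ((R : ℝ) + 1) • z with hv
  have hvfd : v ∈ fdSpan π := (fdSpan π).smul_mem _ hzfd
  have hsub : RelSub S c v R := by
    intro η hη n₀
    have h1 := Metric.tendsto_atTop.1 hlim (η / (R + 1)) (by (clear * - hη; (clear * - hη; positivity)))
    obtain ⟨k₀, hk₀⟩ := h1
    set k := max k₀ n₀ with hk
    have h2 := hk₀ k (le_max_left _ _)
    have h3 : n₀ ≤ φ k := (le_max_right k₀ n₀).trans (hφ.id_le k)
    refine ⟨φ k + 1, by omega, p (φ k + 1), ?_, ?_⟩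
    · have h4 : (len S (p (φ k + 1)) : ℝ) ≤ R * ((φ k + 1 : ℕ) : ℝ) := by
        exact_mod_cast hpl (φ k + 1)
      have h5 : (0 : ℝ) ≤ η * ((φ k + 1 : ℕ) : ℝ) := by (clear * - hη; (clear * - hη; positivity))
      linarith only [h5, h4]
    · have h6 : c (p (φ k + 1)) = (((R + 1) * (φ k + 1) : ℕ) : ℝ) • x (φ k) := by
        rw [hx]
        simp only
        rw [smul_smul, mul_inv_cancel₀ (by (clear * -; positivity)), one_smul]
      have h7 : c (p (φ k + 1)) - ((φ k + 1 : ℕ) : ℝ) • v =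
          (((R + 1) * (φ k + 1) : ℕ) : ℝ) • (x (φ k) - z) := by
        have h10 : (((R + 1) * (φ k + 1) : ℕ) : ℝ) = ((φ k + 1 : ℕ) : ℝ) * ((R : ℝ) + 1) := by
          push_cast
          ring
        rw [h6, h10, smul_sub, mul_smul, mul_smul]
      rw [h7, norm_smul, Real.norm_of_nonneg (by (clear * -; positivity)), ← dist_eq_norm]
      have h8 : dist (x (φ k)) z < η / (R + 1) := h2
      have h9 : (((R + 1) * (φ k + 1) : ℕ) : ℝ) * dist (x (φ k)) z ≤
          (((R + 1) * (φ k + 1) : ℕ) : ℝ) * (η / (R + 1)) :=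
        mul_le_mul_of_nonneg_left h8.le (by (clear * -; positivity))
      refine h9.trans (le_of_eq ?_)
      push_cast
      (clear * - hη; field_simp)
  have hvB : v ∈ B := (hB v).2 ⟨TB_fdSpan π hvfd, R, by (clear * -; positivity),
    rel_of_relSub hS π c hc (TB_fdSpan π hvfd) (by (clear * -; positivity)) hsub⟩
  have hvU : v ∈ U := Submodule.le_topologicalClosure _ hvB
  have h0 : inner ℝ v w = (0 : ℝ) :=
    (Submodule.mem_orthogonal _ _).1 (hW'U hwW.1) v hvU
  rw [hv, real_inner_smul_left] at h0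
  have h1 : 0 < a / (R + 1) := by (clear * - ha; positivity)
  have h2 : 0 < ((R : ℝ) + 1) * inner ℝ z w := mul_pos hR (h1.trans_le hzin)
  linarith only [h0, h2]

end Rep

end Vale.Agent.P188.SG
end
end
end

section

section

section

/-! P188, Theorem S+: there are no `k + 1` independent realized vectors. -/

universe u v

open Filter Topology

namespace Vale.Agent.P188.SG

/-! ### means -/

open Classical in
theorem NoIndep_markov {X : Type u} {μ : (X → ℝ) → ℝ} (hμ : IsMean μ) {φ : X → ℝ} (hφ : Bdd φ)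
    (h0 : ∀ x, 0 ≤ φ x) {a : ℝ} (ha : 0 < a) :
    μ (fun x => if a < φ x then 1 else 0) ≤ a⁻¹ * μ φ := by
  rw [← hμ.smul _ _ hφ]
  refine hμ.le ⟨1, fun x => ?_⟩ (hφ.const_mul _) fun x => ?_
  · dsimp only
    split_ifs <;> simp
  · split_ifs with h
    · rw [← inv_mul_cancel₀ ha.ne']
      exact mul_le_mul_of_nonneg_left h.le (inv_nonneg.2 ha.le)
    · exact mul_nonneg (inv_nonneg.2 ha.le) (h0 x)

theorem NoIndep_sum_bdd {X : Type u} (F : ℕ → X → ℝ) (hF : ∀ j, Bdd (F j)) (n : ℕ) :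
    Bdd (fun x => ∑ j ∈ Finset.range n, F j x) := by
  induction n with
  | zero => simpa using Bdd.const (X := X) 0
  | succ n ih =>
    simp only [Finset.sum_range_succ]
    exact ih.add (hF n)

theorem NoIndep_mean_sum {X : Type u} {μ : (X → ℝ) → ℝ} (hμ : IsMean μ) (F : ℕ → X → ℝ)
    (hF : ∀ j, Bdd (F j)) (n : ℕ) :
    μ (fun x => ∑ j ∈ Finset.range n, F j x) = ∑ j ∈ Finset.range n, μ (F j) := by
  induction n with
  | zero => simpa using hμ.const 0
  | succ n ih =>
    simp only [Finset.sum_range_succ]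
    rw [← ih]
    exact hμ.add _ _ (NoIndep_sum_bdd F hF n) (hF n)

open Classical in
theorem NoIndep_exists_good {X : Type u} {μ : (X → ℝ) → ℝ} (hμ : IsMean μ) (Y : X → Prop)
    (bad : ℕ → X → Prop) (n : ℕ)
    (h : ∑ j ∈ Finset.range n, μ (fun x => if bad j x then 1 else 0) <
      μ (fun x => if Y x then 1 else 0)) :
    ∃ x, Y x ∧ ∀ j < n, ¬ bad j x := by
  by_contra hcon
  push Not at hcon
  have hB : ∀ j, Bdd (fun x => if bad j x then (1 : ℝ) else 0) := fun j =>
    ⟨1, fun x => by dsimp only; split_ifs <;> simp⟩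
  rw [← NoIndep_mean_sum hμ (fun j x => if bad j x then (1 : ℝ) else 0) hB n] at h
  refine absurd h (not_lt.2 (hμ.le ⟨1, fun x => by dsimp only; split_ifs <;> simp⟩
    (NoIndep_sum_bdd _ hB n) fun x => ?_))
  have hnn : ∀ j ∈ Finset.range n, (0 : ℝ) ≤ if bad j x then (1 : ℝ) else 0 := fun j _ => by
    split_ifs <;> simp
  by_cases hx : Y x
  · obtain ⟨j, hj, hb⟩ := hcon x hx
    rw [if_pos hx]
    refine le_trans (le_of_eq ?_) (Finset.single_le_sum hnn (Finset.mem_range.2 hj))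
    rw [if_pos hb]
  · rw [if_neg hx]
    exact Finset.sum_nonneg hnn

theorem NoIndep_log {A B a : ℝ} (hA : 0 ≤ A) (hB : 0 ≤ B) (ha : 0 < a) :
    ∀ᶠ n : ℕ in atTop, A * (1 + Real.log (1 + B * n)) ≤ a * n := by
  rcases hB.eq_or_lt with h0 | h0
  · have h1 : Tendsto (fun n : ℕ => a * (n : ℝ)) atTop atTop :=
      tendsto_natCast_atTop_atTop.const_mul_atTop ha
    filter_upwards [h1.eventually_ge_atTop A] with n hn
    rw [← h0, zero_mul, add_zero, Real.log_one, add_zero, mul_one]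
    exact hn
  · have h1 : Tendsto (fun n : ℕ => 1 + B * (n : ℝ)) atTop atTop :=
      tendsto_atTop_add_const_left _ _ (tendsto_natCast_atTop_atTop.const_mul_atTop h0)
    have h2 := Real.isLittleO_log_id_atTop.comp_tendsto h1
    obtain ⟨κ, hκ⟩ : ∃ κ : ℝ, κ = a / (4 * (A + 1) * (B + 1)) := ⟨_, rfl⟩
    have hκ0 : 0 < κ := by rw [hκ]; (clear * - ha hA h0; positivity)
    have h3 := h2.bound hκ0
    have h4 : Tendsto (fun n : ℕ => a / 2 * (n : ℝ)) atTop atTop :=
      tendsto_natCast_atTop_atTop.const_mul_atTop (by positivity)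
    filter_upwards [h3, h4.eventually_ge_atTop (A + A * κ)] with n hn hn2
    have h5 : Real.log (1 + B * n) ≤ κ * (1 + B * n) := by
      have h6 : (0 : ℝ) < 1 + B * n := by (clear * - h0; positivity)
      simp only [Function.comp_apply, id_eq, Real.norm_eq_abs, abs_of_pos h6] at hn
      exact (le_abs_self _).trans hn
    have h6 : A * κ * B ≤ a / 2 := by
      rw [hκ]
      have h7 : A * (a / (4 * (A + 1) * (B + 1))) * B =
          a / 4 * (A / (A + 1)) * (B / (B + 1)) := by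
        (clear * - h0 hA ha; field_simp)
      rw [h7]
      have h8 : A / (A + 1) ≤ 1 := by rw [div_le_one (by positivity)]; linarith only []
      have h9 : B / (B + 1) ≤ 1 := by rw [div_le_one (by positivity)]; linarith only []
      have h10 : 0 ≤ A / (A + 1) := by (clear * - hA; positivity)
      have h11 : 0 ≤ B / (B + 1) := by positivity
      calc a / 4 * (A / (A + 1)) * (B / (B + 1)) ≤ a / 4 * 1 * 1 := by (clear * - h8 ha h9 h0; gcongr)
        _ ≤ a / 2 := by linarith only [ha]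
    have hn0 : (0 : ℝ) ≤ n := Nat.cast_nonneg n
    calc A * (1 + Real.log (1 + B * n)) ≤ A * (1 + κ * (1 + B * n)) := by (clear * - h5 hA; gcongr)
      _ = (A + A * κ) + A * κ * B * n := by ring
      _ ≤ a / 2 * n + a / 2 * n := by gcongr
      _ = a * n := by ring

section Walk

variable {H : Type u} [Group H] {S : Finset H}
variable {V : Type v} [NormedAddCommGroup V] [InnerProductSpace ℝ V]

theorem NoIndep_walk (hS : SymGen S) (π : H →* (V ≃ₗᵢ[ℝ] V)) (c : H → V)
    (hc : IsCocycle π c) {L : ℝ} (hL : 0 ≤ L) (hcL : ∀ g, ‖c g‖ ≤ L * len S g) {u : V}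
    (hTB : TB π u) {ρ : ℝ} (hR : Rel S c u ρ) {η : ℝ} (hη : 0 < η) (hη1 : η ≤ 1 / 2) :
    ∃ n₀ : ℕ, ∀ n, n₀ ≤ n → ∃ x p : ℕ → H, p 0 = 1 ∧ (∀ j, p (j + 1) = p j * x j) ∧
      (∀ j, (len S (x j) : ℝ) ≤ (ρ + 1) * n) ∧
      ∀ j : ℕ, ‖c (p j) - ((j : ℝ) * n) • u‖ ≤ 3 * η * j * n := by
  obtain ⟨F, hF⟩ := hTB η hη
  choose r hrF hr using hF
  obtain ⟨R, hRR⟩ : ∃ R : ℕ, R = F.sup (len S) := ⟨_, rfl⟩
  have hlr : ∀ g, (len S (r g) : ℝ) ≤ R := by
    intro g
    rw [hRR]
    exact_mod_cast Finset.le_sup (f := len S) (hrF g)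
  obtain ⟨n₁, hn₁⟩ := hR η hη
  have hc1 : c 1 = 0 := by
    have := hcL 1
    rw [len_one, Nat.cast_zero, mul_zero] at this
    exact norm_le_zero_iff.1 this
  refine ⟨max n₁ ⌈2 * R + L * R / η⌉₊, fun n hn => ?_⟩
  obtain ⟨g, hg1, hg2⟩ := hn₁ n ((le_max_left _ _).trans hn)
  have hnR : 2 * R + L * R / η ≤ (n : ℝ) := by
    refine (Nat.le_ceil _).trans ?_
    exact_mod_cast (le_max_right _ _).trans hn
  have hR0 : (0 : ℝ) ≤ R := Nat.cast_nonneg R
  have hR1 : 2 * (R : ℝ) ≤ n := by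
    have : 0 ≤ L * R / η := by (clear * - hL hη; positivity)
    linarith only [this, hnR]
  have hR2 : L * R ≤ η * n := by
    have h1 : L * R / η ≤ (n : ℝ) := by linarith only [hR1, hnR]
    rw [div_le_iff₀ hη] at h1
    linarith only [h1]
  have hn0 : (0 : ℝ) ≤ n := Nat.cast_nonneg n
  let p : ℕ → H := fun j => Nat.rec 1 (fun _ q => q * (r q⁻¹ * g)) j
  have hp0 : p 0 = 1 := rfl
  have hp1 : ∀ j, p (j + 1) = p j * (r (p j)⁻¹ * g) := fun j => rfl
  refine ⟨fun j => r (p j)⁻¹ * g, p, hp0, hp1, fun j => ?_, fun j => ?_⟩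
  · have h1 : (len S (r (p j)⁻¹ * g) : ℝ) ≤ len S (r (p j)⁻¹) + len S g := by
      exact_mod_cast len_mul_le hS.gen _ _
    have h2 := hlr (p j)⁻¹
    have h3 : η * n ≤ 1 / 2 * n := mul_le_mul_of_nonneg_right hη1 hn0
    linarith only [h3, h2, h1, hR1, hg1]
  · induction j with
    | zero =>
      rw [hp0, hc1]
      simp
    | succ j ih =>
      have h1 : c (p (j + 1)) = c (p j) + π (p j) (c (r (p j)⁻¹)) +
          π (p j) (π (r (p j)⁻¹) (c g)) := by
        rw [hp1, hc, hc, map_add, add_assoc]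
      have h2 : c (p (j + 1)) - (((j + 1 : ℕ) : ℝ) * n) • u =
          (c (p j) - ((j : ℝ) * n) • u) + π (p j) (c (r (p j)⁻¹)) +
          π (p j) (π (r (p j)⁻¹) (c g - (n : ℝ) • u)) +
          (n : ℝ) • π (p j) (π (r (p j)⁻¹) u - π (p j)⁻¹ u) := by
        have h3 : π (p j) (π (p j)⁻¹ u) = u := by
          have : (π (p j) * π (p j)⁻¹) u = u := by
            rw [← map_mul, mul_inv_cancel, map_one]
            rfl
          exact this
        rw [h1, map_sub, map_sub, map_sub, map_smul, map_smul, h3]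
        push_cast
        rw [add_mul, one_mul, add_smul, smul_sub]
        abel
      rw [h2]
      have h4 : ‖π (p j) (c (r (p j)⁻¹))‖ ≤ η * n := by
        rw [LinearIsometryEquiv.norm_map]
        exact ((hcL _).trans (mul_le_mul_of_nonneg_left (hlr _) hL)).trans hR2
      have h5 : ‖π (p j) (π (r (p j)⁻¹) (c g - (n : ℝ) • u))‖ ≤ η * n := by
        rw [LinearIsometryEquiv.norm_map, LinearIsometryEquiv.norm_map]
        exact hg2
      have h6 : ‖(n : ℝ) • π (p j) (π (r (p j)⁻¹) u - π (p j)⁻¹ u)‖ ≤ η * n := by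
        rw [norm_smul, LinearIsometryEquiv.norm_map, Real.norm_eq_abs, abs_of_nonneg hn0,
          norm_sub_rev, mul_comm]
        exact mul_le_mul_of_nonneg_right (hr _) hn0
      refine (norm_add_le _ _).trans ?_
      refine (add_le_add ((norm_add_le _ _).trans (add_le_add (norm_add_le _ _) le_rfl))
        le_rfl).trans ?_
      push_cast
      linarith only [h6, h5, h4, ih]

theorem NoIndep_prod (x p : ℕ → H) (hp0 : p 0 = 1) (hp1 : ∀ j, p (j + 1) = p j * x j) (j : ℕ) :
    ((List.range j).map x).prod = p j := by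
  induction j with
  | zero => simp [hp0]
  | succ j ih => rw [List.range_succ, List.map_append, List.prod_append, ih, hp1]; simp

theorem NoIndep_len (hS : SymGen S) (x p : ℕ → H) (hp0 : p 0 = 1)
    (hp1 : ∀ j, p (j + 1) = p j * x j) {M : ℝ} (hx : ∀ j, (len S (x j) : ℝ) ≤ M) (j : ℕ) :
    (len S (p j) : ℝ) ≤ j * M := by
  induction j with
  | zero => rw [hp0, len_one]; simp
  | succ j ih =>
    rw [hp1]
    have h1 : (len S (p j * x j) : ℝ) ≤ len S (p j) + len S (x j) := by
      exact_mod_cast len_mul_le hS.gen _ _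
    have h2 := hx j
    push_cast
    linarith only [ih, h1, h2]

theorem NoIndep_mean_sq {μ : (H → ℝ) → ℝ} {k : ℕ}
    {f : H → Fin k → ℝ} {Lf : ℝ} (hLf : ∀ y h i, |f (y * h) i - f y i| ≤ Lf * len S h)
    {b c z : H → V} {ι : (H → Fin k → ℝ) → V}
    (hbι : ∀ h, b h = ι (fun y i => f (y * h) i - f y i))
    (hadd : ∀ φ ψ, VBdd φ → VBdd ψ → ι (fun y i => φ y i + ψ y i) = ι φ + ι ψ)
    (hsmul : ∀ (a : ℝ) φ, VBdd φ → ι (fun y i => a * φ y i) = a • ι φ)
    (hnorm : ∀ φ, VBdd φ → ‖ι φ‖ ^ 2 = μ (fun y => ∑ i, (φ y i) ^ 2))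
    (hbcz : ∀ g, b g = c g + z g) {φ : H → Fin k → ℝ} (hφ : VBdd φ) {u : V} {t A₁ A₂ A₃ : ℝ}
    (ht : 0 ≤ t) (p : H) (h1 : ‖c p - t • u‖ ≤ A₁) (h2 : ‖z p‖ ≤ A₂) (h3 : ‖u - ι φ‖ ≤ A₃) :
    μ (fun y => ∑ i, (f (y * p) i - f y i - t * φ y i) ^ 2) ≤ (A₁ + A₂ + t * A₃) ^ 2 := by
  have hψ : VBdd (fun y i => f (y * p) i - f y i) := fun i => ⟨_, fun y => hLf y p i⟩
  have hχ : VBdd (fun y i => (-t) * φ y i) := fun i => (hφ i).const_mul (-t)
  have h4 : ι (fun y i => (f (y * p) i - f y i) + (-t) * φ y i) = b p - t • ι φ := by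
    rw [hadd _ _ hψ hχ, hsmul _ _ hφ, ← hbι, neg_smul, sub_eq_add_neg]
  have h5 : VBdd (fun y i => (f (y * p) i - f y i) + (-t) * φ y i) := fun i => (hψ i).add (hχ i)
  have h6 := hnorm _ h5
  have h7 : (fun y => ∑ i, (f (y * p) i - f y i - t * φ y i) ^ 2) =
      fun y => ∑ i, ((f (y * p) i - f y i) + (-t) * φ y i) ^ 2 := by
    funext y
    refine Finset.sum_congr rfl fun i _ => ?_
    ring
  rw [h7, ← h6, h4]
  refine pow_le_pow_left₀ (norm_nonneg _) ?_ 2
  have h8 : b p - t • ι φ = (c p - t • u) + z p + t • (u - ι φ) := by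
    rw [hbcz, smul_sub]; abel
  rw [h8]
  refine (norm_add_le _ _).trans (add_le_add ((norm_add_le _ _).trans (add_le_add h1 h2)) ?_)
  rw [norm_smul, Real.norm_eq_abs, abs_of_nonneg ht]
  exact mul_le_mul_of_nonneg_left h3 ht

open Classical in
theorem NoIndep_key (hS : SymGen S)
    (μ : (H → ℝ) → ℝ) (hμ : IsMean μ) {k : ℕ}
    (f : H → Fin k → ℝ) (Lf : ℝ) (hLf : ∀ y h i, |f (y * h) i - f y i| ≤ Lf * len S h)
    (C₁ : ℝ) (hC₁ : 0 ≤ C₁)
    (hexc : ∀ (M E : ℝ) (y : H) (l : List H), 0 ≤ M → 0 ≤ E →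
      (∀ x ∈ l, (len S x : ℝ) ≤ M) →
      (∀ l' : List H, l' <+: l → ∀ i, |f (y * l'.prod) i - f y i| ≤ E) →
      (len S l.prod : ℝ) ≤ C₁ * (1 + M + E + Real.log (1 + l.length * M)))
    (π : H →* (V ≃ₗᵢ[ℝ] V)) (b c z : H → V) (ι : (H → Fin k → ℝ) → V)
    (hbι : ∀ h, b h = ι (fun y i => f (y * h) i - f y i))
    (hadd : ∀ φ ψ, VBdd φ → VBdd ψ → ι (fun y i => φ y i + ψ y i) = ι φ + ι ψ)
    (hsmul : ∀ (a : ℝ) φ, VBdd φ → ι (fun y i => a * φ y i) = a • ι φ)
    (hnorm : ∀ φ, VBdd φ → ‖ι φ‖ ^ 2 = μ (fun y => ∑ i, (φ y i) ^ 2))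
    (hc : IsCocycle π c) (hbcz : ∀ g, b g = c g + z g)
    (hz : ∀ ε : ℝ, 0 < ε → ∃ C : ℝ, ∀ g, ‖z g‖ ≤ ε * len S g + C)
    {L τ ρ β δ : ℝ} {m : ℕ} (hL : 1 ≤ L) (hcL : ∀ g, ‖c g‖ ≤ L * len S g) (hτ : 0 < τ)
    (hτ2 : 2 * τ * (L * C₁) ≤ 1 / 8) (hρ : 0 ≤ ρ) (hm1 : 1 ≤ m)
    (hm : 8 * (L * C₁) * (ρ + 1) ≤ m) (hδ : 0 < δ)
    (hδm : ((m : ℝ) + 1) * (δ ^ 2 / τ ^ 2) < β) {u : V} (hu : ‖u‖ = 1) (hTB : TB π u)
    (hR : Rel S c u ρ) {φ : H → Fin k → ℝ} (hφ : VBdd φ) (huφ : ‖u - ι φ‖ ≤ δ / 2)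
    (hY : β ≤ μ (fun y => if ∑ j, (φ y j) ^ 2 ≤ τ ^ 2 then 1 else 0)) : False := by
  have hL0 : 0 ≤ L := by linarith only [hL]
  have hLC : 0 ≤ L * C₁ := mul_nonneg hL0 hC₁
  have hmr : (1 : ℝ) ≤ m := by exact_mod_cast hm1
  obtain ⟨η, hη⟩ : ∃ η : ℝ, η = min (1 / 6) (δ / 12) := ⟨_, rfl⟩
  have hη0 : 0 < η := by rw [hη]; (clear * - hδ; positivity)
  have hη1 : η ≤ 1 / 6 := by rw [hη]; exact min_le_left _ _
  have hη2 : η ≤ δ / 12 := by rw [hη]; exact min_le_right _ _
  obtain ⟨ε, hε⟩ : ∃ ε : ℝ, ε = δ / (4 * (ρ + 2)) := ⟨_, rfl⟩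
  have hε0 : 0 < ε := by rw [hε]; (clear * - hδ hρ; positivity)
  have hε1 : ε * (ρ + 2) = δ / 4 := by rw [hε]; (clear * - hρ hδ; field_simp)
  obtain ⟨Cz, hCz⟩ := hz ε hε0
  obtain ⟨n₀, hn₀⟩ := NoIndep_walk hS π c hc hL0 hcL hTB hR hη0 (by linarith only [hη1])
  have hlog := NoIndep_log (A := L * C₁) (B := m * (ρ + 1)) (a := 1 / 8) hLC (by (clear * - hm1 hρ; positivity))
    (by norm_num)
  have hεn : Tendsto (fun n : ℕ => ε * (n : ℝ)) atTop atTop :=
    tendsto_natCast_atTop_atTop.const_mul_atTop hε0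
  obtain ⟨n, hn1, hn2, hn3, hn4⟩ := ((eventually_ge_atTop n₀).and (hlog.and
    ((hεn.eventually_ge_atTop Cz).and (eventually_ge_atTop 1)))).exists
  have hnr : (1 : ℝ) ≤ n := by exact_mod_cast hn4
  obtain ⟨x, p, hp0, hp1, hx, hp⟩ := hn₀ n hn1
  have hmn : (1 : ℝ) ≤ m * n := by (by_contra nlg; linarith only [hmr, hnr, nlg, mul_nonneg (sub_nonneg.2 hmr) (sub_nonneg.2 hnr)])
  -- the walk, `z`
  have hzp : ∀ j, j ≤ m → ‖z (p j)‖ ≤ δ / 4 * (m * n) := by
    intro j hj
    have h1 := hCz (p j)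
    have h2 := NoIndep_len hS x p hp0 hp1 hx j
    have hjm : (j : ℝ) ≤ m := by exact_mod_cast hj
    have h3 : (len S (p j) : ℝ) ≤ m * ((ρ + 1) * n) :=
      h2.trans (mul_le_mul_of_nonneg_right hjm (by (clear * - hρ hn4; positivity)))
    have h4 : ε * len S (p j) ≤ ε * (m * ((ρ + 1) * n)) := mul_le_mul_of_nonneg_left h3 hε0.le
    have h5 : ε * n ≤ ε * (m * n) := by
      refine mul_le_mul_of_nonneg_left ?_ hε0.le
      nlinarith only [hmr]
    calc ‖z (p j)‖ ≤ ε * (m * ((ρ + 1) * n)) + ε * (m * n) := by linarith only [h5, h4, h1, hn3]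
      _ = ε * (ρ + 2) * (m * n) := by ring
      _ = δ / 4 * (m * n) := by rw [hε1]
  -- the bad sets
  obtain ⟨Fj, hFj⟩ : ∃ Fj : ℕ → H → ℝ, Fj = fun (j : ℕ) (y : H) =>
    ∑ i, (f (y * p j) i - f y i - ((j : ℝ) * n) * φ y i) ^ 2 := ⟨_, rfl⟩
  have hFb : ∀ j, Bdd (Fj j) := by
    intro j
    have h1 : VBdd (fun y i => f (y * p j) i - f y i - ((j : ℝ) * n) * φ y i) := by
      intro i
      have h2 : Bdd (fun y => f (y * p j) i - f y i) := ⟨_, fun y => hLf y (p j) i⟩
      have h3 := h2.add ((hφ i).const_mul (-((j : ℝ) * n)))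
      obtain ⟨K, hK⟩ := h3
      refine ⟨K, fun y => ?_⟩
      refine le_trans (le_of_eq ?_) (hK y)
      congr 1
      simp only [Pi.add_apply]
      ring
    choose K hK using h1
    refine ⟨∑ i, K i ^ 2, fun y => ?_⟩
    rw [hFj, abs_of_nonneg (Finset.sum_nonneg fun i _ => sq_nonneg _)]
    refine Finset.sum_le_sum fun i _ => ?_
    rw [← sq_abs]
    exact pow_le_pow_left₀ (abs_nonneg _) (hK i y) 2
  have hFm : ∀ j, j ≤ m → μ (Fj j) ≤ (δ * (m * n)) ^ 2 := by
    intro j hj
    have hjm : (j : ℝ) ≤ m := by exact_mod_cast hj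
    have h1 := NoIndep_mean_sq hLf hbι hadd hsmul hnorm hbcz hφ (t := (j : ℝ) * n)
      (by (clear * - hn4; positivity)) (p j) (hp j) (hzp j hj) huφ
    rw [hFj]
    refine h1.trans (pow_le_pow_left₀ (by (clear * - hη0 hn4 hδ hm1; (clear * - hη0 hn4 hδ hm1; positivity))) ?_ 2)
    have h2 : (j : ℝ) * n ≤ m * n := by (clear * - hjm hn4; gcongr)
    have h3 : 3 * η * j * n ≤ δ / 4 * (m * n) := by
      calc 3 * η * j * n = 3 * η * (j * n) := by ring
        _ ≤ 3 * (δ / 12) * (m * n) := by (clear * - hη2 h2 hn4 hδ; gcongr)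
        _ = δ / 4 * (m * n) := by ring
    have h4 : (j : ℝ) * n * (δ / 2) ≤ m * n * (δ / 2) := by (clear * - h2 hδ; gcongr)
    calc 3 * η * j * n + δ / 4 * (m * n) + (j : ℝ) * n * (δ / 2) ≤
          δ / 4 * (m * n) + δ / 4 * (m * n) + m * n * (δ / 2) := by linarith only [h4, h3]
      _ = δ * (m * n) := by ring
  have hbad : ∀ j, j ≤ m →
      μ (fun y => if (τ * (m * n)) ^ 2 < Fj j y then 1 else 0) ≤ δ ^ 2 / τ ^ 2 := by
    intro j hj
    have h1 := NoIndep_markov hμ (hFb j) (fun y => by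
      rw [hFj]; exact Finset.sum_nonneg fun i _ => sq_nonneg _)
      (a := (τ * (m * n)) ^ 2) (by (clear * - hτ hm1 hn4; positivity))
    refine h1.trans ?_
    calc ((τ * (m * n)) ^ 2)⁻¹ * μ (Fj j) ≤ ((τ * (m * n)) ^ 2)⁻¹ * (δ * (m * n)) ^ 2 :=
          mul_le_mul_of_nonneg_left (hFm j hj) (by (clear * - hτ hm1 hn4; positivity))
      _ = δ ^ 2 / τ ^ 2 := by
          have : (m : ℝ) * n ≠ 0 := by (clear * - hm1 hn4; positivity)
          (clear * - hm1 hn4 hδ hτ; field_simp)
  obtain ⟨y, hyY, hy⟩ := NoIndep_exists_good hμ (fun y => ∑ j, (φ y j) ^ 2 ≤ τ ^ 2)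
    (fun j y => (τ * (m * n)) ^ 2 < Fj j y) (m + 1) (by
      refine lt_of_le_of_lt (Finset.sum_le_sum fun j hj =>
        hbad j (Nat.lt_succ_iff.1 (Finset.mem_range.1 hj))) (lt_of_lt_of_le ?_ hY)
      rw [Finset.sum_const, Finset.card_range, nsmul_eq_mul]
      push_cast
      exact hδm)
  have hfy : ∀ j, j ≤ m → ∀ i, |f (y * p j) i - f y i| ≤ 2 * τ * (m * n) := by
    intro j hj i
    have hjm : (j : ℝ) ≤ m := by exact_mod_cast hj
    have h1 := not_lt.1 (hy j (Nat.lt_succ_of_le hj))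
    have h2 : (f (y * p j) i - f y i - ((j : ℝ) * n) * φ y i) ^ 2 ≤ (τ * (m * n)) ^ 2 := by
      refine le_trans ?_ h1
      rw [hFj]
      exact Finset.single_le_sum (f := fun i =>
        (f (y * p j) i - f y i - ((j : ℝ) * n) * φ y i) ^ 2) (fun i _ => sq_nonneg _)
        (Finset.mem_univ i)
    have h3 : (φ y i) ^ 2 ≤ τ ^ 2 :=
      le_trans (Finset.single_le_sum (f := fun i => (φ y i) ^ 2) (fun i _ => sq_nonneg _)
        (Finset.mem_univ i)) hyY
    have h4 := abs_le_of_sq_le_sq h2 (by (clear * - hτ hm1 hn4; positivity))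
    have h5 := abs_le_of_sq_le_sq h3 hτ.le
    have h6 : |f (y * p j) i - f y i - ((j : ℝ) * n) * φ y i| ≤ τ * (m * n) := h4
    have h7 : |φ y i| ≤ τ := h5
    have h8 : |((j : ℝ) * n) * φ y i| ≤ (m * n) * τ := by
      rw [abs_mul, abs_of_nonneg (by (clear * - hn4; positivity) : (0 : ℝ) ≤ (j : ℝ) * n)]
      (clear * - hjm hn4 h5 hm1; gcongr)
    calc |f (y * p j) i - f y i| = |(f (y * p j) i - f y i - ((j : ℝ) * n) * φ y i) +
          ((j : ℝ) * n) * φ y i| := by ring_nf
      _ ≤ τ * (m * n) + (m * n) * τ := (abs_add_le _ _).trans (add_le_add h6 h8)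
      _ = 2 * τ * (m * n) := by ring
  -- the excursion lemma
  have hlist := hexc ((ρ + 1) * n) (2 * τ * (m * n)) y ((List.range m).map x) (by (clear * - hρ hn4; positivity))
    (by (clear * - hτ hm1 hn4; positivity)) (fun a ha => by
      obtain ⟨j, -, rfl⟩ := List.mem_map.1 ha
      exact hx j) (fun l' hl' i => by
      have h1 : l' = (List.range (min l'.length m)).map x := by
        rw [← List.take_range, List.map_take]
        exact List.prefix_iff_eq_take.1 hl'
      rw [h1, NoIndep_prod x p hp0 hp1]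
      exact hfy _ (min_le_right _ _) i)
  rw [NoIndep_prod x p hp0 hp1, List.length_map, List.length_range] at hlist
  have h1 : (m : ℝ) * n / 2 ≤ ‖c (p m)‖ := by
    have h2 := hp m
    have h3 : ‖((m : ℝ) * n) • u‖ = m * n := by
      rw [norm_smul, hu, mul_one, Real.norm_eq_abs, abs_of_nonneg (by (clear * - hm1 hn4; positivity))]
    have h4 := norm_sub_norm_le (((m : ℝ) * n) • u) (c (p m))
    rw [norm_sub_rev, h3] at h4
    have h5 : 3 * η * m * n ≤ m * n / 2 := by
      calc 3 * η * m * n = 3 * η * (m * n) := by ring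
        _ ≤ 3 * (1 / 6) * (m * n) := by (clear * - hη1 hm1 hn4; gcongr)
        _ = m * n / 2 := by ring
    linarith only [h5, h4, h2]
  have h2 : ‖c (p m)‖ ≤ L * (C₁ * (1 + (ρ + 1) * n + 2 * τ * (m * n) +
      Real.log (1 + m * ((ρ + 1) * n)))) :=
    (hcL _).trans (mul_le_mul_of_nonneg_left hlist hL0)
  have h3 : L * (C₁ * (1 + (ρ + 1) * n + 2 * τ * (m * n) + Real.log (1 + m * ((ρ + 1) * n)))) =
      L * C₁ * (1 + Real.log (1 + m * (ρ + 1) * n)) + L * C₁ * (ρ + 1) * n +
      2 * τ * (L * C₁) * (m * n) := by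
    rw [← mul_assoc (m : ℝ) (ρ + 1) n]
    ring
  have h4 : L * C₁ * (ρ + 1) * n ≤ m / 8 * n := by
    refine mul_le_mul_of_nonneg_right ?_ (by (clear * - hn4; positivity))
    linarith only [hm]
  have h5 : 2 * τ * (L * C₁) * (m * n) ≤ 1 / 8 * (m * n) :=
    mul_le_mul_of_nonneg_right hτ2 (by (clear * - hm1 hn4; positivity))
  have h6 : (1 / 8 : ℝ) * n ≤ 1 / 8 * (m * n) := by nlinarith only [hmr, h3, h4, h5, hmn]
  have h7 : (m : ℝ) / 8 * n = 1 / 8 * (m * n) := by ring
  rw [h3] at h2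
  linarith only [h6, h5, h4, h2, h1, hmn, hn2]

end Walk

theorem NoIndep_iota {H : Type u} {V : Type v} [NormedAddCommGroup V] [InnerProductSpace ℝ V]
    {k : ℕ} {ι : (H → Fin k → ℝ) → V}
    (hadd : ∀ φ ψ, VBdd φ → VBdd ψ → ι (fun y i => φ y i + ψ y i) = ι φ + ι ψ)
    (hsmul : ∀ (a : ℝ) φ, VBdd φ → ι (fun y i => a * φ y i) = a • ι φ)
    {α : Type} (s : Finset α) (φ : α → H → Fin k → ℝ) (hφ : ∀ a, VBdd (φ a)) (q : α → ℝ) :
    VBdd (fun y j => ∑ a ∈ s, q a * φ a y j) ∧
      ι (fun y j => ∑ a ∈ s, q a * φ a y j) = ∑ a ∈ s, q a • ι (φ a) := by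
  classical
  induction s using Finset.induction_on with
  | empty =>
    refine ⟨fun j => by simpa using Bdd.const (X := H) 0, ?_⟩
    have h0 : VBdd (fun (_ : H) (_ : Fin k) => (0 : ℝ)) := fun j => Bdd.const 0
    have h1 := hsmul 0 _ h0
    simpa only [Finset.sum_empty, mul_zero, zero_smul] using h1
  | insert a s ha ih =>
    obtain ⟨ih1, ih2⟩ := ih
    have h1 : VBdd (fun y j => q a * φ a y j) := fun j => (hφ a j).const_mul (q a)
    have h2 := hadd _ _ h1 ih1
    simp only [Finset.sum_insert ha]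
    refine ⟨fun j => (h1 j).add (ih1 j), ?_⟩
    rw [h2, ih2, hsmul _ _ (hφ a)]

theorem no_indep {H : Type u} [Group H] {S : Finset H} (hS : SymGen S)
    (μ : (H → ℝ) → ℝ) (hμ : IsMean μ)
    (hinv : ∀ (g : H) (f : H → ℝ), Bdd f → μ (fun x => f (x * g)) = μ f) {k : ℕ}
    (f : H → Fin k → ℝ) (Lf : ℝ) (hLf : ∀ y h i, |f (y * h) i - f y i| ≤ Lf * len S h)
    (C₁ : ℝ) (hC₁ : 0 ≤ C₁)
    (hexc : ∀ (M E : ℝ) (y : H) (l : List H), 0 ≤ M → 0 ≤ E →
      (∀ x ∈ l, (len S x : ℝ) ≤ M) →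
      (∀ l' : List H, l' <+: l → ∀ i, |f (y * l'.prod) i - f y i| ≤ E) →
      (len S l.prod : ℝ) ≤ C₁ * (1 + M + E + Real.log (1 + l.length * M)))
    {V : Type v} [NormedAddCommGroup V] [InnerProductSpace ℝ V] [CompleteSpace V]
    (π : H →* (V ≃ₗᵢ[ℝ] V)) (b c z : H → V) (ι : (H → Fin k → ℝ) → V)
    (hbι : ∀ h, b h = ι (fun y i => f (y * h) i - f y i))
    (hadd : ∀ φ ψ, VBdd φ → VBdd ψ → ι (fun y i => φ y i + ψ y i) = ι φ + ι ψ)
    (hsmul : ∀ (a : ℝ) φ, VBdd φ → ι (fun y i => a * φ y i) = a • ι φ)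
    (hnorm : ∀ φ, VBdd φ → ‖ι φ‖ ^ 2 = μ (fun y => ∑ i, (φ y i) ^ 2))
    (hdense : ∀ (v : V) (η : ℝ), 0 < η → ∃ φ, VBdd φ ∧ ‖v - ι φ‖ ≤ η)
    (hc : IsCocycle π c) (hbcz : ∀ g, b g = c g + z g)
    (hz : ∀ ε : ℝ, 0 < ε → ∃ C : ℝ, ∀ g, ‖z g‖ ≤ ε * len S g + C)
    (e : Fin (k + 1) → V) (he : Orthonormal ℝ e)
    (hrel : ∀ i, TB π (e i) ∧ ∃ ρ : ℝ, 0 ≤ ρ ∧ Rel S c (e i) ρ) : False := by
  classical
  obtain ⟨L₀, hL₀, hcL₀⟩ := cocycle_norm_le hS π c hc
  obtain ⟨L, hL⟩ : ∃ L : ℝ, L = L₀ + 1 := ⟨_, rfl⟩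
  have hL1 : 1 ≤ L := by rw [hL]; linarith
  have hL0 : 0 < L := by linarith only [hL₀, hL]
  have hcL : ∀ g, ‖c g‖ ≤ L * len S g := fun g => (hcL₀ g).trans
    (mul_le_mul_of_nonneg_right (by rw [hL]; linarith) (Nat.cast_nonneg _))
  obtain ⟨τ, hτ⟩ : ∃ τ : ℝ, τ = 1 / (16 * L * (C₁ + 1)) := ⟨_, rfl⟩
  have hτ0 : 0 < τ := by rw [hτ]; (clear * - hL1 hC₁; positivity)
  have hτ2 : 2 * τ * (L * C₁) ≤ 1 / 8 := by
    rw [hτ]
    have h1 : 2 * (1 / (16 * L * (C₁ + 1))) * (L * C₁) = 1 / 8 * (C₁ / (C₁ + 1)) := by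
      field_simp
      ring
    rw [h1]
    have h2 : C₁ / (C₁ + 1) ≤ 1 := by rw [div_le_one (by linarith only [hC₁])]; linarith only []
    linarith only [h2]
  obtain ⟨Q, hQne, hQ1, hQ⟩ := NoInd1_exists_net k (η := τ / (4 * Real.sqrt (k + 1)))
    (by (clear * - hτ0; positivity))
  have hQc : (0 : ℝ) < Q.card := by exact_mod_cast hQne.card_pos
  -- realized vectors
  obtain ⟨B, hB⟩ := exists_relSpace hS π c hc
  have heB : ∀ i, e i ∈ B := fun i => (hB _).2 (hrel i)
  have huB : ∀ q : EuclideanSpace ℝ (Fin (k + 1)), TB π (∑ i, q i • e i) ∧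
      ∃ ρ : ℝ, 0 ≤ ρ ∧ Rel S c (∑ i, q i • e i) ρ := fun q =>
    (hB _).1 (B.sum_mem fun i _ => B.smul_mem _ (heB i))
  choose hTB ρ hρ0 hρ using huB
  obtain ⟨R, hR⟩ : ∃ R : ℝ, R = ∑ q ∈ Q, ρ q := ⟨_, rfl⟩
  have hρR : ∀ q ∈ Q, ρ q ≤ R := fun q hq => by
    rw [hR]; exact Finset.single_le_sum (fun q _ => hρ0 q) hq
  obtain ⟨m, hm⟩ : ∃ m : ℕ, m = ⌈8 * (L * C₁) * (R + 1)⌉₊ + 1 := ⟨_, rfl⟩
  have hm1 : 1 ≤ m := by omega
  have hmR : 8 * (L * C₁) * (R + 1) ≤ m := by
    rw [hm]
    push_cast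
    have := Nat.le_ceil (8 * (L * C₁) * (R + 1))
    linarith only [this]
  obtain ⟨β, hβ⟩ : ∃ β : ℝ, β = (3 / 4) / (Q.card : ℝ) := ⟨_, rfl⟩
  have hβ0 : 0 < β := by rw [hβ]; (clear * - hQne hm1 hR hρR hτ0 hQ hL hL1 hL0 hcL hτ hτ2 hm hmR; (clear * - hQne hm1 hR hρR hτ0 hQ hL hL1 hL0 hcL hτ hτ2 hm hmR; positivity))
  obtain ⟨δ, hδ⟩ : ∃ δ : ℝ, δ = τ * Real.sqrt (β / (2 * (m + 1))) := ⟨_, rfl⟩
  have hδ0 : 0 < δ := by rw [hδ]; (clear * - hτ0 hβ0 hm1; (clear * - hτ0 hβ0 hm1; positivity))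
  have hδm : ((m : ℝ) + 1) * (δ ^ 2 / τ ^ 2) < β := by
    have h1 : δ ^ 2 / τ ^ 2 = β / (2 * (m + 1)) := by
      rw [hδ, mul_pow, Real.sq_sqrt (by (clear * - hβ0 hm1; positivity))]
      (clear * - hτ0 hm1 hβ0; field_simp)
    rw [h1]
    have h2 : ((m : ℝ) + 1) * (β / (2 * (m + 1))) = β / 2 := by (clear * - hm1 hβ0; field_simp)
    rw [h2]
    linarith only [hβ0]
  -- approximation
  obtain ⟨η, hη⟩ : ∃ η : ℝ, η = min 1 (δ / (2 * (k + 1))) := ⟨_, rfl⟩
  have hη0 : 0 < η := by rw [hη]; (clear * - hδ0; positivity)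
  have hη1 : η ≤ 1 := by rw [hη]; exact min_le_left _ _
  have hη2 : η ≤ δ / (2 * (k + 1)) := by rw [hη]; exact min_le_right _ _
  have hex : ∀ i, ∃ φ, VBdd φ ∧ ‖e i - ι φ‖ ≤ η := fun i => hdense (e i) η hη0
  choose φ hφ hφe using hex
  have h4 : ∀ i, μ (fun y => ∑ j, (φ i y j) ^ 2) ≤ 4 := by
    intro i
    rw [← hnorm _ (hφ i)]
    have h1 : ‖ι (φ i)‖ ≤ 2 := by
      have h2 : ι (φ i) = e i - (e i - ι (φ i)) := by abel
      rw [h2]
      refine (norm_sub_le _ _).trans ?_
      rw [he.1 i]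
      linarith only [hη1, hφe i]
    calc ‖ι (φ i)‖ ^ 2 ≤ 2 ^ 2 := pow_le_pow_left₀ (norm_nonneg _) h1 2
      _ = 4 := by norm_num
  obtain ⟨q, hq, hqY⟩ := NoInd1_exists_dir hμ φ (fun i j => hφ i j) h4 hτ0 Q hQne hQ
  have hq1 := hQ1 q hq
  have hqi : ∀ i, |q i| ≤ 1 := by
    intro i
    have h1 := EuclideanSpace.norm_sq_eq q
    rw [hq1] at h1
    have h2 : ‖q i‖ ^ 2 ≤ ∑ i, ‖q i‖ ^ 2 :=
      Finset.single_le_sum (f := fun i => ‖q i‖ ^ 2) (fun i _ => sq_nonneg _) (Finset.mem_univ i)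
    rw [← h1, one_pow, Real.norm_eq_abs] at h2
    exact (sq_le_one_iff₀ (abs_nonneg _)).1 h2
  have hu : ‖∑ i, q i • e i‖ = 1 := by
    have h1 : ‖∑ i, q i • e i‖ ^ 2 = 1 := by
      rw [← real_inner_self_eq_norm_sq, he.inner_sum]
      have h2 := EuclideanSpace.norm_sq_eq q
      rw [hq1, one_pow] at h2
      rw [h2]
      refine Finset.sum_congr rfl fun i _ => ?_
      simp [sq]
    have h2 : ‖∑ i, q i • e i‖ ^ 2 = 1 ^ 2 := by rw [h1, one_pow]
    exact (sq_eq_sq₀ (norm_nonneg _) zero_le_one).1 h2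
  obtain ⟨hφq, hιq⟩ := NoIndep_iota hadd hsmul Finset.univ φ hφ (fun i => q i)
  refine NoIndep_key hS μ hμ f Lf hLf C₁ hC₁ hexc π b c z ι hbι hadd hsmul hnorm hc hbcz hz
    hL1 hcL hτ0 hτ2 (hρ0 q) hm1 ?_ hδ0 hδm hu (hTB q) (hρ q) hφq ?_ ?_
  · refine le_trans ?_ hmR
    have := hρR q hq
    have h1 : 0 ≤ 8 * (L * C₁) := by (clear * - hL1 hC₁; positivity)
    (by_contra nlg; linarith only [mul_nonneg (sub_nonneg.2 this) (sub_nonneg.2 h1), mul_nonneg (le_of_lt (sub_pos.2 (not_le.1 nlg))) (sub_nonneg.2 hη1), mul_pos (sub_pos.2 (not_le.1 nlg)) (sub_pos.2 hη0)])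
  · rw [hιq, ← Finset.sum_sub_distrib]
    have h1 : ∀ i ∈ Finset.univ, ‖q i • e i - q i • ι (φ i)‖ ≤ δ / (2 * (k + 1)) := by
      intro i _
      rw [← smul_sub, norm_smul, Real.norm_eq_abs]
      calc |q i| * ‖e i - ι (φ i)‖ ≤ 1 * η := by
            gcongr
            · exact hqi i
            · exact hφe i
        _ ≤ δ / (2 * (k + 1)) := by rw [one_mul]; exact hη2
    refine (norm_sum_le_of_le _ h1).trans (le_of_eq ?_)
    rw [Finset.sum_const, Finset.card_univ, Fintype.card_fin, nsmul_eq_mul]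
    push_cast
    (clear * - hδ0; field_simp)
  · rw [← hβ] at hqY
    exact hqY

end Vale.Agent.P188.SG
end
end
end
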