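import Vale.Agent.P188.MathlibUsed
import Vale.Agent.P188.Bdl.B1
import Vale.Agent.P188.Bdl.B2

set_option linter.all false

section

section

section

end
end
end

section

section

attribute [-instance] ProperSMul.toContinuousSMul IsTopologicalTorsor.toContinuousSMul IdemSemiring.toCanonicallyOrderedAdd IdemSemiring.toMulLeftMono IdemSemiring.toMulRightMono AddQuantale.instAddLeftMono AddQuantale.instAddRightMono Quantale.instMulLeftMono Quantale.instMulRightMono FiniteDimensional.rclike_to_real IsScalarTower.complexToReal FiniteDimensional.complexToReal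

section

/-!
P188, Theorem S: bounded digit expansions in powers of an integral matrix annihilated by a
polynomial with a dominant coefficient.
-/

namespace Vale.Agent.P188.SG

open Polynomial

/-- The value of a vector of polynomials. -/
noncomputable def digitsEv {d : ℕ} (A : Matrix (Fin d) (Fin d) ℤ) (p : Fin d → ℤ[X]) : Fin d → ℤ :=
  fun k => ∑ i, (aeval A (p i)) k i

theorem digitsEv_range {d : ℕ} (A : Matrix (Fin d) (Fin d) ℤ) (p : Fin d → ℤ[X]) {N : ℕ}
    (hN : ∀ i, (p i).natDegree < N) :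
    digitsEv A p = ∑ l ∈ Finset.range N, (A ^ l).mulVec fun i => (p i).coeff l := by
  funext k
  simp only [digitsEv, Finset.sum_apply, Matrix.mulVec, dotProduct]
  rw [Finset.sum_comm]
  refine Finset.sum_congr rfl fun i _ => ?_
  rw [aeval_eq_sum_range' (hN i), Matrix.sum_apply]
  refine Finset.sum_congr rfl fun l _ => ?_
  rw [Matrix.smul_apply, smul_eq_mul, mul_comm]

theorem digitsEv_mul {d : ℕ} (A M : Matrix (Fin d) (Fin d) ℤ) (p p' : Fin d → ℤ[X])
    (h : ∀ i, aeval A (p' i) = M * aeval A (p i)) : digitsEv A p' = M.mulVec (digitsEv A p) := by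
  funext k
  simp only [digitsEv, Matrix.mulVec, dotProduct, Finset.mul_sum]
  rw [Finset.sum_comm]
  refine Finset.sum_congr rfl fun i _ => ?_
  rw [h i, Matrix.mul_apply]

theorem digits_map (p : ℤ[X]) (f : ℤ → ℤ) (hf : f 0 = 0) :
    ∃ w : ℤ[X], ∀ l, w.coeff l = f (p.coeff l) := by
  refine ⟨∑ l ∈ Finset.range (p.natDegree + 1), C (f (p.coeff l)) * X ^ l, fun l => ?_⟩
  rw [finsetSum_coeff]
  simp only [coeff_C_mul_X_pow]
  rw [Finset.sum_ite_eq]
  split_ifs with h
  · rfl
  · rw [Finset.mem_range, not_lt] at h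
    rw [coeff_eq_zero_of_natDegree_lt (by omega), hf]

theorem digits_coeff_mul {e w : ℤ[X]} {c W : ℝ} (hW0 : 0 ≤ W)
    (hw : ∀ l, |((w.coeff l : ℤ) : ℝ)| ≤ W)
    (hc : ∀ m : ℕ, ∑ k ∈ Finset.range (m + 1), |((e.coeff k : ℤ) : ℝ)| ≤ c) (m : ℕ) :
    |(((e * w).coeff m : ℤ) : ℝ)| ≤ c * W := by
  rw [coeff_mul, Int.cast_sum]
  refine (Finset.abs_sum_le_sum_abs _ _).trans ?_
  calc ∑ x ∈ Finset.HasAntidiagonal.antidiagonal m, |((e.coeff x.1 * w.coeff x.2 : ℤ) : ℝ)|
      ≤ ∑ x ∈ Finset.HasAntidiagonal.antidiagonal m, |((e.coeff x.1 : ℤ) : ℝ)| * W := by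
        refine Finset.sum_le_sum fun x _ => ?_
        rw [Int.cast_mul, abs_mul]
        exact mul_le_mul_of_nonneg_left (hw _) (abs_nonneg _)
    _ = (∑ x ∈ Finset.HasAntidiagonal.antidiagonal m, |((e.coeff x.1 : ℤ) : ℝ)|) * W := by
        rw [Finset.sum_mul]
    _ = (∑ k ∈ Finset.range (m + 1), |((e.coeff k : ℤ) : ℝ)|) * W := by
        rw [Finset.Nat.sum_antidiagonal_eq_sum_range_succ_mk]
    _ ≤ c * W := mul_le_mul_of_nonneg_right (hc m) hW0

/-- One step of the reduction. -/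
theorem digits_step {d : ℕ} (A : Matrix (Fin d) (Fin d) ℤ)
    (q : ℤ[X]) (hq : aeval A q = 0) (j : ℕ)
    (hj : ∑ i ∈ q.support.erase j, |q.coeff i| < |q.coeff j|) {Q : ℝ} (hQ : Q = |(q.coeff j : ℝ)|)
    {L : ℕ} {K : ℝ} (v : Fin d → ℤ)
    (h : ∃ p : Fin d → ℤ[X], (∀ i, (p i).natDegree ≤ 2 * L) ∧
      (∀ i l, |(((p i).coeff l : ℤ) : ℝ)| ≤ K) ∧ (A ^ L).mulVec v = digitsEv A p) :
    ∃ p : Fin d → ℤ[X], (∀ i, (p i).natDegree ≤ 2 * (L + q.natDegree)) ∧
      (∀ i l, |(((p i).coeff l : ℤ) : ℝ)| ≤ 2 * Q + (1 - 1 / Q) * K) ∧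
      (A ^ (L + q.natDegree)).mulVec v = digitsEv A p := by
  obtain ⟨p, hp1, hp2, hp3⟩ := h
  have hqj : q.coeff j ≠ 0 := by
    intro hc
    rw [hc, abs_zero] at hj
    exact absurd (Finset.sum_nonneg fun i _ => abs_nonneg (q.coeff i)) (not_le.2 hj)
  have hjD : j ≤ q.natDegree := le_natDegree_of_ne_zero hqj
  have hQ1 : 1 ≤ Q := by
    rw [hQ]
    have h1 := Int.one_le_abs hqj
    exact_mod_cast h1
  have hQ0 : 0 < Q := by linarith only [hQ1]
  -- the quotients
  choose w hw using fun i => digits_map (p i) (fun a => a / q.coeff j) (Int.zero_ediv _)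
  have hr : ∀ i l, |(((p i - C (q.coeff j) * w i).coeff l : ℤ) : ℝ)| ≤ Q := by
    intro i l
    rw [coeff_sub, coeff_C_mul, hw]
    have e1 : (p i).coeff l - q.coeff j * ((p i).coeff l / q.coeff j) =
        (p i).coeff l % q.coeff j := by
      have := Int.emod_add_mul_ediv ((p i).coeff l) (q.coeff j)
      linarith only [this]
    rw [e1, hQ]
    have e2 := Int.emod_nonneg ((p i).coeff l) hqj
    have e3 := Int.emod_lt_abs ((p i).coeff l) hqj
    rw [abs_of_nonneg (by exact_mod_cast e2)]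
    exact_mod_cast e3.le
  rcases isEmpty_or_nonempty (Fin d) with hd | hd
  · refine ⟨fun i => 0, fun i => (IsEmpty.false i).elim, fun i => (IsEmpty.false i).elim,
      funext fun i => (IsEmpty.false i).elim⟩
  have hK0 : 0 ≤ K := (abs_nonneg _).trans (hp2 (Classical.arbitrary _) 0)
  have hwb : ∀ i l, |(((w i).coeff l : ℤ) : ℝ)| ≤ K / Q + 1 := by
    intro i l
    have e1 := hr i l
    rw [coeff_sub, coeff_C_mul] at e1
    push_cast at e1
    have e2 : Q * |(((w i).coeff l : ℤ) : ℝ)| ≤ K + Q := by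
      rw [hQ, ← abs_mul]
      have e3 : (q.coeff j : ℝ) * ((w i).coeff l : ℝ) = ((p i).coeff l : ℝ) -
          (((p i).coeff l : ℝ) - (q.coeff j : ℝ) * ((w i).coeff l : ℝ)) := by ring
      rw [e3]
      refine (abs_sub _ _).trans (add_le_add (hp2 i l) ?_)
      rw [← hQ]
      exact e1
    rw [← sub_nonneg] at e2 ⊢
    have e4 : K / Q + 1 - |(((w i).coeff l : ℤ) : ℝ)| =
        (K + Q - Q * |(((w i).coeff l : ℤ) : ℝ)|) / Q := by
      (clear * - hQ1; field_simp)
    rw [e4]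
    (clear * - e2 hQ1; positivity)
  have hce : ∀ m : ℕ, ∑ k ∈ Finset.range (m + 1), |(((q.erase j).coeff k : ℤ) : ℝ)| ≤ Q - 1 := by
    intro m
    have e1 : ∑ k ∈ Finset.range (m + 1), |(q.erase j).coeff k| ≤
        ∑ k ∈ q.support.erase j, |q.coeff k| := by
      calc ∑ k ∈ Finset.range (m + 1), |(q.erase j).coeff k|
          ≤ ∑ k ∈ Finset.range (m + 1) ∪ q.support.erase j, |(q.erase j).coeff k| :=
            Finset.sum_le_sum_of_subset_of_nonneg Finset.subset_union_left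
              fun k _ _ => abs_nonneg _
        _ = ∑ k ∈ q.support.erase j, |(q.erase j).coeff k| := by
            refine (Finset.sum_subset Finset.subset_union_right fun k _ hk => ?_).symm
            rw [coeff_erase, abs_eq_zero]
            split_ifs with h1
            · rfl
            · by_contra h2
              exact hk (Finset.mem_erase.2 ⟨h1, mem_support_iff.2 h2⟩)
        _ = ∑ k ∈ q.support.erase j, |q.coeff k| := by
            refine Finset.sum_congr rfl fun k hk => ?_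
            rw [coeff_erase, if_neg (Finset.mem_erase.1 hk).1]
    have e2 : ∑ k ∈ Finset.range (m + 1), |(q.erase j).coeff k| + 1 ≤ |q.coeff j| := by omega
    have e3 : ((∑ k ∈ Finset.range (m + 1), |(q.erase j).coeff k| + 1 : ℤ) : ℝ) ≤
        ((|q.coeff j| : ℤ) : ℝ) := by exact_mod_cast e2
    push_cast at e3
    rw [hQ]
    linarith only [e3]
  refine ⟨fun i => X ^ q.natDegree * p i - X ^ (q.natDegree - j) * q * w i, fun i => ?_,
    fun i l => ?_, ?_⟩
  · have hwd : (w i).natDegree ≤ 2 * L := by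
      rw [natDegree_le_iff_coeff_eq_zero]
      intro N hN
      rw [hw, coeff_eq_zero_of_natDegree_lt ((hp1 i).trans_lt hN), Int.zero_ediv]
    refine (natDegree_sub_le _ _).trans (max_le ?_ ?_)
    · refine natDegree_mul_le.trans ?_
      rw [natDegree_X_pow]
      have := hp1 i
      (clear * - hjD this; omega)
    · refine natDegree_mul_le.trans ((add_le_add natDegree_mul_le le_rfl).trans ?_)
      rw [natDegree_X_pow]
      omega
  · have e1 : X ^ q.natDegree * p i - X ^ (q.natDegree - j) * q * w i =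
        X ^ q.natDegree * (p i - C (q.coeff j) * w i) -
          X ^ (q.natDegree - j) * (q.erase j * w i) := by
      have e2 : q = C (q.coeff j) * X ^ j + q.erase j := by
        rw [C_mul_X_pow_eq_monomial]
        exact (monomial_add_erase q j).symm
      have e3 : (X : ℤ[X]) ^ q.natDegree = X ^ (q.natDegree - j) * X ^ j := by
        rw [← pow_add, Nat.sub_add_cancel hjD]
      have e4 : X ^ (q.natDegree - j) * q * w i = X ^ (q.natDegree - j) * (C (q.coeff j) * X ^ j +
          q.erase j) * w i := by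
        rw [← e2]
      rw [e4, e3]
      ring
    have e5 : |((((X : ℤ[X]) ^ q.natDegree * (p i - C (q.coeff j) * w i)).coeff l : ℤ) : ℝ)| ≤
        Q := by
      rw [coeff_X_pow_mul']
      split_ifs
      · exact hr i _
      · simpa only [Int.cast_zero, abs_zero] using hQ0.le
    have e6 : |((((X : ℤ[X]) ^ (q.natDegree - j) * (q.erase j * w i)).coeff l : ℤ) : ℝ)| ≤
        (Q - 1) * (K / Q + 1) := by
      rw [coeff_X_pow_mul']
      split_ifs
      · exact digits_coeff_mul (by (clear * - hK0 hQ1; positivity)) (hwb i) hce _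
      · have : 0 ≤ (Q - 1) * (K / Q + 1) := mul_nonneg (by linarith only [hQ1]) (by (clear * - hK0 hQ1; positivity))
        simpa only [Int.cast_zero, abs_zero, ge_iff_le] using this
    simp only [e1]
    rw [coeff_sub, Int.cast_sub]
    refine (abs_sub _ _).trans ((add_le_add e5 e6).trans ?_)
    have e7 : (Q - 1) * (K / Q + 1) = (1 - 1 / Q) * K + (Q - 1) := by
      (clear * - hQ1 hK0; field_simp)
    rw [e7]
    linarith only []
  · rw [digitsEv_mul A (A ^ q.natDegree) p, ← hp3, Matrix.mulVec_mulVec, ← pow_add, add_comm]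
    intro i
    rw [map_sub, map_mul, map_mul, map_mul, hq, mul_zero, zero_mul, sub_zero, map_pow, aeval_X]

/-- bounded digit expansions in powers of an integral matrix annihilated by a polynomial with a
dominant coefficient -/
theorem digits {d : ℕ} (A B : Matrix (Fin d) (Fin d) ℤ) (hAB : A * B = 1) (hBA : B * A = 1)
    (q : Polynomial ℤ) (hq : Polynomial.aeval A q = 0) (j : ℕ)
    (hj : ∑ i ∈ q.support.erase j, |q.coeff i| < |q.coeff j|) :
    ∃ C : ℕ, ∀ (n : ℕ) (v : Fin d → ℤ), (∀ i, |v i| ≤ 2 ^ n) →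
      ∃ (L : ℕ) (c : ℕ → Fin d → ℤ), L ≤ C * (n + 1) ∧ (∀ l i, |c l i| ≤ C) ∧
        v = (B ^ L).mulVec (∑ l ∈ Finset.range (2 * L + 1), (A ^ l).mulVec (c l)) := by
  have hqj : q.coeff j ≠ 0 := by
    intro hc
    rw [hc, abs_zero] at hj
    exact absurd (Finset.sum_nonneg fun i _ => abs_nonneg (q.coeff i)) (not_le.2 hj)
  obtain ⟨Q, hQ⟩ : ∃ Q : ℝ, Q = |(q.coeff j : ℝ)| := ⟨_, rfl⟩
  have hQ1 : 1 ≤ Q := by
    rw [hQ]
    have h1 := Int.one_le_abs hqj
    exact_mod_cast h1
  have hθ0 : 0 ≤ 1 - 1 / Q := by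
    rw [sub_nonneg, div_le_one (by linarith only [hQ1])]
    exact hQ1
  have hθ1 : 1 - 1 / Q < 1 := by
    have : 0 < 1 / Q := by (clear * - hQ1; positivity)
    linarith only [this]
  obtain ⟨m, hm⟩ := exists_pow_lt_of_lt_one (by norm_num : (0 : ℝ) < 1 / 2) hθ1
  obtain ⟨R, hR⟩ := exists_nat_ge (2 * Q ^ 2 + 1)
  refine ⟨m * q.natDegree + R, fun n v hv => ?_⟩
  have key : ∀ t : ℕ, ∃ p : Fin d → ℤ[X], (∀ i, (p i).natDegree ≤ 2 * (t * q.natDegree)) ∧
      (∀ i l, |(((p i).coeff l : ℤ) : ℝ)| ≤ 2 * Q ^ 2 + (1 - 1 / Q) ^ t * 2 ^ n) ∧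
      (A ^ (t * q.natDegree)).mulVec v = digitsEv A p := by
    intro t
    induction t with
    | zero =>
      refine ⟨fun i => C (v i), fun i => ?_, fun i l => ?_, ?_⟩
      · rw [natDegree_C]
        exact Nat.zero_le _
      · rw [coeff_C]
        have h1 : |((v i : ℤ) : ℝ)| ≤ 2 ^ n := by exact_mod_cast hv i
        have h2 : (0 : ℝ) ≤ 2 ^ n := by positivity
        have h3 : (0 : ℝ) ≤ 2 * Q ^ 2 := by positivity
        rw [pow_zero, one_mul]
        split_ifs
        · linarith only [h3, h1]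
        · rw [Int.cast_zero, abs_zero]
          linarith only [h2, h3]
      · rw [digitsEv_range A (fun i => C (v i)) (N := 1) (fun i => by
          rw [natDegree_C]
          exact one_pos)]
        rw [Finset.sum_range_one, zero_mul, pow_zero]
        simp only [coeff_C_zero]
    | succ t ih =>
      obtain ⟨p, h1, h2, h3⟩ := digits_step A q hq j hj hQ v ih
      have e1 : (t + 1) * q.natDegree = t * q.natDegree + q.natDegree := by ring
      rw [e1]
      refine ⟨p, h1, fun i l => (h2 i l).trans (le_of_eq ?_), h3⟩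
      have e2 : (1 - 1 / Q) * (2 * Q ^ 2) = 2 * Q ^ 2 - 2 * Q := by
        (clear * - hQ1; field_simp)
      rw [mul_add, e2, pow_succ]
      ring
  obtain ⟨p, h1, h2, h3⟩ := key (m * n)
  refine ⟨m * n * q.natDegree, fun l i => (p i).coeff l, ?_, fun l i => ?_, ?_⟩
  · calc m * n * q.natDegree = m * q.natDegree * n := by ring
      _ ≤ (m * q.natDegree + R) * (n + 1) := by
        gcongr
        · omega
        · omega
  · have e1 := h2 i l
    have e2 : (1 - 1 / Q) ^ (m * n) * 2 ^ n ≤ 1 := by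
      rw [pow_mul, ← mul_pow]
      refine pow_le_one₀ (by (clear * - hθ0; positivity)) ?_
      linarith only [hm]
    have e3 : |(((p i).coeff l : ℤ) : ℝ)| ≤ ((m * q.natDegree + R : ℕ) : ℝ) := by
      push_cast
      have : (0 : ℝ) ≤ m * q.natDegree := by (clear * -; positivity)
      linarith only [hR, e1, e2, this]
    exact_mod_cast e3
  · have e1 := digitsEv_range A p (N := 2 * (m * n * q.natDegree) + 1)
      (fun i => Nat.lt_succ_of_le (h1 i))
    have e2 : Commute B A := hBA.trans hAB.symm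
    rw [← e1, ← h3, Matrix.mulVec_mulVec, ← e2.mul_pow, hBA, one_pow, Matrix.one_mulVec]

end Vale.Agent.P188.SG
end
end
end

section

section

attribute [-instance] ProperSMul.toContinuousSMul IsTopologicalTorsor.toContinuousSMul IdemSemiring.toCanonicallyOrderedAdd IdemSemiring.toMulLeftMono IdemSemiring.toMulRightMono AddQuantale.instAddLeftMono AddQuantale.instAddRightMono Quantale.instMulLeftMono Quantale.instMulRightMono FiniteDimensional.rclike_to_real IsScalarTower.complexToReal FiniteDimensional.complexToReal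

section

/-! P188, Theorem S, T7c: controlled Følner pairs are preserved by quasi-isometries. -/

universe u v w

open Filter Topology Pointwise

namespace Vale.Agent.P188.SG


section Fol

variable {H : Type u} [Group H] {S : Finset H}

/-- a finite set of small diameter -/
theorem fol3_card (hS : Subgroup.closure (S : Set H) = ⊤) (A : Finset H) (n : ℕ)
    (hA : ∀ x ∈ A, ∀ y ∈ A, len S (x⁻¹ * y) ≤ n) : A.card ≤ (2 * S.card + 1) ^ n := by
  classical
  rcases A.eq_empty_or_nonempty with h | ⟨x, hx⟩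
  · rw [h]
    exact Nat.zero_le _
  · obtain ⟨h1, h2⟩ := ncard_ball_le hS n
    have h3 : (A.image fun y => x⁻¹ * y).card = A.card :=
      Finset.card_image_of_injective _ (mul_right_injective _)
    rw [← h3, ← Set.ncard_coe_finset]
    refine (Set.ncard_le_ncard ?_ h1).trans h2
    intro z hz
    obtain ⟨y, hy, rfl⟩ := Finset.mem_image.1 (Finset.mem_coe.1 hz)
    exact hA x hx y hy

/-- the set of points mapped into a finite set -/
theorem fol3_preimage {G : Type v} [Group G] {T : Finset G}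
    (hS : Subgroup.closure (S : Set H) = ⊤) (K C : ℝ) (hK : 1 ≤ K) (F : H → G)
    (hq : ∀ x y : H, K⁻¹ * (len S (x⁻¹ * y) : ℝ) - C ≤ (len T ((F x)⁻¹ * F y) : ℝ))
    (E : Finset G) :
    ∃ A : Finset H, (∀ h, h ∈ A ↔ F h ∈ E) ∧
      A.card ≤ (2 * S.card + 1) ^ ⌊K * C⌋₊ * E.card := by
  classical
  have hK0 : 0 < K := by linarith only [hK]
  have hfib : ∀ x y : H, F x = F y → len S (x⁻¹ * y) ≤ ⌊K * C⌋₊ := by
    intro x y hxy
    have h1 := hq x y
    rw [hxy, inv_mul_cancel, len_one, Nat.cast_zero] at h1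
    refine Nat.le_floor ?_
    have h2 : K⁻¹ * (len S (x⁻¹ * y) : ℝ) ≤ C := by linarith only [h1]
    rwa [inv_mul_le_iff₀ hK0] at h2
  have hfin : {h : H | F h ∈ E}.Finite := by
    have h1 : {h : H | F h ∈ E} = ⋃ g ∈ E, {h : H | F h = g} := by
      ext h
      simp only [Set.mem_ofPred_eq, Set.mem_iUnion, exists_prop, exists_eq_right']
    rw [h1]
    refine E.finite_toSet.biUnion fun g _ => ?_
    by_cases hne : ∃ x, F x = g
    · obtain ⟨x, hx⟩ := hne
      refine ((ncard_ball_le hS ⌊K * C⌋₊).1.image fun z => x * z).subset ?_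
      intro y hy
      exact ⟨x⁻¹ * y, hfib x y (hx.trans (Eq.symm hy)), mul_inv_cancel_left x y⟩
    · convert Set.finite_empty
      ext y
      simp only [Set.mem_ofPred_eq, Set.mem_empty_iff_false, iff_false]
      exact fun hy => hne ⟨y, hy⟩
  refine ⟨hfin.toFinset, fun h => hfin.mem_toFinset, ?_⟩
  refine Finset.card_le_mul_card_image_of_maps_to (f := F) (fun a ha => hfin.mem_toFinset.1 ha)
    _ fun b _ => fol3_card hS _ _ ?_
  intro x hx y hy
  exact hfib x y ((Finset.mem_filter.1 hx).2.trans (Finset.mem_filter.1 hy).2.symm)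

theorem folner_of_qi {G : Type v} [Group G] {T : Finset G}
    (hS : Subgroup.closure (S : Set H) = ⊤) (hT : Subgroup.closure (T : Set G) = ⊤)
    (hF : Folner T) (K C : ℝ) (hK : 1 ≤ K) (hC : 0 ≤ C) (F : H → G)
    (hq : IsQuasiIsometry (wordDist (S : Set H)) (wordDist (T : Set G)) K C F) :
    Folner S := by
  classical
  obtain ⟨CG, hF⟩ := hF
  obtain ⟨hq1, hq2⟩ := hq
  have hK0 : 0 < K := by (clear * - hK; linarith)
  have hlo : ∀ x y : H, K⁻¹ * (len S (x⁻¹ * y) : ℝ) - C ≤ (len T ((F x)⁻¹ * F y) : ℝ) := by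
    intro x y
    have h := (hq1 x y).1
    rwa [wordDist_eq_len, wordDist_eq_len] at h
  have hup : ∀ x y : H, (len T ((F x)⁻¹ * F y) : ℝ) ≤ K * (len S (x⁻¹ * y) : ℝ) + C := by
    intro x y
    have h := (hq1 x y).2
    rwa [wordDist_eq_len, wordDist_eq_len] at h
  have hsur : ∀ g : G, ∃ h : H, (len T (g⁻¹ * F h) : ℝ) ≤ C := by
    intro g
    obtain ⟨x, hx⟩ := hq2 g
    rw [wordDist_eq_len] at hx
    exact ⟨x, hx⟩
  choose s hs using hsur
  have hdiam : ∀ (g g' : G) (h : H), (len T (g⁻¹ * F h) : ℝ) ≤ C →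
      (len T (g'⁻¹ * F h) : ℝ) ≤ C → len T (g⁻¹ * g') ≤ ⌊2 * C⌋₊ := by
    intro g g' h h1 h2
    refine Nat.le_floor ?_
    have h3 : g⁻¹ * g' = (g⁻¹ * F h) * (g'⁻¹ * F h)⁻¹ := by group
    have h4 := len_mul_le hT (g⁻¹ * F h) (g'⁻¹ * F h)⁻¹
    rw [← h3, len_inv hT] at h4
    have h5 : (len T (g⁻¹ * g') : ℝ) ≤ len T (g⁻¹ * F h) + len T (g'⁻¹ * F h) := by
      exact_mod_cast h4
    linarith only [h5, h2, h1]
  set D1 : ℕ := (2 * S.card + 1) ^ ⌊K * C⌋₊ with hD1
  set D2 : ℕ := (2 * T.card + 1) ^ ⌊2 * C⌋₊ with hD2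
  refine ⟨⌈K * (CG * (K + 2 * C + 2) + C)⌉₊ + D1 * (CG * D2), fun r => ?_⟩
  obtain ⟨E', E, hne, hmul, hdia, hcard⟩ := hF ⌈K * r + 2 * C⌉₊
  obtain ⟨A, hA, hAc⟩ := fol3_preimage (T := T) hS K C hK F hlo E
  have hstep : ∀ g ∈ E', ∀ h : H, (len T (g⁻¹ * F h) : ℝ) ≤ C → ∀ h' : H, len S h' ≤ r →
      h * h' ∈ A := by
    intro g hg h h1 h' h2
    rw [hA]
    have h3 : F (h * h') = g * ((g⁻¹ * F h) * ((F h)⁻¹ * F (h * h'))) := by group
    rw [h3]
    refine hmul g hg _ ((len_mul_le hT _ _).trans ?_)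
    have h4 := hup h (h * h')
    rw [inv_mul_cancel_left] at h4
    have h5 : (len S h' : ℝ) ≤ r := by exact_mod_cast h2
    have h6 : K * (len S h' : ℝ) ≤ K * r := mul_le_mul_of_nonneg_left h5 hK0.le
    have h7 : ((len T (g⁻¹ * F h) + len T ((F h)⁻¹ * F (h * h')) : ℕ) : ℝ) ≤
        K * r + 2 * C := by
      push_cast
      linarith only [h6, h4, h1]
    exact_mod_cast h7.trans (Nat.le_ceil _)
  have hA' : ∀ h : H, (∃ g ∈ E', (len T (g⁻¹ * F h) : ℝ) ≤ C) → h ∈ A := by
    rintro h ⟨g, hg, h1⟩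
    have h2 := hstep g hg h h1 1 (by rw [len_one]; exact Nat.zero_le _)
    rwa [mul_one] at h2
  refine ⟨A.filter fun h => ∃ g ∈ E', (len T (g⁻¹ * F h) : ℝ) ≤ C, A, ?_, ?_, ?_, ?_⟩
  · obtain ⟨g, hg⟩ := hne
    exact ⟨s g, Finset.mem_filter.2 ⟨hA' _ ⟨g, hg, hs g⟩, g, hg, hs g⟩⟩
  · intro x hx h hh
    obtain ⟨-, g, hg, h1⟩ := Finset.mem_filter.1 hx
    exact hstep g hg x h1 h hh
  · intro x hx y hy
    have h1 := hdia _ ((hA x).1 hx) _ ((hA y).1 hy)
    have h2 : (len T ((F x)⁻¹ * F y) : ℝ) ≤ CG * (⌈K * r + 2 * C⌉₊ + 1) := by exact_mod_cast h1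
    have h3 : (⌈K * r + 2 * C⌉₊ : ℝ) < K * r + 2 * C + 1 := Nat.ceil_lt_add_one (by (clear * - hK hC; (clear * - hK hC; positivity)))
    have h4 : (CG : ℝ) * (⌈K * r + 2 * C⌉₊ + 1) ≤ CG * ((K + 2 * C + 2) * (r + 1)) := by
      refine mul_le_mul_of_nonneg_left ?_ (Nat.cast_nonneg _)
      have h5 : (0 : ℝ) ≤ (2 * C + 2) * r := by (clear * - hC; positivity)
      linarith only [h5, h3, hK0]
    have h5 := hlo x y
    have h6 : K⁻¹ * (len S (x⁻¹ * y) : ℝ) ≤ (CG * (K + 2 * C + 2) + C) * (r + 1) := by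
      have h7 : (0 : ℝ) ≤ C * r := by (clear * - hC; positivity)
      linarith only [h7, h5, h4, h2]
    rw [inv_mul_le_iff₀ hK0] at h6
    have h7 : (len S (x⁻¹ * y) : ℝ) ≤
        ((⌈K * (CG * (K + 2 * C + 2) + C)⌉₊ + D1 * (CG * D2) : ℕ) : ℝ) * (r + 1) := by
      refine h6.trans ?_
      rw [← mul_assoc]
      refine mul_le_mul_of_nonneg_right ((Nat.le_ceil _).trans ?_) (by (clear * -; positivity))
      exact_mod_cast Nat.le_add_right _ _
    exact_mod_cast h7
  · have h1 : E'.card ≤ D2 *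
        (A.filter fun h => ∃ g ∈ E', (len T (g⁻¹ * F h) : ℝ) ≤ C).card := by
      refine Finset.card_le_mul_card_image_of_maps_to (f := s)
        (fun g hg => Finset.mem_filter.2 ⟨hA' _ ⟨g, hg, hs g⟩, g, hg, hs g⟩) _
        fun h _ => fol3_card hT _ _ ?_
      intro g hg g' hg'
      obtain ⟨-, e1⟩ := Finset.mem_filter.1 hg
      obtain ⟨-, e2⟩ := Finset.mem_filter.1 hg'
      exact hdiam g g' h (e1 ▸ hs g) (e2 ▸ hs g')
    calc A.card ≤ D1 * E.card := hAc
      _ ≤ D1 * (CG * (D2 * _)) := Nat.mul_le_mul_left _ (hcard.trans (Nat.mul_le_mul_left _ h1))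
      _ = D1 * (CG * D2) * _ := by ring
      _ ≤ _ := Nat.mul_le_mul_right _ (Nat.le_add_left _ _)

end Fol

end Vale.Agent.P188.SG
end
end
end

section

section

section

section

section

/-!
The rank bound: independent commuting elements of infinite order in a group coarsely equivalent
to a poly-`ℤ` group of length `n` number at most `n`.
-/

universe u v w

namespace Vale.Agent.P188

open Finsupp

set_option linter.unusedSectionVars false

section Cup

variable {H : Type u} [Group H]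

/-- The cup product of the coboundaries of some functions, as a function on lists. -/
def cup : List (H → ℤ) → List H → ℤ
  | [], [_] => 1
  | lam :: Lam, x :: y :: t => (lam y - lam x) * cup Lam (y :: t)
  | _, _ => 0

lemma cup_nil_single (x : H) : cup [] [x] = 1 := by simp only [cup]
lemma cup_nil_nil (Lam : List (H → ℤ)) : cup Lam ([] : List H) = 0 := by cases Lam <;> simp [cup]
lemma cup_nil_cons_cons (x y : H) (t : List H) : cup [] (x :: y :: t) = 0 := by simp [cup]
lemma cup_cons_single (lam : H → ℤ) (Lam : List (H → ℤ)) (x : H) : cup (lam :: Lam) [x] = 0 := by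
  simp [cup]
lemma cup_cons_cons_cons (lam : H → ℤ) (Lam : List (H → ℤ)) (x y : H) (t : List H) :
    cup (lam :: Lam) (x :: y :: t) = (lam y - lam x) * cup Lam (y :: t) := by simp only [cup]

/-- The cochain of `cup`. -/
noncomputable def cc (Lam : List (H → ℤ)) : Ch H →ₗ[ℤ] ℤ := Finsupp.linearCombination ℤ (cup Lam)

@[simp] lemma cc_single (Lam : List (H → ℤ)) (l : List H) (a : ℤ) :
    cc Lam (single l a) = a * cup Lam l := by
  simp [cc, Finsupp.linearCombination_single]

lemma cc_nil_cns_cns (x y : H) (u : Ch H) : cc [] (cns x (cns y u)) = 0 := by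
  have : (cc [] ∘ₗ cns x ∘ₗ cns y : Ch H →ₗ[ℤ] ℤ) = 0 := by
    apply lin_ext
    intro l
    simp [cup_nil_cons_cons]
  exact LinearMap.congr_fun this u

lemma cc_cons_cns_cns (lam : H → ℤ) (Lam : List (H → ℤ)) (x y : H) (u : Ch H) :
    cc (lam :: Lam) (cns x (cns y u)) = (lam y - lam x) * cc Lam (cns y u) := by
  have : (cc (lam :: Lam) ∘ₗ cns x ∘ₗ cns y : Ch H →ₗ[ℤ] ℤ) =
      (lam y - lam x) • (cc Lam ∘ₗ cns y) := by
    apply lin_ext
    intro l
    simp only [LinearMap.coe_comp, Function.comp_apply, cns_single, cc_single, cup_cons_cons_cons, one_mul, LinearMap.smul_apply, Int.zsmul_eq_mul]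
  have := LinearMap.congr_fun this u
  simpa only [LinearMap.coe_comp, Function.comp_apply, LinearMap.smul_apply, Int.zsmul_eq_mul] using this

lemma cc_dl (Lam : List (H → ℤ)) : ∀ l : List H, cc Lam (dl l) = 0 := by
  induction Lam with
  | nil =>
    intro l
    rcases l with _ | ⟨x, _ | ⟨y, t⟩⟩
    · simp
    · simp only [dl_cons, dl_nil, map_zero, sub_zero, cc_single, cup_nil_nil, mul_zero]
    · rcases t with _ | ⟨z, t⟩
      · simp only [dl_cons, dl_nil, map_zero, sub_zero, cns_single, map_sub, cc_single, cup_nil_single, mul_one, sub_self]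
      · rw [dl_cons, dl_cons, dl_cons]
        simp only [map_sub, cns_single, cc_single, cup_nil_cons_cons, cc_nil_cns_cns]
        ring
  | cons lam Lam ih =>
    intro l
    rcases l with _ | ⟨x, _ | ⟨y, t⟩⟩
    · simp only [dl_nil, map_zero]
    · simp only [dl_cons, dl_nil, map_zero, sub_zero, cc_single, cup_nil_nil, mul_zero]
    · rcases t with _ | ⟨z, t⟩
      · simp only [dl_cons, dl_nil, map_zero, sub_zero, cns_single, map_sub, cc_single, cup_cons_single, mul_zero, sub_self]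
      · have h := ih (y :: z :: t)
        rw [dl_cons, map_sub, cc_single, one_mul] at h
        rw [dl_cons, dl_cons]
        simp only [map_sub, cns_single, cc_single, cup_cons_cons_cons, cc_cons_cns_cns]
        have h' : cc Lam (cns y (dl (z :: t))) = cup Lam (z :: t) := by linarith
        rw [h']
        ring

lemma cc_bd (Lam : List (H → ℤ)) (u : Ch H) : cc Lam (bd u) = 0 := by
  have : (cc Lam ∘ₗ bd : Ch H →ₗ[ℤ] ℤ) = 0 := by
    apply lin_ext
    intro l
    simp only [LinearMap.coe_comp, Function.comp_apply, bd_single, one_smul, cc_dl, LinearMap.zero_apply]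
  exact LinearMap.congr_fun this u

lemma cup_map {Lam : List (H → ℤ)} {b : H}
    (h : ∀ lam ∈ Lam, ∃ e : ℤ, ∀ x, lam (b • x) = lam x + e) :
    ∀ l : List H, cup Lam (l.map (fun x => b • x)) = cup Lam l := by
  induction Lam with
  | nil =>
    intro l
    rcases l with _ | ⟨x, _ | ⟨y, t⟩⟩
    · rfl
    · simp [cup_nil_single]
    · simp [cup_nil_cons_cons]
  | cons lam Lam ih =>
    intro l
    rcases l with _ | ⟨x, _ | ⟨y, t⟩⟩
    · rfl
    · simp [cup_cons_single]
    · have ih' := ih (fun lam' hl => h lam' (List.mem_cons_of_mem _ hl)) (y :: t)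
      obtain ⟨e, he⟩ := h lam (by simp)
      rw [List.map_cons, List.map_cons, cup_cons_cons_cons, cup_cons_cons_cons, ← List.map_cons,
        ih', he, he]
      ring

lemma cc_act {Lam : List (H → ℤ)} {b : H}
    (h : ∀ lam ∈ Lam, ∃ e : ℤ, ∀ x, lam (b • x) = lam x + e) (u : Ch H) :
    cc Lam (act b u) = cc Lam u := by
  have : (cc Lam ∘ₗ act b : Ch H →ₗ[ℤ] ℤ) = cc Lam := by
    apply lin_ext
    intro l
    simp [-smul_eq_mul, act_single, cup_map h]
  exact LinearMap.congr_fun this u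

lemma cc_prl_zero {Lam : List (H → ℤ)} {a : H} (h : ∀ lam ∈ Lam, ∀ x, lam (a • x) = lam x) :
    ∀ l : List H, cc Lam (prl (fun x => a • x) l) = 0 := by
  induction Lam with
  | nil =>
    intro l
    rcases l with _ | ⟨x, _ | ⟨y, t⟩⟩
    · simp [prl]
    · simp only [prl, smul_eq_mul, List.map_nil, map_zero, sub_zero, cc_single, cup_nil_cons_cons, mul_zero]
    · rw [prl_cons, prl_cons, ← cns_single, ← cns_single, ← map_sub, ← cns_single,
        map_sub (cns x), ← cns_single]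
      simp only [map_sub, cc_nil_cns_cns]
      simp
  | cons lam Lam ih =>
    intro l
    have ih' := ih (fun lam' hl => h lam' (List.mem_cons_of_mem _ hl))
    have hlam := h lam (by simp)
    rcases l with _ | ⟨x, _ | ⟨y, t⟩⟩
    · simp only [prl, map_zero]
    · simp only [prl, List.map_nil, map_zero, sub_zero, cc_single, cup_cons_cons_cons, hlam, sub_self, zero_mul, mul_zero]
    · have h1 := ih' (y :: t)
      rw [prl_cons] at h1 ⊢
      have h2 : single (y :: (a • y) :: t.map (fun x => a • x)) (1 : ℤ) =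
          cns y (single ((a • y) :: t.map (fun x => a • x)) 1) := by simp
      rw [prl_cons, h2, ← map_sub, map_sub (cc (lam :: Lam)), cc_cons_cns_cns, cc_single,
        cup_cons_cons_cons, hlam]
      rw [h2, ← map_sub] at h1
      rw [h1]
      ring

lemma cc_prl {lam : H → ℤ} {Lam : List (H → ℤ)} {a : H}
    (h : ∀ lam ∈ Lam, ∀ x, lam (a • x) = lam x) (hlam : ∀ x, lam (a • x) = lam x + 1)
    (l : List H) : cc (lam :: Lam) (prl (fun x => a • x) l) = cup Lam l := by
  rcases l with _ | ⟨x, t⟩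
  · simp [prl, cup_nil_nil]
  · have h0 : cup Lam ((a • x) :: t.map (fun x => a • x)) = cup Lam (x :: t) := by
      rw [← cup_map (fun lam hl => ⟨0, fun x => by rw [h lam hl x, add_zero]⟩) (x :: t)]
      rfl
    rw [prl_cons, map_sub, cc_single, cup_cons_cons_cons, hlam, h0]
    rcases t with _ | ⟨y, t⟩
    · simp [prl]
    · have h1 := cc_prl_zero h (y :: t)
      have h2 : single (y :: (a • y) :: t.map (fun x => a • x)) (1 : ℤ) =
          cns y (single ((a • y) :: t.map (fun x => a • x)) 1) := by simp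
      rw [prl_cons, h2, ← map_sub] at h1
      rw [prl_cons, h2, ← map_sub, cc_cons_cns_cns, h1]
      ring

lemma cc_pr {lam : H → ℤ} {Lam : List (H → ℤ)} {a : H}
    (h : ∀ lam ∈ Lam, ∀ x, lam (a • x) = lam x) (hlam : ∀ x, lam (a • x) = lam x + 1)
    (u : Ch H) : cc (lam :: Lam) (pr (fun x => a • x) u) = cc Lam u := by
  have : (cc (lam :: Lam) ∘ₗ pr (fun x => a • x) : Ch H →ₗ[ℤ] ℤ) = cc Lam := by
    apply lin_ext
    intro l
    simp [-smul_eq_mul, cc_prl h hlam]
  exact LinearMap.congr_fun this u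

lemma prl_act {a b : H} (hab : a * b = b * a) (l : List H) :
    prl (fun x => a • x) (l.map (fun x => b • x)) = act b (prl (fun x => a • x) l) := by
  induction l with
  | nil => simp only [smul_eq_mul, List.map_nil, prl, map_zero]
  | cons x t ih =>
    have e : ∀ y : H, a • b • y = b • a • y := by
      intro y
      rw [← mul_smul, hab, mul_smul]
    rw [List.map_cons, prl_cons, prl_cons, ih, map_sub, act_cns, act_single]
    simp only [List.map_cons, List.map_map]
    congr 2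
    rw [e]
    congr 3
    funext y
    exact e y

lemma pr_act {a b : H} (hab : a * b = b * a) (u : Ch H) :
    pr (fun x => a • x) (act b u) = act b (pr (fun x => a • x) u) := by
  have : (pr (fun x => a • x) ∘ₗ act b : Ch H →ₗ[ℤ] Ch H) = act b ∘ₗ pr (fun x => a • x) := by
    apply lin_ext
    intro l
    simp only [LinearMap.coe_comp, Function.comp_apply, act_single, pr_single, prl_act hab, one_smul]
  exact LinearMap.congr_fun this u

/-- The relations `b • u = u` for `b` in a list. -/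
noncomputable def Rel (L : List H) : Submodule ℤ (Ch H) :=
  Submodule.span ℤ {v | ∃ b ∈ L, ∃ u : Ch H, v = act b u - u}

lemma Rel_mono {L L' : List H} (h : L ⊆ L') : Rel L ≤ Rel L' :=
  Submodule.span_mono (fun _ ⟨b, hb, u, hv⟩ => ⟨b, h hb, u, hv⟩)

lemma map_Rel {L : List H} {T : Ch H →ₗ[ℤ] Ch H} (h : ∀ b ∈ L, ∀ u, T (act b u) = act b (T u))
    {v : Ch H} (hv : v ∈ Rel L) : T v ∈ Rel L := by
  have : Rel L ≤ (Rel L).comap T := by
    apply Submodule.span_le.mpr
    rintro _ ⟨b, hb, u, rfl⟩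
    show T (act b u - u) ∈ Rel L
    rw [map_sub, h b hb]
    exact Submodule.subset_span ⟨b, hb, T u, rfl⟩
  exact this hv

lemma cc_Rel {Lam : List (H → ℤ)} {L : List H}
    (h : ∀ b ∈ L, ∀ lam ∈ Lam, ∃ e : ℤ, ∀ x, lam (b • x) = lam x + e)
    {v : Ch H} (hv : v ∈ Rel L) : cc Lam v = 0 := by
  have : Rel L ≤ LinearMap.ker (cc Lam) := by
    apply Submodule.span_le.mpr
    rintro _ ⟨b, hb, u, rfl⟩
    show cc Lam (act b u - u) = 0
    rw [map_sub, cc_act (h b hb), sub_self]
  exact this hv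

/-- The torus chain. -/
noncomputable def tor : List H → Ch H
  | [] => single [1] 1
  | a :: L => pr (fun x => a • x) (tor L)

lemma tor_mem : ∀ L : List H, tor L ∈ Sp (Gr (L.length + 1))
  | [] => single_mem_Sp (by simp [Gr]) 1
  | a :: L => by
    apply pr_mem _ (tor_mem L)
    intro l hl l' _ h
    rw [mem_Gr] at *
    simp [h, hl]

lemma bd_tor : ∀ (a : H) (L : List H), (a :: L).Pairwise (fun a b => a * b = b * a) →
    bd (tor (a :: L)) ∈ Rel (a :: L)
  | a, [], _ => by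
    have h := bd_pr (fun x : H => a • x) (single [1] 1)
    have e : pr (fun x : H => a • x) (bd (single [1] 1)) = 0 := by
      simp [dl_cons, prl]
    rw [e, add_zero] at h
    show bd (pr (fun x : H => a • x) (single [1] 1)) ∈ _
    rw [h]
    exact Submodule.subset_span ⟨a, by simp, _, rfl⟩
  | a, b :: L, h => by
    have ih := bd_tor b L (List.pairwise_cons.mp h).2
    have h1 := bd_pr (fun x : H => a • x) (tor (b :: L))
    have h2 : bd (pr (fun x : H => a • x) (tor (b :: L))) =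
        (act a (tor (b :: L)) - tor (b :: L)) - pr (fun x : H => a • x) (bd (tor (b :: L))) := by
      rw [eq_sub_iff_add_eq]
      exact h1
    show bd (pr (fun x : H => a • x) (tor (b :: L))) ∈ _
    rw [h2]
    apply Submodule.sub_mem
    · exact Submodule.subset_span ⟨a, by simp, _, rfl⟩
    · apply Rel_mono (List.subset_cons_self a (b :: L))
      apply map_Rel _ ih
      intro c hc u
      exact pr_act ((List.pairwise_cons.mp h).1 c hc) u

/-- Good lists: commuting elements with dual functions. -/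
def Good (L : List (H × (H → ℤ))) : Prop :=
  L.Pairwise (fun p q => p.1 * q.1 = q.1 * p.1 ∧ (∀ x, p.2 (q.1 • x) = p.2 x) ∧
    (∀ x, q.2 (p.1 • x) = q.2 x)) ∧ ∀ p ∈ L, ∀ x, p.2 (p.1 • x) = p.2 x + 1

lemma cc_tor : ∀ L : List (H × (H → ℤ)), Good L → cc (L.map Prod.snd) (tor (L.map Prod.fst)) = 1
  | [], _ => by simp only [List.map_nil, tor, cc_single, cup_nil_single, mul_one]
  | p :: L, h => by
    have h1 := List.pairwise_cons.mp h.1
    have ih := cc_tor L ⟨h1.2, fun q hq => h.2 q (List.mem_cons_of_mem _ hq)⟩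
    rw [List.map_cons, List.map_cons]
    show cc (p.2 :: L.map Prod.snd) (pr (fun x => p.1 • x) (tor (L.map Prod.fst))) = 1
    rw [cc_pr _ (h.2 p (by simp)), ih]
    intro lam hl x
    rw [List.mem_map] at hl
    obtain ⟨q, hq, rfl⟩ := hl
    exact (h1.1 q hq).2.2 x

lemma Good.quasi {L : List (H × (H → ℤ))} (h : Good L) :
    ∀ b ∈ L.map Prod.fst, ∀ lam ∈ L.map Prod.snd, ∃ e : ℤ, ∀ x, lam (b • x) = lam x + e := by
  have key : ∀ p ∈ L, ∀ q ∈ L, ∃ e : ℤ, ∀ x, q.2 (p.1 • x) = q.2 x + e := by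
    intro p hp q hq
    by_cases hpq : p = q
    · subst hpq
      exact ⟨1, h.2 p hp⟩
    · refine ⟨0, fun x => ?_⟩
      rw [add_zero]
      have hsymm : Std.Symm (fun p q : H × (H → ℤ) => p.1 * q.1 = q.1 * p.1 ∧
          (∀ x, p.2 (q.1 • x) = p.2 x) ∧ (∀ x, q.2 (p.1 • x) = q.2 x)) :=
        ⟨fun a b hab => ⟨hab.1.symm, hab.2.2, hab.2.1⟩⟩
      have := List.Pairwise.forall h.1 hp hq hpq
      exact this.2.2 x
  intro b hb lam hlam
  rw [List.mem_map] at hb hlam
  obtain ⟨p, hp, rfl⟩ := hb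
  obtain ⟨q, hq, rfl⟩ := hlam
  exact key p hp q hq

end Cup

section Homotopy

variable {H : Type u} [Group H]

/-- Cone off a family of chains at the head of the list. -/
noncomputable def chd (w : List H → Ch H) : List H → Ch H
  | [] => 0
  | x :: t => cns x (w (x :: t))

/-- The homotopy between `s` and the identity, degree by degree. -/
noncomputable def kap (s : Ch H →ₗ[ℤ] Ch H) : ℕ → (Ch H →ₗ[ℤ] Ch H)
  | 0 => 0
  | q + 1 => Finsupp.linearCombination ℤ
      (chd (fun l => s (single l 1) - single l 1 - kap s q (dl l)))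

lemma kap_succ_single (s : Ch H →ₗ[ℤ] Ch H) (q : ℕ) (x : H) (t : List H) :
    kap s (q + 1) (single (x :: t) 1) =
      cns x (s (single (x :: t) 1) - single (x :: t) 1 - kap s q (dl (x :: t))) := by
  show Finsupp.linearCombination ℤ _ _ = _
  rw [Finsupp.linearCombination_single, one_smul]
  rfl

lemma kap_succ_single_nil (s : Ch H →ₗ[ℤ] Ch H) (q : ℕ) :
    kap s (q + 1) (single [] 1) = 0 := by
  show Finsupp.linearCombination ℤ _ _ = _
  rw [Finsupp.linearCombination_single, one_smul]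
  rfl

lemma kap_act {s : Ch H →ₗ[ℤ] Ch H} (hs : ∀ (g : H) (u : Ch H), s (act g u) = act g (s u))
    (q : ℕ) : ∀ (g : H) (u : Ch H), kap s q (act g u) = act g (kap s q u) := by
  induction q with
  | zero => intro g u; simp only [kap, LinearMap.zero_apply, map_zero]
  | succ q ih =>
    intro g u
    have : (kap s (q + 1) ∘ₗ act g : Ch H →ₗ[ℤ] Ch H) = act g ∘ₗ kap s (q + 1) := by
      apply lin_ext
      intro l
      rw [LinearMap.comp_apply, LinearMap.comp_apply]
      rcases l with _ | ⟨x, t⟩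
      · rw [act_single, List.map_nil, kap_succ_single_nil, map_zero]
      · rw [act_single, List.map_cons, kap_succ_single, kap_succ_single, act_cns]
        congr 1
        rw [map_sub, map_sub, ← hs, ← ih, act_single, List.map_cons]
        congr 2
        have := pf_dl (fun x => g • x) (x :: t)
        rw [List.map_cons] at this
        rw [← this]
        rfl
    exact LinearMap.congr_fun this u

lemma bd_kap {s : Ch H →ₗ[ℤ] Ch H} {Q : ℕ} (hs_nil : s (single [] 1) = single [] 1)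
    (hs_bd : ∀ q ≤ Q, ∀ u ∈ Sp (Gr q : Set (List H)), bd (s u) = s (bd u)) :
    ∀ q ≤ Q, ∀ u ∈ Sp (Gr q : Set (List H)), bd (kap s q u) = s u - u - kap s (q - 1) (bd u) := by
  intro q
  induction q with
  | zero =>
    intro _ u hu
    have := eq_of_Sp (L := s) (L' := LinearMap.id) (p := Gr 0) (u := u) (by
      intro l hl
      have : l = [] := List.length_eq_zero_iff.mp hl
      subst this
      simpa using hs_nil) hu
    rw [this, bd_of_Gr_zero hu]
    simp [kap]
  | succ q ih =>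
    intro hq u hu
    have := eq_of_Sp (L := bd ∘ₗ kap s (q + 1)) (L' := s - LinearMap.id - kap s q ∘ₗ bd)
      (p := Gr (q + 1)) (u := u) (by
      intro l hl
      rcases l with _ | ⟨x, t⟩
      · simp [Gr] at hl
      · have hdl : dl (x :: t) ∈ Sp (Gr q : Set (List H)) := by
          have := bd_mem_Gr (single_mem_Sp hl 1)
          simpa using this
        have e : bd (single (x :: t) (1 : ℤ)) = dl (x :: t) := by simp
        rw [LinearMap.comp_apply, kap_succ_single, bd_cns]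
        have h1 : bd (s (single (x :: t) 1) - single (x :: t) 1 - kap s q (dl (x :: t))) = 0 := by
          rw [map_sub, map_sub, ih (by omega) _ hdl, hs_bd _ hq _ (single_mem_Sp hl 1), e, bd_dl,
            map_zero]
          abel
        rw [h1, map_zero, sub_zero]
        simp only [LinearMap.sub_apply, LinearMap.id_coe, id_eq, LinearMap.coe_comp, Function.comp_apply, bd_single, one_smul]) hu
    simpa only [add_tsub_cancel_right, LinearMap.coe_comp, Function.comp_apply, LinearMap.sub_apply,     LinearMap.id_coe, id_eq] using this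

end Homotopy

theorem rank_le {H : Type u} {Z : Type v} [Group H] [Group Z] {n : ℕ}
    (hc : CoarseEquiv H Z) (hZ : PolyZ n Z) (L : List (H × (H → ℤ))) (hL : Good L) :
    L.length ≠ n + 1 := by
  intro hlen
  obtain ⟨m, s, Θ, hm, hs_eq, hs_nil, hs_mem, hs_bd, hΘ_eq, hΘ_mem, hΘ⟩ := exists_package hc hZ
  set c := cc (L.map Prod.snd) with hcdef
  set z := tor (L.map Prod.fst) with hzdef
  have hz : z ∈ Sp (Gr (n + 2)) := by
    have := tor_mem (L.map Prod.fst)
    rw [List.length_map, hlen] at this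
    exact this
  have hbz : bd z ∈ Rel (L.map Prod.fst) := by
    rcases L with _ | ⟨p, L⟩
    · simp at hlen
    · rw [hzdef, List.map_cons]
      apply bd_tor
      have := hL.1
      rw [← List.map_cons, List.pairwise_map]
      exact this.imp (fun h => h.1)
  have hbz' : bd z ∈ Sp (Gr (n + 1)) := bd_mem_Gr hz
  have hcz : c z = 1 := cc_tor L hL
  -- first: `c (s z) = c z`
  have h1 : c (s z) = 1 := by
    have h := bd_kap hs_nil hs_bd (n + 2) le_rfl z hz
    have h2 : s z = bd (kap s (n + 2) z) + z + kap s (n + 2 - 1) (bd z) := by rw [h]; abel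
    rw [h2, map_add, map_add, hcz, hcdef, cc_bd, cc_Rel hL.quasi, zero_add, add_zero]
    exact map_Rel (fun b _ u => kap_act hs_eq _ b u) hbz
  -- second: `m * c (s z) = 0`
  have h2 : m * c (s z) = 0 := by
    have hcyc : bd (m • s z - Θ (bd z)) = 0 := by
      rw [map_sub, map_smul, hΘ _ hbz' (bd_bd z), hs_bd _ le_rfl _ hz, sub_self]
    have h3 : m • s z - Θ (bd z) = bd (cns 1 (m • s z - Θ (bd z))) := by
      rw [bd_cns, hcyc, map_zero, sub_zero]
    have h4 : c (m • s z - Θ (bd z)) = 0 := by rw [h3]; exact cc_bd _ _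
    have h5 : c (Θ (bd z)) = 0 := cc_Rel hL.quasi (map_Rel (fun b _ u => hΘ_eq b u) hbz)
    rw [map_sub, map_smul, h5, sub_zero] at h4
    simpa only [mul_eq_zero, Int.zsmul_eq_mul] using h4
  rw [h1, mul_one] at h2
  omega

end Vale.Agent.P188
end
end
end
end
end

section

section

section

section

section

/-!
Direct products of nontrivial subgroups in a group coarsely equivalent to a poly-`ℤ` group.
-/

universe u v w

namespace Vale.Agent.P188

section

variable {H : Type u} [Group H] {ι : Type w} [Fintype ι] [DecidableEq ι]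

/-- Independent commuting elements of infinite order admit dual functions. -/
lemma exists_dual (a : ι → H) (hcomm : Pairwise fun i j => Commute (a i) (a j))
    (hind : iSupIndep (fun i => Subgroup.zpowers (a i))) (hinf : ∀ i, orderOf (a i) = 0) :
    ∃ lam : ι → H → ℤ, ∀ i j, ∀ x, lam i (a j • x) = lam i x + if i = j then 1 else 0 := by
  classical
  let φ : ∀ _ : ι, Multiplicative ℤ →* H := fun i => zpowersHom H (a i)
  have hφ : ∀ i (z : Multiplicative ℤ), φ i z = a i ^ (Multiplicative.toAdd z) := fun i z => rfl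
  have hc : Pairwise fun i j => ∀ (x y : Multiplicative ℤ), Commute (φ i x) (φ j y) := by
    intro i j hij x y
    rw [hφ, hφ]
    exact ((hcomm hij).zpow_zpow _ _)
  have hrange : ∀ i, (φ i).range = Subgroup.zpowers (a i) := by
    intro i
    ext x
    constructor
    · rintro ⟨z, rfl⟩
      exact ⟨Multiplicative.toAdd z, rfl⟩
    · rintro ⟨z, rfl⟩
      exact ⟨Multiplicative.ofAdd z, rfl⟩
  have hinj : Function.Injective (MonoidHom.noncommPiCoprod φ hc) := by
    apply MonoidHom.injective_noncommPiCoprod_of_iSupIndep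
    · simpa only [hrange] using hind
    · intro i x y hxy
      rw [hφ, hφ] at hxy
      have h0 : ¬ IsOfFinOrder (a i) := by
        rw [← orderOf_eq_zero_iff]
        exact hinf i
      have := injective_zpow_iff_not_isOfFinOrder.mpr h0 hxy
      exact Multiplicative.toAdd.injective this
  set ψ := MonoidHom.noncommPiCoprod φ hc with hψ
  obtain ⟨D, hD, _⟩ := Subgroup.exists_isComplement_right ψ.range 1
  let E : ψ.range ≃* (ι → Multiplicative ℤ) := (MonoidHom.ofInjective hinj).symm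
  refine ⟨fun i x => Multiplicative.toAdd (E (hD.equiv x).1 i), ?_⟩
  intro i j x
  have hj : a j = ((⟨ψ (Pi.mulSingle j (Multiplicative.ofAdd 1)), ⟨_, rfl⟩⟩ : ψ.range) : H) := by
    show a j = ψ (Pi.mulSingle j (Multiplicative.ofAdd 1))
    rw [hψ, MonoidHom.noncommPiCoprod_mulSingle, hφ, toAdd_ofAdd, zpow_one]
  have hE : E ⟨ψ (Pi.mulSingle j (Multiplicative.ofAdd 1)), ⟨_, rfl⟩⟩ =
      Pi.mulSingle j (Multiplicative.ofAdd 1) := by
    rw [MulEquiv.symm_apply_eq]
    rfl
  have h1 : (hD.equiv (a j • x)).1 =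
      ⟨ψ (Pi.mulSingle j (Multiplicative.ofAdd 1)), ⟨_, rfl⟩⟩ * (hD.equiv x).1 := by
    rw [smul_eq_mul]
    conv_lhs => rw [hj]
    rw [Subgroup.IsComplement.equiv_mul_left]
  simp only
  rw [h1, map_mul, hE, Pi.mul_apply, toAdd_mul, add_comm]
  congr 1
  rw [Pi.mulSingle_apply]
  split_ifs <;> rfl

end

theorem card_le_of_infinite {H : Type u} {Z : Type v} [Group H] [Group Z] {n : ℕ}
    (hc : CoarseEquiv H Z) (hZ : PolyZ n Z) {ι : Type} [Fintype ι] (a : ι → H)
    (hcomm : Pairwise fun i j => Commute (a i) (a j))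
    (hind : iSupIndep (fun i => Subgroup.zpowers (a i))) (hinf : ∀ i, orderOf (a i) = 0) :
    Fintype.card ι ≤ n := by
  classical
  by_contra hlt
  have hle : n + 1 ≤ Fintype.card ι := by omega
  let e : Fin (n + 1) → ι := fun i => (Fintype.equivFin ι).symm (Fin.castLE hle i)
  have he : Function.Injective e := fun i j hij => by
    have := (Fintype.equivFin ι).symm.injective hij
    exact Fin.castLE_injective hle this
  obtain ⟨lam, hlam⟩ := exists_dual (fun i => a (e i)) (fun i j hij => hcomm (fun h => hij (he h)))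
    (hind.comp he) (fun i => hinf (e i))
  refine rank_le hc hZ (List.ofFn (fun i : Fin (n + 1) => (a (e i), lam i))) ⟨?_, ?_⟩ (by simp)
  · rw [List.pairwise_ofFn]
    intro i j hij
    have hne : i ≠ j := ne_of_lt hij
    refine ⟨hcomm (fun h => hne (he h)), fun x => ?_, fun x => ?_⟩
    · simp only
      rw [hlam, if_neg hne, add_zero]
    · simp only
      rw [hlam, if_neg hne.symm, add_zero]
  · intro p hp x
    rw [List.mem_ofFn] at hp
    obtain ⟨i, rfl⟩ := hp
    simp only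
    rw [hlam, if_pos rfl]

theorem two_pow_le_of_finite {H : Type u} [Group H] {m : ℕ} (hm : 0 < m)
    (hdvd : ∀ F : Subgroup H, Finite F → Nat.card F ∣ m) {ι : Type} [Fintype ι] (a : ι → H)
    (hcomm : Pairwise fun i j => Commute (a i) (a j))
    (hind : iSupIndep (fun i => Subgroup.zpowers (a i))) (hfin : ∀ i, orderOf (a i) ≠ 0)
    (hne : ∀ i, a i ≠ 1) : 2 ^ Fintype.card ι ≤ m := by
  classical
  have hc : Pairwise fun i j : ι => ∀ x y : H, x ∈ Subgroup.zpowers (a i) →
      y ∈ Subgroup.zpowers (a j) → Commute x y := by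
    rintro i j hij _ _ ⟨z, rfl⟩ ⟨w, rfl⟩
    exact (hcomm hij).zpow_zpow z w
  have hinj := Subgroup.injective_noncommPiCoprod_of_iSupIndep (hcomm := hc) hind
  have hF : ∀ i, Finite (Subgroup.zpowers (a i)) := by
    intro i
    have h0 : IsOfFinOrder (a i) := orderOf_ne_zero_iff.mp (hfin i)
    exact (finite_zpowers.mpr h0).to_subtype
  have hcard : Nat.card (Subgroup.noncommPiCoprod hc).range = ∏ i, orderOf (a i) := by
    rw [← Nat.card_congr (MonoidHom.ofInjective hinj).toEquiv, Nat.card_pi]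
    exact Finset.prod_congr rfl (fun i _ => Nat.card_zpowers (a i))
  have hfinite : Finite (Subgroup.noncommPiCoprod hc).range :=
    Finite.of_equiv _ (MonoidHom.ofInjective hinj).toEquiv
  have h1 := hdvd _ hfinite
  rw [hcard] at h1
  refine le_trans ?_ (Nat.le_of_dvd hm h1)
  rw [← Finset.card_univ, ← Finset.prod_const]
  apply Finset.prod_le_prod'
  intro i _
  have h2 : orderOf (a i) ≠ 1 := by
    rw [Ne, orderOf_eq_one_iff]
    exact hne i
  have h3 := hfin i
  omega

theorem product_bound {H : Type u} {Z : Type v} [Group H] [Group Z] {n : ℕ}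
    (hc : CoarseEquiv H Z) (hZ : PolyZ n Z) :
    ∃ N : ℕ, ∀ (k : ℕ) (A : Fin k → Subgroup H), (∀ i, A i ≠ ⊥) →
      (∀ i j, i ≠ j → ∀ x ∈ A i, ∀ y ∈ A j, Commute x y) → iSupIndep A → k ≤ N := by
  classical
  obtain ⟨m, hm, hdvd⟩ := card_dvd_of_coarseEquiv hc hZ
  refine ⟨n + m, fun k A hA hcomm hind => ?_⟩
  have hex : ∀ i, ∃ x ∈ A i, x ≠ 1 := by
    intro i
    by_contra hcon
    push Not at hcon
    exact hA i ((Subgroup.eq_bot_iff_forall _).mpr hcon)
  choose a ha ha1 using hex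
  have hle : ∀ i, Subgroup.zpowers (a i) ≤ A i := fun i => by
    rw [Subgroup.zpowers_le]
    exact ha i
  have hcomm' : ∀ i j, i ≠ j → Commute (a i) (a j) := fun i j hij =>
    hcomm i j hij _ (ha i) _ (ha j)
  have hind' : iSupIndep (fun i => Subgroup.zpowers (a i)) := hind.mono hle
  have h1 : Fintype.card {i : Fin k // orderOf (a i) = 0} ≤ n :=
    card_le_of_infinite hc hZ (fun i : {i : Fin k // orderOf (a i) = 0} => a i)
      (fun i j hij => hcomm' _ _ (fun h => hij (Subtype.ext h)))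
      (hind'.comp Subtype.val_injective) (fun i => i.2)
  have h2 : 2 ^ Fintype.card {i : Fin k // ¬ orderOf (a i) = 0} ≤ m :=
    two_pow_le_of_finite hm hdvd (fun i : {i : Fin k // ¬ orderOf (a i) = 0} => a i)
      (fun i j hij => hcomm' _ _ (fun h => hij (Subtype.ext h)))
      (hind'.comp Subtype.val_injective) (fun i => i.2) (fun i => ha1 i)
  have h3 : Fintype.card {i : Fin k // ¬ orderOf (a i) = 0} < m :=
    lt_of_lt_of_le Nat.lt_two_pow_self h2
  have h4 := Fintype.card_subtype_compl (fun i : Fin k => orderOf (a i) = 0)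
  rw [Fintype.card_fin] at h4
  have h5 : Fintype.card {i : Fin k // orderOf (a i) = 0} ≤ k := by
    have := Fintype.card_subtype_le (fun i : Fin k => orderOf (a i) = 0)
    rwa [Fintype.card_fin] at this
  omega

end Vale.Agent.P188
end
end
end
end
end

section

section

attribute [-instance] ProperSMul.toContinuousSMul IsTopologicalTorsor.toContinuousSMul IdemSemiring.toCanonicallyOrderedAdd IdemSemiring.toMulLeftMono IdemSemiring.toMulRightMono AddQuantale.instAddLeftMono AddQuantale.instAddRightMono Quantale.instMulLeftMono Quantale.instMulRightMono FiniteDimensional.rclike_to_real IsScalarTower.complexToReal FiniteDimensional.complexToReal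

section

/-! P188, Theorem S: semidirect products. -/

universe u v w

open Filter Topology Pointwise

namespace Vale.Agent.P188.SG

section Semi

theorem semi_closure_single (d : ℕ) :
    Subgroup.closure (Set.range fun i : Fin d =>
      (Multiplicative.ofAdd (Pi.single i (1 : ℤ) : Fin d → ℤ))) = ⊤ := by
  rw [eq_top_iff]
  intro x _
  have h1 : x = ∏ i, (Multiplicative.ofAdd (Pi.single i (1 : ℤ) : Fin d → ℤ)) ^
      (Multiplicative.toAdd x i) := by
    apply Multiplicative.toAdd.injective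
    rw [toAdd_prod]
    funext j
    simp only [toAdd_zpow, toAdd_ofAdd, zsmul_eq_mul, Finset.sum_apply, Pi.mul_apply, Pi.intCast_apply, Int.cast_eq, Pi.single_apply, mul_ite, mul_one, mul_zero, Finset.sum_ite_eq, Finset.mem_univ, ↓reduceIte]
  rw [h1]
  exact Subgroup.prod_mem _ fun i _ =>
    Subgroup.zpow_mem _ (Subgroup.subset_closure (Set.mem_range_self i)) _

variable {H : Type u} [Group H] {S : Finset H}

theorem semi_len_pow (hS : Subgroup.closure (S : Set H) = ⊤) (g : H) (n : ℕ) :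
    len S (g ^ n) ≤ n * len S g := by
  induction n with
  | zero => rw [pow_zero, len_one]; exact Nat.zero_le _
  | succ n ih =>
    rw [pow_succ, Nat.add_mul, one_mul]
    exact (len_mul_le hS _ _).trans (Nat.add_le_add_right ih _)

theorem semi_len_zpow (hS : Subgroup.closure (S : Set H) = ⊤) (g : H) (z : ℤ) :
    len S (g ^ z) ≤ z.natAbs * len S g := by
  obtain ⟨n, rfl | rfl⟩ := z.eq_nat_or_neg
  · rw [zpow_natCast, Int.natAbs_natCast]
    exact semi_len_pow hS g n
  · rw [zpow_neg, zpow_natCast, len_inv hS, Int.natAbs_neg, Int.natAbs_natCast]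
    exact semi_len_pow hS g n

/-- lengths of the elements of an abelian subgroup -/
theorem semi_len_vec (hS : Subgroup.closure (S : Set H) = ⊤) {d : ℕ}
    (f : Multiplicative (Fin d → ℤ) →* H)
    (hf : ∀ i, f (Multiplicative.ofAdd (Pi.single i (1 : ℤ) : Fin d → ℤ)) ∈ S)
    (C : ℕ) (c : Fin d → ℤ) (hc : ∀ i, |c i| ≤ C) :
    len S (f (Multiplicative.ofAdd c)) ≤ d * C := by
  have h1 : Multiplicative.ofAdd c =
      ∏ i, (Multiplicative.ofAdd (Pi.single i (1 : ℤ) : Fin d → ℤ)) ^ (c i) := by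
    apply Multiplicative.toAdd.injective
    rw [toAdd_prod]
    funext j
    simp only [toAdd_ofAdd, toAdd_zpow, zsmul_eq_mul, Finset.sum_apply, Pi.mul_apply, Pi.intCast_apply, Int.cast_eq, Pi.single_apply, mul_ite, mul_one, mul_zero, Finset.sum_ite_eq, Finset.mem_univ, ↓reduceIte]
  have h2 : ∀ s : Finset (Fin d), len S (f (∏ i ∈ s,
      (Multiplicative.ofAdd (Pi.single i (1 : ℤ) : Fin d → ℤ)) ^ (c i))) ≤ s.card * C := by
    intro s
    induction s using Finset.induction_on with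
    | empty => rw [Finset.prod_empty, map_one, len_one]; exact Nat.zero_le _
    | insert a s ha ih =>
      rw [Finset.prod_insert ha, map_mul, Finset.card_insert_of_notMem ha, Nat.add_mul, one_mul,
        add_comm]
      refine (len_mul_le hS _ _).trans (Nat.add_le_add ?_ ih)
      rw [map_zpow]
      refine (semi_len_zpow hS _ _).trans ?_
      have h3 := len_le_one (hf a)
      have h4 : (c a).natAbs ≤ C := by
        have := hc a
        rw [Int.abs_eq_natAbs] at this
        exact_mod_cast this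
      calc (c a).natAbs * len S (f (Multiplicative.ofAdd (Pi.single a (1 : ℤ) : Fin d → ℤ)))
          ≤ C * 1 := Nat.mul_le_mul h4 h3
        _ = C := mul_one C
  rw [h1]
  refine (h2 _).trans ?_
  rw [Finset.card_univ, Fintype.card_fin]

/-- words in the unit vectors -/
theorem semi_list_bound {d : ℕ} (f : Multiplicative (Fin d → ℤ) →* H) (l : List H)
    (hl : ∀ a ∈ l, (∃ i, a = f (Multiplicative.ofAdd (Pi.single i (1 : ℤ) : Fin d → ℤ))) ∨
      ∃ i, a⁻¹ = f (Multiplicative.ofAdd (Pi.single i (1 : ℤ) : Fin d → ℤ))) :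
    ∃ v : Fin d → ℤ, l.prod = f (Multiplicative.ofAdd v) ∧ ∀ i, |v i| ≤ l.length := by
  induction l with
  | nil => exact ⟨0, by simp only [List.prod_nil, ofAdd_zero, map_one], by simp⟩
  | cons a l ih =>
    obtain ⟨v, hv1, hv2⟩ := ih fun b hb => hl b (List.mem_cons_of_mem _ hb)
    have h1 : ∀ j i : Fin d, |(Pi.single j (1 : ℤ) : Fin d → ℤ) i| ≤ 1 := by
      intro j i
      rw [Pi.single_apply]
      split_ifs <;> simp
    rcases hl a List.mem_cons_self with ⟨j, hj⟩ | ⟨j, hj⟩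
    · refine ⟨Pi.single j 1 + v, ?_, fun i => ?_⟩
      · rw [List.prod_cons, hv1, hj, ← map_mul, ← ofAdd_add]
      · rw [List.length_cons, Pi.add_apply]
        refine (abs_add_le _ _).trans ?_
        push_cast
        have := h1 j i
        have := hv2 i
        linarith
    · refine ⟨-Pi.single j 1 + v, ?_, fun i => ?_⟩
      · have h2 : a = f (Multiplicative.ofAdd (-Pi.single j (1 : ℤ) : Fin d → ℤ)) := by
          rw [ofAdd_neg, map_inv, ← hj, inv_inv]
        rw [List.prod_cons, hv1, h2, ← map_mul, ← ofAdd_add]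
      · rw [List.length_cons, Pi.add_apply, Pi.neg_apply]
        refine (abs_add_le _ _).trans ?_
        rw [abs_neg]
        push_cast
        have := h1 j i
        have := hv2 i
        (clear f a ih hl hv1 hj; linarith)

end Semi

end Vale.Agent.P188.SG
end
end
end

section

section

section

/-! P188, Theorem S: the affine isometric action on a finite-dimensional invariant subspace. -/

universe u v w

open Filter Topology

namespace Vale.Agent.P188.SG

section Rep

variable {H : Type u} [Group H]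
variable {V : Type v} [NormedAddCommGroup V] [InnerProductSpace ℝ V]

/-- the affine map `w ↦ π g w + c g` of `W` -/
def Isom_aff (π : H →* (V ≃ₗᵢ[ℝ] V)) (W : Submodule ℝ V) (hi : Inv π W) (c : H → V)
    (hcW : ∀ g, c g ∈ W) (g : H) (w : W) : W :=
  ⟨π g w + c g, W.add_mem (hi g w w.2) (hcW g)⟩

theorem Isom_aff_mul (π : H →* (V ≃ₗᵢ[ℝ] V)) (W : Submodule ℝ V) (hi : Inv π W) (c : H → V)
    (hcW : ∀ g, c g ∈ W) (hc : IsCocycle π c) (g h : H) (w : W) :
    Isom_aff π W hi c hcW (g * h) w = Isom_aff π W hi c hcW g (Isom_aff π W hi c hcW h w) := by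
  apply Subtype.ext
  show π (g * h) (w : V) + c (g * h) = π g (π h (w : V) + c h) + c g
  rw [hc g h, map_add, map_mul, LinearIsometryEquiv.coe_mul, Function.comp_apply]
  abel

theorem Isom_c_one (π : H →* (V ≃ₗᵢ[ℝ] V)) (c : H → V) (hc : IsCocycle π c) : c 1 = 0 := by
  have h := hc 1 1
  rw [mul_one, map_one, LinearIsometryEquiv.coe_one, id] at h
  exact left_eq_add.1 h

theorem Isom_aff_one (π : H →* (V ≃ₗᵢ[ℝ] V)) (W : Submodule ℝ V) (hi : Inv π W) (c : H → V)
    (hcW : ∀ g, c g ∈ W) (hc : IsCocycle π c) (w : W) :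
    Isom_aff π W hi c hcW 1 w = w := by
  apply Subtype.ext
  show π 1 (w : V) + c 1 = w
  rw [Isom_c_one π c hc, map_one, LinearIsometryEquiv.coe_one, id, add_zero]

theorem Isom_aff_isometry (π : H →* (V ≃ₗᵢ[ℝ] V)) (W : Submodule ℝ V) (hi : Inv π W) (c : H → V)
    (hcW : ∀ g, c g ∈ W) (g : H) : Isometry (Isom_aff π W hi c hcW g) := by
  refine Isometry.of_dist_eq fun x y => ?_
  rw [Subtype.dist_eq, Subtype.dist_eq]
  show dist (π g (x : V) + c g) (π g (y : V) + c g) = dist (x : V) (y : V)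
  rw [dist_add_right, LinearIsometryEquiv.dist_map]

end Rep

end Vale.Agent.P188.SG
end
end
end

section

section

section

/-!
P188, Theorem S+: the affine isometric action on the span of a harmonic cocycle has cobounded
orbits; version with the exact dimension.
-/

universe u v

open Filter Topology

namespace Vale.Agent.P188.SG

section Rep

variable {H : Type u} [Group H] {S : Finset H}
variable {V : Type v} [NormedAddCommGroup V] [InnerProductSpace ℝ V] [CompleteSpace V]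

/-- the span of the values of a cocycle is invariant -/
theorem inv_span (π : H →* (V ≃ₗᵢ[ℝ] V)) (c : H → V) (hc : IsCocycle π c) :
    Inv π (Submodule.span ℝ (Set.range c)) := by
  intro g w hw
  have : Submodule.span ℝ (Set.range c) ≤
      (Submodule.span ℝ (Set.range c)).comap ((π g).toLinearEquiv : V →ₗ[ℝ] V) := by
    refine Submodule.span_le.2 ?_
    rintro _ ⟨h, rfl⟩
    show π g (c h) ∈ Submodule.span ℝ (Set.range c)
    have h1 : π g (c h) = c (g * h) - c g := by rw [hc g h]; abel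
    rw [h1]
    exact Submodule.sub_mem _ (Submodule.subset_span ⟨_, rfl⟩) (Submodule.subset_span ⟨_, rfl⟩)
  exact this hw

theorem exists_isom_cob' (hS : SymGen S) (π : H →* (V ≃ₗᵢ[ℝ] V)) (c : H → V)
    (hc : IsCocycle π c) (hh : ∑ s ∈ S, c s = 0) (d : ℕ)
    (hfin : FiniteDimensional ℝ (Submodule.span ℝ (Set.range c)))
    (hd : Module.finrank ℝ (Submodule.span ℝ (Set.range c)) = d) :
    ∃ ρ : H →* (EuclideanSpace ℝ (Fin d) ≃ᵢ EuclideanSpace ℝ (Fin d)),
      (∀ g ∈ ρ.ker, c g = 0) ∧ ∃ D : ℝ, ∀ w, ∃ g, dist (ρ g 0) w ≤ D := by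
  subst hd
  have hi : Inv π (Submodule.span ℝ (Set.range c)) := inv_span π c hc
  set W : Submodule ℝ V := Submodule.span ℝ (Set.range c) with hWdef
  have hcW : ∀ g, c g ∈ W := fun g => Submodule.subset_span ⟨g, rfl⟩
  have hn : ∀ w ∈ W, w ≠ 0 → ∃ g, inner ℝ (c g) w ≠ 0 := by
    intro w hw hw0
    by_contra hcon
    push Not at hcon
    have h1 : W ≤ (LinearMap.ker (innerSL ℝ w : V →ₗ[ℝ] ℝ)) := by
      refine Submodule.span_le.2 ?_
      rintro _ ⟨g, rfl⟩
      show inner ℝ w (c g) = 0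
      rw [real_inner_comm]
      exact hcon g
    have h2 : inner ℝ w w = 0 := h1 hw
    exact hw0 (inner_self_eq_zero.1 h2)
  obtain ⟨D, hD⟩ := Cob_exists hS π c hc hh W hfin hi hcW hn
  let e := (stdOrthonormalBasis ℝ W).repr
  let F : H → EuclideanSpace ℝ (Fin (Module.finrank ℝ W)) →
      EuclideanSpace ℝ (Fin (Module.finrank ℝ W)) :=
    fun g v => e (Isom_aff π W hi c hcW g (e.symm v))
  have hFmul : ∀ g h v, F (g * h) v = F g (F h v) := by
    intro g h v
    show e (Isom_aff π W hi c hcW (g * h) (e.symm v)) =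
      e (Isom_aff π W hi c hcW g (e.symm (e (Isom_aff π W hi c hcW h (e.symm v)))))
    rw [Isom_aff_mul π W hi c hcW hc, LinearIsometryEquiv.symm_apply_apply]
  have hFone : ∀ v, F 1 v = v := by
    intro v
    show e (Isom_aff π W hi c hcW 1 (e.symm v)) = v
    rw [Isom_aff_one π W hi c hcW hc, LinearIsometryEquiv.apply_symm_apply]
  have hFiso : ∀ g, Isometry (F g) := fun g =>
    e.isometry.comp ((Isom_aff_isometry π W hi c hcW g).comp e.symm.isometry)
  let ρ : H →* (EuclideanSpace ℝ (Fin (Module.finrank ℝ W)) ≃ᵢ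
      EuclideanSpace ℝ (Fin (Module.finrank ℝ W))) :=
    { toFun := fun g => IsometryEquiv.mk' (F g) (F g⁻¹)
        (fun v => by rw [← hFmul, mul_inv_cancel, hFone]) (hFiso g)
      map_one' := by
        ext1 v
        exact hFone v
      map_mul' := fun g h => by
        ext1 v
        exact hFmul g h v }
  have hρ0 : ∀ g, ρ g 0 = e ⟨c g, hcW g⟩ := fun g => by
    show e (Isom_aff π W hi c hcW g (e.symm 0)) = _
    congr 1
    apply Subtype.ext
    show π g ((e.symm 0 : W) : V) + c g = c g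
    rw [map_zero, Submodule.coe_zero, map_zero, zero_add]
  refine ⟨ρ, fun g hg => ?_, D, fun w => ?_⟩
  · have h1 : ρ g = 1 := hg
    have h2 : ρ g 0 = 0 := by rw [h1]; rfl
    rw [hρ0, LinearIsometryEquiv.map_eq_zero_iff] at h2
    exact congrArg Subtype.val h2
  · obtain ⟨g, hg⟩ := hD _ (e.symm w).2
    refine ⟨g, ?_⟩
    rw [hρ0]
    have h3 : dist (e ⟨c g, hcW g⟩) w = dist (⟨c g, hcW g⟩ : W) (e.symm w) := by
      rw [← e.dist_map ⟨c g, hcW g⟩ (e.symm w), LinearIsometryEquiv.apply_symm_apply]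
    rw [h3, Subtype.dist_eq, dist_eq_norm]
    exact hg

end Rep

end Vale.Agent.P188.SG
end
end
end

section

section

attribute [-instance] ProperSMul.toContinuousSMul IsTopologicalTorsor.toContinuousSMul IdemSemiring.toCanonicallyOrderedAdd IdemSemiring.toMulLeftMono IdemSemiring.toMulRightMono AddQuantale.instAddLeftMono AddQuantale.instAddRightMono Quantale.instMulLeftMono Quantale.instMulRightMono FiniteDimensional.rclike_to_real IsScalarTower.complexToReal FiniteDimensional.complexToReal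

section

/-!
P188, Theorem S+: the dimension of the linear part is at least `k`.
-/

universe u v w

open Filter Topology Pointwise

namespace Vale.Agent.P188.SG

/-- the mean of `|g|` is at most the square root of the mean of `g ^ 2` -/
theorem RankGe_mean_abs {X : Type u} {μ : (X → ℝ) → ℝ} (hμ : IsMean μ) {g : X → ℝ} (hg : Bdd g)
    {δ : ℝ} (hδ : 0 < δ) (h : μ (fun y => g y ^ 2) ≤ δ ^ 2) : μ (fun y => |g y|) ≤ δ := by
  have hg1 : Bdd (fun y => |g y|) := by
    obtain ⟨C, hC⟩ := hg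
    exact ⟨C, fun y => by rw [abs_abs]; exact hC y⟩
  have hg2 : Bdd (fun y => g y ^ 2) := by
    obtain ⟨C, hC⟩ := hg
    refine ⟨C ^ 2, fun y => ?_⟩
    rw [abs_pow]
    exact pow_le_pow_left₀ (abs_nonneg _) (hC y) 2
  have h1 : μ (fun y => |g y|) ≤ μ ((fun y => (2 * δ)⁻¹ * g y ^ 2) + fun _ => δ / 2) := by
    refine hμ.le hg1 ((hg2.const_mul _).add (Bdd.const _)) fun y => ?_
    simp only [Pi.add_apply]
    have h2 : 0 ≤ (|g y| - δ) ^ 2 := sq_nonneg _
    have h3 : |g y| ^ 2 = g y ^ 2 := sq_abs _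
    have h4 : (2 * δ)⁻¹ * g y ^ 2 + δ / 2 - |g y| = (2 * δ)⁻¹ * (|g y| - δ) ^ 2 := by
      rw [← h3]
      field_simp
      ring
    have h5 : 0 ≤ (2 * δ)⁻¹ * (|g y| - δ) ^ 2 := by (clear * - hδ; positivity)
    (clear * - h4 h5; linarith)
  rw [hμ.add _ _ (hg2.const_mul _) (Bdd.const _), hμ.smul _ _ hg2, hμ.const] at h1
  have h6 : (2 * δ)⁻¹ * μ (fun y => g y ^ 2) ≤ (2 * δ)⁻¹ * δ ^ 2 :=
    mul_le_mul_of_nonneg_left h (by positivity)
  have h7 : (2 * δ)⁻¹ * δ ^ 2 = δ / 2 := by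
    field_simp
  linarith only [h1, h6, h7]

/-- a point where a function is at most a strict upper bound of its mean -/
theorem RankGe_exists_le {X : Type u} {μ : (X → ℝ) → ℝ} (hμ : IsMean μ) {g : X → ℝ} (hg : Bdd g)
    {a : ℝ} (h : μ g < a) : ∃ y, g y ≤ a := by
  by_contra hcon
  push Not at hcon
  have h1 := hμ.le (Bdd.const a) hg fun y => (hcon y).le
  rw [hμ.const] at h1
  linarith

theorem RankGe_bdd_abs {X : Type u} {g : X → ℝ} (hg : Bdd g) : Bdd (fun y => |g y|) := by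
  obtain ⟨C, hC⟩ := hg
  exact ⟨C, fun y => by rw [abs_abs]; exact hC y⟩

theorem RankGe_bdd_sub {X : Type u} {g h : X → ℝ} (hg : Bdd g) (hh : Bdd h) :
    Bdd (fun y => g y - h y) := by
  obtain ⟨C, hC⟩ := hg
  obtain ⟨D, hD⟩ := hh
  refine ⟨C + D, fun y => ?_⟩
  have h1 := abs_le.1 (hC y)
  have h2 := abs_le.1 (hD y)
  rw [abs_le]
  constructor <;> linarith only [h1, h2]

section Alg

variable {H : Type u} [Group H] {V : Type v} [NormedAddCommGroup V] [InnerProductSpace ℝ V]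

/-- telescoping -/
theorem RankGe_tele {k : ℕ} (π : H →* (V ≃ₗᵢ[ℝ] V)) (c : H → V) (hc : IsCocycle π c)
    (W : Submodule ℝ V) (hi : Inv π W) (hcW : ∀ g, c g ∈ W)
    (E : H → V →ₗ[ℝ] (Fin k → ℝ)) (f : H → ℝ) (i : Fin k) (y : ℕ → H) (α β : ℕ → ℝ) (Λ : ℝ)
    (hβ : ∀ j, 0 ≤ β j) (hΛ : ∀ j, ‖c ((y j)⁻¹ * y (j + 1))‖ ≤ Λ)
    (h1 : ∀ j, |f (y (j + 1)) - f (y j) - E (y j) (c ((y j)⁻¹ * y (j + 1))) i| ≤ α j)
    (h2 : ∀ j, ∀ w ∈ W,
      |E (y (j + 1)) w i - E (y j) (π ((y j)⁻¹ * y (j + 1)) w) i| ≤ ‖w‖ * β j) (n : ℕ) :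
    |f (y n) - f (y 0) - E (y 0) (c ((y 0)⁻¹ * y n)) i| ≤
      ∑ j ∈ Finset.range n, (α j + Λ * n * β j) := by
  have hΛ0 : 0 ≤ Λ := (norm_nonneg _).trans (hΛ 0)
  have hsplit : ∀ j, (y 0)⁻¹ * y (j + 1) = (y 0)⁻¹ * y j * ((y j)⁻¹ * y (j + 1)) := fun j => by
    group
  have key : ∀ j, ∀ w ∈ W, |E (y j) w i - E (y 0) (π ((y 0)⁻¹ * y j) w) i| ≤
      ‖w‖ * ∑ m ∈ Finset.range j, β m := by
    intro j
    induction j with
    | zero =>
      intro w _
      have h3 : π ((y 0)⁻¹ * y 0) w = w := by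
        rw [inv_mul_cancel, map_one]
        rfl
      rw [h3]
      simp
    | succ j ih =>
      intro w hw
      have h3 := h2 j w hw
      have h4 := ih (π ((y j)⁻¹ * y (j + 1)) w) (hi _ w hw)
      rw [LinearIsometryEquiv.norm_map] at h4
      have h5 : π ((y 0)⁻¹ * y (j + 1)) w =
          π ((y 0)⁻¹ * y j) (π ((y j)⁻¹ * y (j + 1)) w) := by
        rw [hsplit j, map_mul]
        rfl
      rw [h5, Finset.sum_range_succ, mul_add]
      have h6 := abs_add_le
        (E (y (j + 1)) w i - E (y j) (π ((y j)⁻¹ * y (j + 1)) w) i)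
        (E (y j) (π ((y j)⁻¹ * y (j + 1)) w) i -
          E (y 0) (π ((y 0)⁻¹ * y j) (π ((y j)⁻¹ * y (j + 1)) w)) i)
      rw [sub_add_sub_cancel] at h6
      linarith only [h6, h4, h3]
  have hc1 : c 1 = 0 := by
    have h3 := hc 1 1
    rw [mul_one, map_one] at h3
    have h4 : (1 : V ≃ₗᵢ[ℝ] V) (c 1) = c 1 := rfl
    rw [h4] at h3
    exact left_eq_add.1 h3
  have main : ∀ m, |f (y m) - f (y 0) - E (y 0) (c ((y 0)⁻¹ * y m)) i| ≤
      ∑ j ∈ Finset.range m, (α j + Λ * m * β j) := by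
    intro m
    induction m with
    | zero =>
      rw [inv_mul_cancel, hc1, map_zero]
      simp
    | succ m ih =>
      have h3 := h1 m
      have h4 := key m (c ((y m)⁻¹ * y (m + 1))) (hcW _)
      have h5 : E (y 0) (c ((y 0)⁻¹ * y (m + 1))) i = E (y 0) (c ((y 0)⁻¹ * y m)) i +
          E (y 0) (π ((y 0)⁻¹ * y m) (c ((y m)⁻¹ * y (m + 1)))) i := by
        rw [hsplit m, hc, map_add]
        rfl
      have h6 : f (y (m + 1)) - f (y 0) - E (y 0) (c ((y 0)⁻¹ * y (m + 1))) i =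
          (f (y (m + 1)) - f (y m) - E (y m) (c ((y m)⁻¹ * y (m + 1))) i) +
          (f (y m) - f (y 0) - E (y 0) (c ((y 0)⁻¹ * y m)) i) +
          (E (y m) (c ((y m)⁻¹ * y (m + 1))) i -
            E (y 0) (π ((y 0)⁻¹ * y m) (c ((y m)⁻¹ * y (m + 1)))) i) := by
        rw [h5]
        ring
      rw [h6]
      refine (abs_add_three _ _ _).trans ?_
      have hβs : 0 ≤ ∑ j ∈ Finset.range m, β j := Finset.sum_nonneg fun j _ => hβ j
      have h7 : ‖c ((y m)⁻¹ * y (m + 1))‖ * ∑ j ∈ Finset.range m, β j ≤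
          Λ * ∑ j ∈ Finset.range m, β j := mul_le_mul_of_nonneg_right (hΛ m) hβs
      have h8 : ∑ j ∈ Finset.range (m + 1), (α j + Λ * ((m + 1 : ℕ) : ℝ) * β j) =
          ∑ j ∈ Finset.range m, (α j + Λ * m * β j) + Λ * ∑ j ∈ Finset.range m, β j +
            (α m + Λ * ((m + 1 : ℕ) : ℝ) * β m) := by
        rw [Finset.sum_range_succ, Finset.mul_sum, ← Finset.sum_add_distrib]
        congr 1
        refine Finset.sum_congr rfl fun j _ => ?_
        push_cast
        ring
      have h9 : 0 ≤ Λ * ((m + 1 : ℕ) : ℝ) * β m := by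
        have := hβ m
        (clear * - hΛ0 this; (clear * - hΛ0 this; positivity))
      rw [h8]
      linarith only [h9, h7, h4, h3, ih]
  exact main n

/-- a linear functional on `W` is bounded by its values on an orthonormal basis -/
theorem RankGe_basis {W : Submodule ℝ V} {d : ℕ} (e : OrthonormalBasis (Fin d) ℝ W)
    (L : V →ₗ[ℝ] ℝ) (w : V) (hw : w ∈ W) : |L w| ≤ ‖w‖ * ∑ l, |L (e l : V)| := by
  have h1 : w = ∑ l, (inner ℝ (e l : V) w) • (e l : V) := by
    have h2 := congrArg (Subtype.val) (e.sum_repr' ⟨w, hw⟩)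
    simp only [AddSubmonoidClass.coe_finsetSum, SetLike.val_smul, Submodule.coe_inner] at h2
    exact h2.symm
  have h2 : L w = ∑ l, (inner ℝ (e l : V) w) * L (e l : V) := by
    conv_lhs => rw [h1]
    rw [map_sum]
    exact Finset.sum_congr rfl fun l _ => by rw [map_smul, smul_eq_mul]
  rw [h2, Finset.mul_sum]
  refine (Finset.abs_sum_le_sum_abs _ _).trans (Finset.sum_le_sum fun l _ => ?_)
  rw [abs_mul]
  refine mul_le_mul_of_nonneg_right ?_ (abs_nonneg _)
  refine (abs_real_inner_le_norm _ _).trans ?_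
  have h3 : ‖(e l : V)‖ = 1 := by
    have := e.orthonormal.1 l
    rwa [Submodule.coe_norm] at this
  rw [h3, one_mul]

end Alg

section Iota

variable {H : Type u} [Group H] {V : Type v} [NormedAddCommGroup V] [InnerProductSpace ℝ V]
  {k : ℕ}

theorem RankGe_sum (ι : (H → Fin k → ℝ) → V)
    (hadd : ∀ φ ψ, VBdd φ → VBdd ψ → ι (fun y i => φ y i + ψ y i) = ι φ + ι ψ)
    (hsmul : ∀ (a : ℝ) φ, VBdd φ → ι (fun y i => a * φ y i) = a • ι φ) {J : Type*}
    (s : Finset J) (a : J → ℝ) (φ : J → H → Fin k → ℝ) (hφ : ∀ l, VBdd (φ l)) :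
    VBdd (fun y i => ∑ l ∈ s, a l * φ l y i) ∧
      ι (fun y i => ∑ l ∈ s, a l * φ l y i) = ∑ l ∈ s, a l • ι (φ l) := by
  classical
  refine ⟨fun i => NoInd1_bdd_sum s _ fun l _ => (hφ l i).const_mul _, ?_⟩
  induction s using Finset.induction_on with
  | empty =>
    simp only [Finset.sum_empty]
    have h := hsmul 0 (fun _ _ => 0) (fun i => Bdd.const 0)
    simpa using h
  | insert b s hb ih =>
    have h1 := hadd (fun y i => a b * φ b y i) (fun y i => ∑ l ∈ s, a l * φ l y i)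
      (fun i => (hφ b i).const_mul _)
      (fun i => NoInd1_bdd_sum s _ fun l _ => (hφ l i).const_mul _)
    rw [hsmul _ _ (hφ b), ih] at h1
    rw [Finset.sum_insert hb, ← h1]
    congr 1
    funext y i
    rw [Finset.sum_insert hb]

/-- an approximate realization of the vectors of `W` by bounded functions, linearly -/
theorem RankGe_E (ι : (H → Fin k → ℝ) → V)
    (hadd : ∀ φ ψ, VBdd φ → VBdd ψ → ι (fun y i => φ y i + ψ y i) = ι φ + ι ψ)
    (hsmul : ∀ (a : ℝ) φ, VBdd φ → ι (fun y i => a * φ y i) = a • ι φ)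
    (hdense : ∀ (v : V) (η : ℝ), 0 < η → ∃ φ, VBdd φ ∧ ‖v - ι φ‖ ≤ η)
    {W : Submodule ℝ V} {d : ℕ} (e : OrthonormalBasis (Fin d) ℝ W) (η : ℝ) (hη : 0 < η) :
    ∃ E : H → V →ₗ[ℝ] (Fin k → ℝ), (∀ w, VBdd (fun y => E y w)) ∧
      ∀ w ∈ W, ‖w - ι (fun y => E y w)‖ ≤ η * ‖w‖ := by
  choose φ hφ hφ' using fun l : Fin d => hdense (e l : V) (η / (d + 1)) (by (clear * - hη; positivity))
  refine ⟨fun y => { toFun := fun w i => ∑ l, (inner ℝ (e l : V) w) * φ l y i
                     map_add' := fun a b => ?_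
                     map_smul' := fun r a => ?_ }, fun w => ?_, fun w hw => ?_⟩
  · funext i
    rw [Pi.add_apply, ← Finset.sum_add_distrib]
    exact Finset.sum_congr rfl fun l _ => by rw [inner_add_right]; ring
  · funext i
    rw [RingHom.id_apply, Pi.smul_apply, smul_eq_mul, Finset.mul_sum]
    exact Finset.sum_congr rfl fun l _ => by rw [real_inner_smul_right]; ring
  · exact (RankGe_sum ι hadd hsmul Finset.univ (fun l => inner ℝ (e l : V) w) φ hφ).1
  · have h0 := (RankGe_sum ι hadd hsmul Finset.univ (fun l => inner ℝ (e l : V) w) φ hφ).2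
    have h1 : w = ∑ l, (inner ℝ (e l : V) w) • (e l : V) := by
      have h2 := congrArg (Subtype.val) (e.sum_repr' ⟨w, hw⟩)
      simp only [AddSubmonoidClass.coe_finsetSum, SetLike.val_smul, Submodule.coe_inner] at h2
      exact h2.symm
    have h3 : w - ι (fun y i => ∑ l, (inner ℝ (e l : V) w) * φ l y i) =
        ∑ l, (inner ℝ (e l : V) w) • ((e l : V) - ι (φ l)) := by
      rw [h0]
      conv_lhs => rw [h1]
      rw [← Finset.sum_sub_distrib]
      refine Finset.sum_congr rfl fun l _ => ?_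
      rw [smul_sub, ← h1]
    show ‖w - ι (fun y i => ∑ l, (inner ℝ (e l : V) w) * φ l y i)‖ ≤ η * ‖w‖
    rw [h3]
    refine (norm_sum_le _ _).trans ?_
    have h4 : ∀ l ∈ (Finset.univ : Finset (Fin d)),
        ‖(inner ℝ (e l : V) w) • ((e l : V) - ι (φ l))‖ ≤ ‖w‖ * (η / (d + 1)) := by
      intro l _
      rw [norm_smul]
      refine mul_le_mul ?_ (hφ' l) (norm_nonneg _) (norm_nonneg _)
      rw [Real.norm_eq_abs]
      refine (abs_real_inner_le_norm _ _).trans ?_
      have h3 : ‖(e l : V)‖ = 1 := by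
        have := e.orthonormal.1 l
        rwa [Submodule.coe_norm] at this
      rw [h3, one_mul]
    refine (Finset.sum_le_card_nsmul _ _ _ h4).trans ?_
    rw [Finset.card_univ, Fintype.card_fin, nsmul_eq_mul]
    have h5 : (d : ℝ) * (‖w‖ * (η / (d + 1))) = (d / (d + 1)) * (η * ‖w‖) := by
      (clear * - hη; field_simp)
    rw [h5]
    have h6 : (d : ℝ) / (d + 1) ≤ 1 := by
      rw [div_le_one (by (clear * -; positivity))]
      linarith only []
    exact mul_le_of_le_one_left (by (clear * - hη; positivity)) h6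

/-- the mean of a coordinate of a function of small norm -/
theorem RankGe_coord {μ : (H → ℝ) → ℝ} (hμ : IsMean μ) (ι : (H → Fin k → ℝ) → V)
    (hnorm : ∀ φ, VBdd φ → ‖ι φ‖ ^ 2 = μ (fun y => ∑ i, (φ y i) ^ 2))
    (φ : H → Fin k → ℝ) (hφ : VBdd φ) {δ : ℝ} (hδ : 0 < δ) (h : ‖ι φ‖ ≤ δ) (i : Fin k) :
    μ (fun y => |φ y i|) ≤ δ := by
  have hsq : ∀ i, Bdd (fun y => (φ y i) ^ 2) := by
    intro i
    obtain ⟨C, hC⟩ := hφ i
    refine ⟨C ^ 2, fun y => ?_⟩
    rw [abs_pow]
    exact pow_le_pow_left₀ (abs_nonneg _) (hC y) 2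
  refine RankGe_mean_abs hμ (hφ i) hδ ?_
  have h1 : μ (fun y => φ y i ^ 2) ≤ μ (fun y => ∑ i, (φ y i) ^ 2) :=
    hμ.le (hsq i) (NoInd1_bdd_sum _ _ fun i _ => hsq i) fun y =>
      Finset.single_le_sum (f := fun i => φ y i ^ 2) (fun i _ => sq_nonneg _) (Finset.mem_univ i)
  rw [← hnorm φ hφ] at h1
  exact h1.trans (pow_le_pow_left₀ (norm_nonneg _) h 2)

theorem RankGe_sub (ι : (H → Fin k → ℝ) → V)
    (hadd : ∀ φ ψ, VBdd φ → VBdd ψ → ι (fun y i => φ y i + ψ y i) = ι φ + ι ψ)
    (hsmul : ∀ (a : ℝ) φ, VBdd φ → ι (fun y i => a * φ y i) = a • ι φ)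
    (φ ψ : H → Fin k → ℝ) (hφ : VBdd φ) (hψ : VBdd ψ) :
    VBdd (fun y i => φ y i - ψ y i) ∧ ι (fun y i => φ y i - ψ y i) = ι φ - ι ψ := by
  refine ⟨fun i => RankGe_bdd_sub (hφ i) (hψ i), ?_⟩
  have h1 := hadd φ (fun y i => (-1) * ψ y i) hφ (fun i => (hψ i).const_mul _)
  rw [hsmul _ _ hψ] at h1
  have h2 : (fun y i => φ y i - ψ y i) = fun y i => φ y i + (-1) * ψ y i := by
    funext y i
    ring
  rw [h2, h1]
  simp only [neg_smul, one_smul, sub_eq_add_neg]

end Iota

/-- diagonal dominance -/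
theorem RankGe_dom {V : Type v} [NormedAddCommGroup V] [InnerProductSpace ℝ V] {k : ℕ}
    (hk : 0 < k) (W : Submodule ℝ V) (hW : FiniteDimensional ℝ W) (T : V →ₗ[ℝ] (Fin k → ℝ))
    (w : Fin k → V) (hw : ∀ i, w i ∈ W) (n : ℝ) (hn : 0 < n)
    (h : ∀ i l, |T (w i) l - (if l = i then n else 0)| ≤ n / (2 * k)) :
    k ≤ Module.finrank ℝ W := by
  have hk0 : (0 : ℝ) < k := by exact_mod_cast hk
  let A : Matrix (Fin k) (Fin k) ℝ := fun i l => T (w i) l
  have hA : A.det ≠ 0 := by
    apply det_ne_zero_of_sum_row_lt_diag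
    intro i
    have h1 : ∀ l ∈ Finset.univ.erase i, ‖A i l‖ ≤ n / (2 * k) := by
      intro l hl
      have h2 := h i l
      rw [if_neg (Finset.ne_of_mem_erase hl), sub_zero] at h2
      rw [Real.norm_eq_abs]
      exact h2
    have h2 := Finset.sum_le_card_nsmul _ _ _ h1
    rw [Finset.card_erase_of_mem (Finset.mem_univ i), Finset.card_univ, Fintype.card_fin,
      nsmul_eq_mul, Nat.cast_sub (by omega)] at h2
    have h3 : n - n / (2 * k) ≤ ‖A i i‖ := by
      have h4 := h i i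
      rw [if_pos rfl] at h4
      have h5 := (abs_le.1 h4).1
      rw [Real.norm_eq_abs]
      have h6 := le_abs_self (A i i)
      have h7 : T (w i) i = A i i := rfl
      rw [h7] at h5
      linarith only [h6, h5]
    refine lt_of_le_of_lt h2 (lt_of_lt_of_le ?_ h3)
    have h8 : ((k : ℝ) - ((1 : ℕ) : ℝ)) * (n / (2 * k)) = n / 2 - n / (2 * k) := by
      field_simp
      push_cast
      ring
    rw [h8]
    linarith only [hn]
  have h1 : LinearIndependent ℝ (fun i => (T ∘ₗ W.subtype) (⟨w i, hw i⟩ : W)) :=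
    Matrix.linearIndependent_rows_of_det_ne_zero hA
  have h2 : LinearIndependent ℝ (fun i => (⟨w i, hw i⟩ : W)) :=
    LinearIndependent.of_comp (T ∘ₗ W.subtype) h1
  have h3 := h2.fintype_card_le_finrank
  rwa [Fintype.card_fin] at h3

/-- a point where the errors along all the paths are small -/
theorem RankGe_point {H : Type u} [Group H] {μ : (H → ℝ) → ℝ} (hμ : IsMean μ)
    (hinv : ∀ (g : H) (f : H → ℝ), Bdd f → μ (fun x => f (x * g)) = μ f) {k : ℕ}
    (R : Finset H) (M n : ℕ) (τ : Fin k → ℕ → H → H) (h0 : ∀ i y, τ i 0 y = y)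
    (hR : ∀ i j y, (τ i j y)⁻¹ * τ i (j + 1) y ∈ R)
    (hM : ∀ i j x, {y | τ i j y = x}.ncard ≤ M) (Ψ : H → ℝ) (hΨ : Bdd Ψ) (hΨ0 : ∀ y, 0 ≤ Ψ y)
    (a : ℝ) (h : (k : ℝ) * (n * (M * μ Ψ)) < a) :
    ∃ y, ∀ i, ∑ j ∈ Finset.range n, Ψ (τ i j y) ≤ a := by
  classical
  have hdisp : ∀ i j y, y⁻¹ * τ i j y ∈ R ^ j := by
    intro i j y
    induction j with
    | zero => rw [h0, inv_mul_cancel, pow_zero]; exact Finset.mem_one.2 rfl
    | succ j ih =>
      have h1 : y⁻¹ * τ i (j + 1) y = y⁻¹ * τ i j y * ((τ i j y)⁻¹ * τ i (j + 1) y) := by group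
      rw [h1, pow_succ]
      exact Finset.mul_mem_mul ih (hR i j y)
  have hb : ∀ i j, Bdd (fun y => Ψ (τ i j y)) := fun i j => hΨ.comp (τ i j)
  have hb2 : ∀ i, Bdd (fun y => ∑ j ∈ Finset.range n, Ψ (τ i j y)) := fun i =>
    NoInd1_bdd_sum _ _ fun j _ => hb i j
  have hb3 : Bdd (fun y => ∑ i, ∑ j ∈ Finset.range n, Ψ (τ i j y)) :=
    NoInd1_bdd_sum _ _ fun i _ => hb2 i
  have h1 : μ (fun y => ∑ i, ∑ j ∈ Finset.range n, Ψ (τ i j y)) ≤ (k : ℝ) * (n * (M * μ Ψ)) := by
    rw [NoInd1_mean_sum hμ _ _ fun i _ => hb2 i]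
    have h2 : ∀ i ∈ (Finset.univ : Finset (Fin k)),
        μ (fun y => ∑ j ∈ Finset.range n, Ψ (τ i j y)) ≤ n * (M * μ Ψ) := by
      intro i _
      rw [NoInd1_mean_sum hμ _ _ fun j _ => hb i j]
      have h3 : ∀ j ∈ Finset.range n, μ (fun y => Ψ (τ i j y)) ≤ M * μ Ψ := fun j _ =>
        mean_comp_le μ hμ hinv (τ i j) (R ^ j) (hdisp i j) M (hM i j) Ψ hΨ hΨ0
      refine (Finset.sum_le_card_nsmul _ _ _ h3).trans ?_
      rw [Finset.card_range, nsmul_eq_mul]
    refine (Finset.sum_le_card_nsmul _ _ _ h2).trans ?_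
    rw [Finset.card_univ, Fintype.card_fin, nsmul_eq_mul]
  obtain ⟨y, hy⟩ := RankGe_exists_le hμ hb3 (lt_of_le_of_lt h1 h)
  refine ⟨y, fun i => le_trans ?_ hy⟩
  exact Finset.single_le_sum (f := fun i => ∑ j ∈ Finset.range n, Ψ (τ i j y))
    (fun i _ => Finset.sum_nonneg fun j _ => hΨ0 _) (Finset.mem_univ i)

section Err

variable {H : Type u} [Group H] {V : Type v} [NormedAddCommGroup V] [InnerProductSpace ℝ V]
  {k : ℕ}

/-- the error of the first kind -/
theorem RankGe_err (f : H → Fin k → ℝ) (r : H) (hf : VBdd (fun y i => f (y * r) i - f y i))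
    (π : H →* (V ≃ₗᵢ[ℝ] V)) (b c z : H → V) (ι : (H → Fin k → ℝ) → V)
    (hbι : b r = ι (fun y i => f (y * r) i - f y i))
    (hadd : ∀ φ ψ, VBdd φ → VBdd ψ → ι (fun y i => φ y i + ψ y i) = ι φ + ι ψ)
    (hsmul : ∀ (a : ℝ) φ, VBdd φ → ι (fun y i => a * φ y i) = a • ι φ)
    (hπι : ∀ h φ, VBdd φ → π h (ι φ) = ι (fun y i => φ (y * h) i))
    (hbcz : ∀ g, b g = c g + z g) (v₀ : V) (φ : H → Fin k → ℝ) (hφ : VBdd φ)
    (ψ : H → Fin k → ℝ) (hψ : VBdd ψ) (ε₁ ε₂ ε₃ : ℝ) (h1 : ‖z r - (π r v₀ - v₀)‖ ≤ ε₁)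
    (h2 : ‖v₀ - ι φ‖ ≤ ε₂) (h3 : ‖c r - ι ψ‖ ≤ ε₃) :
    VBdd (fun y i => (f (y * r) i - φ (y * r) i) - (f y i - φ y i) - ψ y i) ∧
      ‖ι (fun y i => (f (y * r) i - φ (y * r) i) - (f y i - φ y i) - ψ y i)‖ ≤
        ε₁ + 2 * ε₂ + ε₃ := by
  have hφr : VBdd (fun y i => φ (y * r) i) := fun i => (hφ i).comp (fun y => y * r)
  have ha := RankGe_sub ι hadd hsmul (fun y i => φ (y * r) i) φ hφr hφ
  have hb := RankGe_sub ι hadd hsmul _ _ hf ha.1
  have hc := RankGe_sub ι hadd hsmul _ _ hb.1 hψ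
  have he : (fun y i => (f (y * r) i - φ (y * r) i) - (f y i - φ y i) - ψ y i) =
      fun y i => (f (y * r) i - f y i) - (φ (y * r) i - φ y i) - ψ y i := by
    funext y i
    ring
  rw [he]
  refine ⟨hc.1, ?_⟩
  rw [hc.2, hb.2, ha.2, ← hbι, ← hπι r φ hφ, hbcz]
  have h4 : c r + z r - (π r (ι φ) - ι φ) - ι ψ =
      (z r - (π r v₀ - v₀)) + π r (v₀ - ι φ) - (v₀ - ι φ) + (c r - ι ψ) := by
    rw [map_sub]
    abel
  rw [h4]
  have h5 : ‖π r (v₀ - ι φ)‖ ≤ ε₂ := by
    rw [LinearIsometryEquiv.norm_map]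
    exact h2
  calc ‖(z r - (π r v₀ - v₀)) + π r (v₀ - ι φ) - (v₀ - ι φ) + (c r - ι ψ)‖
      ≤ ‖z r - (π r v₀ - v₀)‖ + ‖π r (v₀ - ι φ)‖ + ‖v₀ - ι φ‖ + ‖c r - ι ψ‖ := by
        refine (norm_add_le _ _).trans (add_le_add ?_ le_rfl)
        refine (norm_sub_le _ _).trans (add_le_add ?_ le_rfl)
        exact norm_add_le _ _
    _ ≤ ε₁ + ε₂ + ε₂ + ε₃ := by (clear * - h1 h2 h3 h5; linarith)
    _ = ε₁ + 2 * ε₂ + ε₃ := by ring

/-- the error of the second kind -/
theorem RankGe_err2 (π : H →* (V ≃ₗᵢ[ℝ] V)) (ι : (H → Fin k → ℝ) → V)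
    (hadd : ∀ φ ψ, VBdd φ → VBdd ψ → ι (fun y i => φ y i + ψ y i) = ι φ + ι ψ)
    (hsmul : ∀ (a : ℝ) φ, VBdd φ → ι (fun y i => a * φ y i) = a • ι φ)
    (hπι : ∀ h φ, VBdd φ → π h (ι φ) = ι (fun y i => φ (y * h) i))
    (W : Submodule ℝ V) (hi : Inv π W) (E : H → V →ₗ[ℝ] (Fin k → ℝ))
    (hE : ∀ w, VBdd (fun y => E y w)) (η : ℝ)
    (hE' : ∀ w ∈ W, ‖w - ι (fun y => E y w)‖ ≤ η * ‖w‖) (r : H) (w : V) (hw : w ∈ W) :
    VBdd (fun y i => E (y * r) w i - E y (π r w) i) ∧
      ‖ι (fun y i => E (y * r) w i - E y (π r w) i)‖ ≤ 2 * (η * ‖w‖) := by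
  have hr : VBdd (fun y i => E (y * r) w i) := fun i => (hE w i).comp (fun y => y * r)
  have ha := RankGe_sub ι hadd hsmul (fun y i => E (y * r) w i) (fun y i => E y (π r w) i) hr
    (hE (π r w))
  refine ⟨ha.1, ?_⟩
  have h0 : π r (ι (fun y => E y w)) = ι (fun y i => E (y * r) w i) := hπι r _ (hE w)
  rw [ha.2, ← h0]
  have h1 := hE' w hw
  have h2 := hE' (π r w) (hi r w hw)
  rw [LinearIsometryEquiv.norm_map] at h2
  have h3 : π r (ι (fun y => E y w)) - ι (fun y i => E y (π r w) i) =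
      (π r w - ι (fun y => E y (π r w))) - π r (w - ι (fun y => E y w)) := by
    rw [map_sub]
    abel
  rw [h3]
  refine (norm_sub_le _ _).trans ?_
  rw [LinearIsometryEquiv.norm_map]
  linarith only [h1, h2]

end Err

/-- the last step: a point with small errors along the paths -/
theorem RankGe_last {H : Type u} [Group H] {V : Type v} [NormedAddCommGroup V]
    [InnerProductSpace ℝ V] {k : ℕ} (hk : 0 < k) (π : H →* (V ≃ₗᵢ[ℝ] V)) (c : H → V)
    (hc : IsCocycle π c) (W : Submodule ℝ V) (hW : FiniteDimensional ℝ W) (hi : Inv π W)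
    (hcW : ∀ g, c g ∈ W) {d : ℕ} (e : OrthonormalBasis (Fin d) ℝ W) (f v : H → Fin k → ℝ)
    (E : H → V →ₗ[ℝ] (Fin k → ℝ)) (R : Finset H) (Λ : ℝ) (hΛ0 : 0 ≤ Λ)
    (hΛc : ∀ r ∈ R, ‖c r‖ ≤ Λ) (n : ℕ) (hn0 : (0 : ℝ) < n) (C₀ Bv : ℝ)
    (hBv : ∀ y i, |v y i| ≤ Bv) (h4 : C₀ + 2 * Bv ≤ n / (4 * k))
    (τ : Fin k → ℕ → H → H) (hτ0 : ∀ i y, τ i 0 y = y)
    (hτR : ∀ i j y, (τ i j y)⁻¹ * τ i (j + 1) y ∈ R)
    (hτf : ∀ i y l, |f (τ i n y) l - f y l - (if l = i then (n : ℝ) else 0)| ≤ C₀)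
    (err : H → H → Fin k → ℝ) (er2 : H → Fin d → H → Fin k → ℝ)
    (herr : ∀ r y i, err r y i = (f (y * r) i - v (y * r) i) - (f y i - v y i) - E y (c r) i)
    (her2 : ∀ r l y i, er2 r l y i = E (y * r) (e l : V) i - E y (π r (e l : V)) i)
    (y : H) (hy : ∀ i, ∑ j ∈ Finset.range n, ∑ r ∈ R,
      (∑ i', |err r (τ i j y) i'| + Λ * n * ∑ l, ∑ i', |er2 r l (τ i j y) i'|) ≤ n / (4 * k)) :
    k ≤ Module.finrank ℝ W := by
  have hk0 : (0 : ℝ) < k := by exact_mod_cast hk
  refine RankGe_dom hk W hW (E y) (fun i => c (y⁻¹ * τ i n y)) (fun i => hcW _) n hn0 ?_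
  intro i l
  have htele := RankGe_tele π c hc W hi hcW E (fun y => f y l - v y l) l (fun j => τ i j y)
    (fun j => |err ((τ i j y)⁻¹ * τ i (j + 1) y) (τ i j y) l|)
    (fun j => ∑ m, |er2 ((τ i j y)⁻¹ * τ i (j + 1) y) m (τ i j y) l|) Λ
    (fun j => Finset.sum_nonneg fun m _ => abs_nonneg _)
    (fun j => hΛc _ (hτR i j y))
    (fun j => by
      show |(f (τ i (j + 1) y) l - v (τ i (j + 1) y) l) - (f (τ i j y) l - v (τ i j y) l) -
        E (τ i j y) (c ((τ i j y)⁻¹ * τ i (j + 1) y)) l| ≤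
        |err ((τ i j y)⁻¹ * τ i (j + 1) y) (τ i j y) l|
      rw [herr, mul_inv_cancel_left])
    (fun j w hw => by
      have h1 := RankGe_basis e
        ((LinearMap.proj l) ∘ₗ (E (τ i (j + 1) y)) -
          ((LinearMap.proj l) ∘ₗ (E (τ i j y))) ∘ₗ
            (π ((τ i j y)⁻¹ * τ i (j + 1) y)).toLinearEquiv.toLinearMap) w hw
      refine h1.trans (le_of_eq ?_)
      congr 1
      refine Finset.sum_congr rfl fun m _ => ?_
      rw [her2, mul_inv_cancel_left]
      rfl) n
  have hsum : ∑ j ∈ Finset.range n, (|err ((τ i j y)⁻¹ * τ i (j + 1) y) (τ i j y) l| +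
      Λ * n * ∑ m, |er2 ((τ i j y)⁻¹ * τ i (j + 1) y) m (τ i j y) l|) ≤ n / (4 * k) := by
    refine le_trans ?_ (hy i)
    refine Finset.sum_le_sum fun j _ => ?_
    refine le_trans ?_ (Finset.single_le_sum
      (f := fun r => ∑ i', |err r (τ i j y) i'| + Λ * n * ∑ l, ∑ i', |er2 r l (τ i j y) i'|)
      (fun r _ => by (clear * - hΛ0 hn0; positivity)) (hτR i j y))
    refine add_le_add ?_ (mul_le_mul_of_nonneg_left ?_ (by (clear * - hΛ0 hn0; positivity)))
    · exact Finset.single_le_sum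
        (f := fun l => |err ((τ i j y)⁻¹ * τ i (j + 1) y) (τ i j y) l|)
        (fun l _ => abs_nonneg _) (Finset.mem_univ l)
    · refine Finset.sum_le_sum fun m _ => ?_
      exact Finset.single_le_sum
        (f := fun l => |er2 ((τ i j y)⁻¹ * τ i (j + 1) y) m (τ i j y) l|)
        (fun l _ => abs_nonneg _) (Finset.mem_univ l)
  have h1 := htele.trans hsum
  simp only [hτ0 i y] at h1
  have h2 := hτf i y l
  have h3 : |v (τ i n y) l - v y l| ≤ 2 * Bv := by
    have h4 := abs_le.1 (hBv (τ i n y) l)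
    have h5 := abs_le.1 (hBv y l)
    rw [abs_le]
    constructor <;> linarith only [h4, h5]
  have h5 : (n : ℝ) / (4 * k) + n / (4 * k) = n / (2 * k) := by
    field_simp
    norm_num
  have h6 : E y (c (y⁻¹ * τ i n y)) l - (if l = i then (n : ℝ) else 0) =
      (f (τ i n y) l - f y l - (if l = i then (n : ℝ) else 0)) -
      (v (τ i n y) l - v y l) -
      (f (τ i n y) l - v (τ i n y) l - (f y l - v y l) - E y (c (y⁻¹ * τ i n y)) l) := by
    ring
  show |E y (c (y⁻¹ * τ i n y)) l - (if l = i then (n : ℝ) else 0)| ≤ n / (2 * k)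
  rw [h6, abs_le]
  have h7 := abs_le.1 h1
  have h8 := abs_le.1 h2
  have h9 := abs_le.1 h3
  constructor
  · linarith only [h9.2, h8.1, h7.2, h5, h4]
  · linarith only [h9.1, h8.2, h7.1, h5, h4]

theorem rank_ge {H : Type u} [Group H] {S : Finset H} (hS : SymGen S)
    (μ : (H → ℝ) → ℝ) (hμ : IsMean μ)
    (hinv : ∀ (g : H) (f : H → ℝ), Bdd f → μ (fun x => f (x * g)) = μ f) {k : ℕ}
    (f : H → Fin k → ℝ) (Lf : ℝ) (hLf : ∀ y h i, |f (y * h) i - f y i| ≤ Lf * len S h)
    (R : Finset H) (M : ℕ) (C₀ : ℝ) (hC₀ : 0 ≤ C₀)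
    (htr : ∀ (i : Fin k) (n : ℕ), ∃ τ : ℕ → H → H,
      (∀ y, τ 0 y = y) ∧ (∀ j y, (τ j y)⁻¹ * τ (j + 1) y ∈ R) ∧
      (∀ j x, {y | τ j y = x}.Finite ∧ {y | τ j y = x}.ncard ≤ M) ∧
      ∀ y l, |f (τ n y) l - f y l - (if l = i then (n : ℝ) else 0)| ≤ C₀)
    {V : Type v} [NormedAddCommGroup V] [InnerProductSpace ℝ V] [CompleteSpace V]
    (π : H →* (V ≃ₗᵢ[ℝ] V)) (b c z : H → V) (ι : (H → Fin k → ℝ) → V)
    (hbι : ∀ h, b h = ι (fun y i => f (y * h) i - f y i))
    (hadd : ∀ φ ψ, VBdd φ → VBdd ψ → ι (fun y i => φ y i + ψ y i) = ι φ + ι ψ)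
    (hsmul : ∀ (a : ℝ) φ, VBdd φ → ι (fun y i => a * φ y i) = a • ι φ)
    (hnorm : ∀ φ, VBdd φ → ‖ι φ‖ ^ 2 = μ (fun y => ∑ i, (φ y i) ^ 2))
    (hdense : ∀ (v : V) (η : ℝ), 0 < η → ∃ φ, VBdd φ ∧ ‖v - ι φ‖ ≤ η)
    (hπι : ∀ h φ, VBdd φ → π h (ι φ) = ι (fun y i => φ (y * h) i))
    (hc : IsCocycle π c) (hbcz : ∀ g, b g = c g + z g)
    (hz : ∀ ε : ℝ, 0 < ε → ∃ v : V, ∀ g, ‖z g - (π g v - v)‖ ≤ ε * len S g)
    (W : Submodule ℝ V) (hW : FiniteDimensional ℝ W) (hi : Inv π W) (hcW : ∀ g, c g ∈ W) :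
    k ≤ Module.finrank ℝ W := by
  classical
  rcases Nat.eq_zero_or_pos k with hk | hk
  · rw [hk]
    exact Nat.zero_le _
  have hk0 : (0 : ℝ) < k := by exact_mod_cast hk
  let e := stdOrthonormalBasis ℝ W
  set d : ℕ := Module.finrank ℝ W with hd
  -- the constant `Λ`
  let Λ : ℝ := ∑ r ∈ R, (‖c r‖ + len S r)
  have hΛr : ∀ r ∈ R, ‖c r‖ + len S r ≤ Λ := fun r hr =>
    Finset.single_le_sum (f := fun r => ‖c r‖ + (len S r : ℝ)) (fun r _ => by (clear * -; positivity)) hr
  have hΛ0 : 0 ≤ Λ := Finset.sum_nonneg fun r _ => by (clear * -; positivity)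
  have hΛc : ∀ r ∈ R, ‖c r‖ ≤ Λ := fun r hr => by
    have h1 := hΛr r hr
    have h2 : (0 : ℝ) ≤ len S r := Nat.cast_nonneg _
    linarith only [h1]
  have hΛl : ∀ r ∈ R, (len S r : ℝ) ≤ Λ := fun r hr => by
    have h1 := hΛr r hr
    have h2 : 0 ≤ ‖c r‖ := norm_nonneg _
    linarith only [h1, h2]
  -- the constant `ε`
  let K₁ : ℝ := 4 * (k : ℝ) ^ 3 * M * R.card
  have hK₁ : 0 ≤ K₁ := by (clear * - hk; (clear * - hk; positivity))
  let ε : ℝ := (4 * (K₁ * (Λ + 3) + 1))⁻¹
  have hε : 0 < ε := by (clear * - hk; (clear * - hk; positivity))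
  have hε' : K₁ * (ε * (Λ + 3)) ≤ 1 / 4 := by
    have h1 : K₁ * (ε * (Λ + 3)) = (K₁ * (Λ + 3)) / (4 * (K₁ * (Λ + 3) + 1)) := by
      show K₁ * ((4 * (K₁ * (Λ + 3) + 1))⁻¹ * (Λ + 3)) = _
      rw [div_eq_mul_inv]
      ring
    rw [h1, div_le_div_iff₀ (by (clear * - hk; (clear * - hk; positivity))) (by norm_num)]
    linarith only []
  obtain ⟨v₀, hv₀⟩ := hz ε hε
  obtain ⟨v, hv, hv'⟩ := hdense v₀ ε hε
  choose B hB using hv
  let Bv : ℝ := ∑ i, |B i|
  have hBv0 : 0 ≤ Bv := Finset.sum_nonneg fun i _ => abs_nonneg _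
  have hBv : ∀ y i, |v y i| ≤ Bv := fun y i =>
    ((hB i y).trans (le_abs_self _)).trans
      (Finset.single_le_sum (f := fun i => |B i|) (fun i _ => abs_nonneg _) (Finset.mem_univ i))
  -- the integer `n`
  obtain ⟨n, hn⟩ := exists_nat_gt (4 * (k : ℝ) * (C₀ + 2 * Bv))
  have hn0 : (0 : ℝ) < n := lt_of_le_of_lt (by (clear * - hk hC₀; positivity)) hn
  -- the constant `η`
  let K₂ : ℝ := K₁ * (Λ * n * d) * 2 + Λ
  have hK₂ : 0 ≤ K₂ := by (clear * - hk hn0; positivity)
  let η : ℝ := min (1 / 4) ε / (K₂ + 1)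
  have hmin : 0 < min (1 / 4) ε := lt_min (by norm_num) hε
  have hη : 0 < η := by (clear * - hk hn0; positivity)
  have hη' : K₂ * η ≤ min (1 / 4) ε := by
    have h1 : K₂ * η = min (1 / 4) ε * (K₂ / (K₂ + 1)) := by
      show K₂ * (min (1 / 4) ε / (K₂ + 1)) = _
      ring
    rw [h1]
    refine mul_le_of_le_one_right hmin.le ?_
    rw [div_le_one (by (clear * - hk hn0; positivity))]
    linarith only []
  have hη1 : K₁ * (Λ * n * d) * 2 * η ≤ 1 / 4 := by
    have h1 : K₁ * (Λ * n * d) * 2 * η ≤ K₂ * η := by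
      refine mul_le_mul_of_nonneg_right ?_ hη.le
      show K₁ * (Λ * n * d) * 2 ≤ K₁ * (Λ * n * d) * 2 + Λ
      linarith only [hΛ0]
    exact h1.trans (hη'.trans (min_le_left _ _))
  have hη2 : η * Λ ≤ ε := by
    have h1 : η * Λ ≤ K₂ * η := by
      rw [mul_comm]
      refine mul_le_mul_of_nonneg_right ?_ hη.le
      show Λ ≤ K₁ * (Λ * n * d) * 2 + Λ
      have : 0 ≤ K₁ * (Λ * n * d) * 2 := by (clear * - hk hn0; (clear * - hk hn0; positivity))
      linarith only [this]
    exact h1.trans (hη'.trans (min_le_right _ _))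
  obtain ⟨E, hE, hE'⟩ := RankGe_E ι hadd hsmul hdense e η hη
  -- the paths
  choose τ hτ0 hτR hτM hτf using fun i => htr i n
  have hfb : ∀ r, VBdd (fun y i => f (y * r) i - f y i) := fun r i =>
    ⟨Lf * len S r, fun y => hLf y r i⟩
  -- the errors
  let err : H → H → Fin k → ℝ := fun r y i =>
    (f (y * r) i - v (y * r) i) - (f y i - v y i) - E y (c r) i
  let er2 : H → Fin d → H → Fin k → ℝ := fun r l y i =>
    E (y * r) (e l : V) i - E y (π r (e l : V)) i
  have hvb : VBdd v := fun i => ⟨B i, hB i⟩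
  have herr : ∀ r ∈ R, VBdd (err r) ∧ ‖ι (err r)‖ ≤ ε * (Λ + 3) := by
    intro r hr
    have h1 := RankGe_err f r (hfb r) π b c z ι (hbι r) hadd hsmul hπι hbcz v₀ v hvb
      (fun y => E y (c r)) (hE (c r)) _ _ _ (hv₀ r) hv' (hE' (c r) (hcW r))
    refine ⟨h1.1, h1.2.trans ?_⟩
    have h2 : ε * len S r ≤ ε * Λ := mul_le_mul_of_nonneg_left (hΛl r hr) hε.le
    have h3 : η * ‖c r‖ ≤ η * Λ := mul_le_mul_of_nonneg_left (hΛc r hr) hη.le
    linarith only [h3, h2, hη2]
  have her2 : ∀ r l, VBdd (er2 r l) ∧ ‖ι (er2 r l)‖ ≤ 2 * η := by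
    intro r l
    have h1 := RankGe_err2 π ι hadd hsmul hπι W hi E hE η hE' r (e l : V) (e l).2
    have h3 : ‖(e l : V)‖ = 1 := by
      have := e.orthonormal.1 l
      rwa [Submodule.coe_norm] at this
    refine ⟨h1.1, h1.2.trans ?_⟩
    rw [h3, mul_one]
  have hδ1 : 0 < ε * (Λ + 3) := by (clear * - hk; positivity)
  have hδ2 : 0 < 2 * η := by (clear * - hk hn0; (clear * - hk hn0; positivity))
  let Ψ₁ : H → H → ℝ := fun r y => ∑ i, |err r y i|
  let Ψ₂ : H → H → ℝ := fun r y => ∑ l, ∑ i, |er2 r l y i|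
  have hΨ₁ : ∀ r ∈ R, Bdd (Ψ₁ r) ∧ μ (Ψ₁ r) ≤ k * (ε * (Λ + 3)) := by
    intro r hr
    have hb1 : ∀ i ∈ (Finset.univ : Finset (Fin k)), Bdd (fun y => |err r y i|) := fun i _ =>
      RankGe_bdd_abs ((herr r hr).1 i)
    refine ⟨NoInd1_bdd_sum _ _ hb1, ?_⟩
    show μ (fun y => ∑ i, |err r y i|) ≤ _
    rw [NoInd1_mean_sum hμ _ _ hb1]
    refine (Finset.sum_le_card_nsmul _ _ _ fun i _ =>
      RankGe_coord hμ ι hnorm (err r) (herr r hr).1 hδ1 (herr r hr).2 i).trans ?_
    rw [Finset.card_univ, Fintype.card_fin, nsmul_eq_mul]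
  have hΨ₂ : ∀ r, Bdd (Ψ₂ r) ∧ μ (Ψ₂ r) ≤ d * (k * (2 * η)) := by
    intro r
    have hb1 : ∀ l, ∀ i ∈ (Finset.univ : Finset (Fin k)), Bdd (fun y => |er2 r l y i|) :=
      fun l i _ => RankGe_bdd_abs ((her2 r l).1 i)
    have hb2 : ∀ l ∈ (Finset.univ : Finset (Fin d)), Bdd (fun y => ∑ i, |er2 r l y i|) :=
      fun l _ => NoInd1_bdd_sum _ _ (hb1 l)
    refine ⟨NoInd1_bdd_sum _ _ hb2, ?_⟩
    show μ (fun y => ∑ l, ∑ i, |er2 r l y i|) ≤ _
    rw [NoInd1_mean_sum hμ _ _ hb2]
    refine (Finset.sum_le_card_nsmul _ _ (k * (2 * η)) fun l _ => ?_).trans ?_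
    · rw [NoInd1_mean_sum hμ _ _ (hb1 l)]
      refine (Finset.sum_le_card_nsmul _ _ _ fun i _ =>
        RankGe_coord hμ ι hnorm (er2 r l) (her2 r l).1 hδ2 (her2 r l).2 i).trans ?_
      rw [Finset.card_univ, Fintype.card_fin, nsmul_eq_mul]
    · rw [Finset.card_univ, Fintype.card_fin, nsmul_eq_mul]
  let Ψr : H → H → ℝ := fun r y => Ψ₁ r y + Λ * n * Ψ₂ r y
  have hΨr : ∀ r ∈ R, Bdd (Ψr r) ∧
      μ (Ψr r) ≤ k * (ε * (Λ + 3)) + Λ * n * (d * (k * (2 * η))) := by
    intro r hr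
    have h1 : Ψr r = Ψ₁ r + fun y => Λ * n * Ψ₂ r y := rfl
    refine ⟨?_, ?_⟩
    · rw [h1]
      exact (hΨ₁ r hr).1.add ((hΨ₂ r).1.const_mul _)
    · rw [h1, hμ.add _ _ (hΨ₁ r hr).1 ((hΨ₂ r).1.const_mul _), hμ.smul _ _ (hΨ₂ r).1]
      exact add_le_add (hΨ₁ r hr).2 (mul_le_mul_of_nonneg_left (hΨ₂ r).2 (by (clear * - hn0; positivity)))
  let Ψ : H → ℝ := fun y => ∑ r ∈ R, Ψr r y
  have hΨb : Bdd Ψ := NoInd1_bdd_sum R Ψr fun r hr => (hΨr r hr).1
  have hΨ₁0 : ∀ r y, 0 ≤ Ψ₁ r y := fun r y => Finset.sum_nonneg fun i _ => abs_nonneg _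
  have hΨ₂0 : ∀ r y, 0 ≤ Ψ₂ r y := fun r y => Finset.sum_nonneg fun l _ =>
    Finset.sum_nonneg fun i _ => abs_nonneg _
  have hΨr0 : ∀ r y, 0 ≤ Ψr r y := fun r y => by
    have h1 := hΨ₁0 r y
    have h2 := hΨ₂0 r y
    show 0 ≤ Ψ₁ r y + Λ * n * Ψ₂ r y
    (clear * - hn0; positivity)
  have hΨ0 : ∀ y, 0 ≤ Ψ y := fun y => Finset.sum_nonneg fun r _ => hΨr0 r y
  have hμΨ : μ Ψ ≤ R.card * (k * (ε * (Λ + 3)) + Λ * n * (d * (k * (2 * η)))) := by
    show μ (fun y => ∑ r ∈ R, Ψr r y) ≤ _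
    rw [NoInd1_mean_sum hμ R Ψr fun r hr => (hΨr r hr).1]
    refine (Finset.sum_le_card_nsmul _ _ _ fun r hr => (hΨr r hr).2).trans ?_
    rw [nsmul_eq_mul]
  -- the point
  obtain ⟨y, hy⟩ := RankGe_point hμ hinv R M n τ hτ0 hτR (fun i j x => (hτM i j x).2) Ψ hΨb hΨ0
    (n / (4 * k)) (by
      have h1 : (k : ℝ) * (n * (M * μ Ψ)) ≤ k * (n * (M *
          (R.card * (k * (ε * (Λ + 3)) + Λ * n * (d * (k * (2 * η))))))) := by
        have hkM : (0 : ℝ) ≤ M := Nat.cast_nonneg _
        (clear * - hμΨ hn0 hk; gcongr)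
      have h2 : (k : ℝ) * (n * (M *
          (R.card * (k * (ε * (Λ + 3)) + Λ * n * (d * (k * (2 * η))))))) =
          n / (4 * k) * (K₁ * (ε * (Λ + 3)) + K₁ * (Λ * n * d) * 2 * η) := by
        show _ = n / (4 * k) * ((4 * (k : ℝ) ^ 3 * M * R.card) * (ε * (Λ + 3)) +
          (4 * (k : ℝ) ^ 3 * M * R.card) * (Λ * n * d) * 2 * η)
        (clear * - hε hΛ0 hn0 hη hk; field_simp)
      rw [h2] at h1
      refine lt_of_le_of_lt h1 ?_
      have h3 : 0 < (n : ℝ) / (4 * k) := by (clear * - hn0 hk; positivity)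
      have h4 : K₁ * (ε * (Λ + 3)) + K₁ * (Λ * n * d) * 2 * η < 1 := by linarith only [hη1, hε']
      calc (n : ℝ) / (4 * k) * (K₁ * (ε * (Λ + 3)) + K₁ * (Λ * n * d) * 2 * η)
          < n / (4 * k) * 1 := mul_lt_mul_of_pos_left h4 h3
        _ = n / (4 * k) := mul_one _)
  -- conclusion
  have h4 : C₀ + 2 * Bv ≤ n / (4 * k) := by
    rw [le_div_iff₀ (by positivity)]
    linarith only [hn]
  exact RankGe_last hk π c hc W hW hi hcW e f v E R Λ hΛ0 hΛc n hn0 C₀ Bv hBv h4 τ hτ0 hτR hτf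
    err er2 (fun _ _ _ => rfl) (fun _ _ _ _ => rfl) y hy

end Vale.Agent.P188.SG
end
end
end

section

section

section

/-!
P188, Theorem S: controlled Følner pairs in exponentially distorted extensions.
-/

universe u v w

open Filter Topology Pointwise

namespace Vale.Agent.P188.SG

section Geo4aux

variable {G : Type v} [Group G]

theorem Geo4_list {S : Set G} {g : G} (hg : g ∈ Subgroup.closure S) :
    ∃ l : List G, l.length = wordDist S 1 g ∧ (∀ a ∈ l, a ∈ S ∨ a⁻¹ ∈ S) ∧ l.prod = g := by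
  have hne : {n : ℕ | ∃ l : List G, l.length = n ∧ (∀ a ∈ l, a ∈ S ∨ a⁻¹ ∈ S) ∧
      l.prod = 1⁻¹ * g}.Nonempty := by
    have hmem : (1 : G)⁻¹ * g ∈ (Subgroup.closure S).toSubmonoid := by
      rw [inv_one, one_mul]; exact hg
    rw [Subgroup.closure_toSubmonoid] at hmem
    obtain ⟨l, hl, hp⟩ := Submonoid.exists_list_of_mem_closure hmem
    exact ⟨l.length, l, rfl, fun a ha => hl a ha, hp⟩
  obtain ⟨l, h1, h2, h3⟩ := Nat.sInf_mem hne
  exact ⟨l, h1, h2, by rw [h3, inv_one, one_mul]⟩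

theorem Geo4_len_mul {S : Finset G} {g h : G} (hg : g ∈ Subgroup.closure (S : Set G))
    (hh : h ∈ Subgroup.closure (S : Set G)) : len S (g * h) ≤ len S g + len S h := by
  obtain ⟨l, h1, h2, h3⟩ := Geo4_list hg
  obtain ⟨m, k1, k2, k3⟩ := Geo4_list hh
  unfold len
  rw [← h1, ← k1]
  refine Nat.sInf_le ⟨l ++ m, by simp, fun a ha => ?_, by simp [h3, k3]⟩
  rcases List.mem_append.1 ha with h | h
  · exact h2 a h
  · exact k2 a h

theorem Geo4_finite {S : Finset G} (n : ℕ) :
    {x : G | x ∈ Subgroup.closure (S : Set G) ∧ len S x ≤ n}.Finite := by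
  classical
  let U : Finset G := insert 1 (S ∪ S.image fun x => x⁻¹)
  have hU1 : (1 : G) ∈ U := Finset.mem_insert_self _ _
  have hmem : ∀ l : List G, (∀ a ∈ l, a ∈ S ∨ a⁻¹ ∈ S) → l.prod ∈ U ^ l.length := by
    intro l
    induction l with
    | nil => intro _; simp only [List.length_nil, pow_zero, List.prod_nil, Finset.mem_one]
    | cons a l ih =>
      intro hl
      rw [List.prod_cons, List.length_cons, pow_succ']
      refine Finset.mul_mem_mul ?_ (ih fun b hb => hl b (List.mem_cons_of_mem _ hb))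
      rcases hl a List.mem_cons_self with h | h
      · exact Finset.mem_insert_of_mem (Finset.mem_union_left _ h)
      · refine Finset.mem_insert_of_mem (Finset.mem_union_right _ ?_)
        exact Finset.mem_image.mpr ⟨a⁻¹, h, inv_inv a⟩
  refine (Finset.finite_toSet (U ^ n)).subset ?_
  rintro x ⟨hx, hxn⟩
  obtain ⟨l, h1, h2, h3⟩ := Geo4_list hx
  have h4 := hmem l h2
  rw [h3, h1] at h4
  exact Finset.mem_coe.mpr (Finset.pow_subset_pow_right hU1 hxn h4)

/-- a scale at which a function of polynomial growth is doubling. -/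
theorem Geo4_pigeon (β : ℕ → ℕ) (Cg D M : ℕ) (h1 : ∀ n, 1 ≤ β n)
    (hg : ∀ n, β n ≤ Cg * (n + 1) ^ D) :
    ∃ Q : ℕ, ∀ r R0 : ℕ, 1 ≤ R0 → R0 ≤ 2 ^ (M * (r + 1)) →
      ∃ j ≤ r, β (2 * (2 ^ j * R0)) ≤ Q * β (2 ^ j * R0) := by
  refine ⟨(Cg + 1) * 2 ^ ((M + 2) * D), fun r R0 hR1 hR0 => ?_⟩
  set Q : ℕ := (Cg + 1) * 2 ^ ((M + 2) * D) with hQ
  by_contra hcon
  push Not at hcon
  have key : ∀ j ≤ r + 1, Q ^ j ≤ β (2 ^ j * R0) := by
    intro j
    induction j with
    | zero =>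
      intro _
      rw [pow_zero]
      exact h1 _
    | succ j ih =>
      intro hj
      have h2 := ih (by omega)
      have h3 := hcon j (by omega)
      have h4 : 2 * (2 ^ j * R0) = 2 ^ (j + 1) * R0 := by ring
      rw [h4] at h3
      calc Q ^ (j + 1) = Q * Q ^ j := by ring
        _ ≤ Q * β (2 ^ j * R0) := Nat.mul_le_mul_left _ h2
        _ ≤ β (2 ^ (j + 1) * R0) := h3.le
  have h5 := (key (r + 1) le_rfl).trans (hg _)
  have h6 : 2 ^ (r + 1) * R0 + 1 ≤ 2 ^ ((M + 2) * (r + 1)) := by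
    have h7 : 2 ^ (r + 1) * R0 ≤ 2 ^ (r + 1) * 2 ^ (M * (r + 1)) := Nat.mul_le_mul_left _ hR0
    have h8 : 1 ≤ 2 ^ (r + 1) * R0 := Nat.mul_pos (by positivity) hR1
    have h9 : 2 * (2 ^ (r + 1) * 2 ^ (M * (r + 1))) ≤ 2 ^ ((M + 2) * (r + 1)) := by
      have e : 2 * (2 ^ (r + 1) * 2 ^ (M * (r + 1))) = 2 ^ (1 + (r + 1) + M * (r + 1)) := by
        rw [Nat.add_assoc, pow_add 2 1, pow_one, pow_add 2 (r + 1)]
      rw [e]
      refine Nat.pow_le_pow_right (by norm_num) ?_
      (clear * -; nlinarith)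
    (clear * - h7 h8 h9; omega)
  have h10 : (2 ^ (r + 1) * R0 + 1) ^ D ≤ 2 ^ ((M + 2) * D * (r + 1)) := by
    refine (Nat.pow_le_pow_left h6 D).trans ?_
    rw [← pow_mul]
    exact Nat.pow_le_pow_right (by norm_num) (le_of_eq (by ring))
  have h11 : Q ^ (r + 1) = (Cg + 1) ^ (r + 1) * 2 ^ ((M + 2) * D * (r + 1)) := by
    rw [hQ, mul_pow, ← pow_mul]
  have h12 : Cg + 1 ≤ (Cg + 1) ^ (r + 1) := Nat.le_self_pow (by omega) _
  have h13 : 0 < 2 ^ ((M + 2) * D * (r + 1)) := by positivity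
  have h14 : (Cg + 1) * 2 ^ ((M + 2) * D * (r + 1)) ≤ Cg * 2 ^ ((M + 2) * D * (r + 1)) := by
    calc (Cg + 1) * 2 ^ ((M + 2) * D * (r + 1))
        ≤ (Cg + 1) ^ (r + 1) * 2 ^ ((M + 2) * D * (r + 1)) := Nat.mul_le_mul_right _ h12
      _ = Q ^ (r + 1) := h11.symm
      _ ≤ Cg * (2 ^ (r + 1) * R0 + 1) ^ D := h5
      _ ≤ Cg * 2 ^ ((M + 2) * D * (r + 1)) := Nat.mul_le_mul_left _ h10
  have h15 := Nat.le_of_mul_le_mul_right h14 h13
  omega

/-- the initial scale. -/
theorem Geo4_scale {C : ℝ} (hC : 0 ≤ C) (k : ℕ) : ∃ M : ℕ, ∀ r : ℕ,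
    1 ≤ ⌈Real.exp (C * (1 + k * r + r))⌉₊ ∧
    ⌈Real.exp (C * (1 + k * r + r))⌉₊ ≤ 2 ^ (M * (r + 1)) := by
  refine ⟨2 * ⌈C * (k + 1)⌉₊, fun r => ⟨Nat.ceil_pos.2 (Real.exp_pos _), ?_⟩⟩
  rw [Nat.ceil_le]
  set N0 : ℕ := ⌈C * (k + 1)⌉₊ with hN0
  have h1 : C * (k + 1) ≤ N0 := Nat.le_ceil _
  have h2 : C * (1 + k * r + r) ≤ ((N0 * (r + 1) : ℕ) : ℝ) := by
    have h3 : C * (1 + k * r + r) ≤ C * (k + 1) * (r + 1) := by
      have h4 : (1 : ℝ) + k * r + r ≤ (k + 1) * (r + 1) := by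
        have : (0 : ℝ) ≤ k := Nat.cast_nonneg k
        linarith only [this]
      rw [mul_assoc]
      exact mul_le_mul_of_nonneg_left h4 hC
    refine h3.trans ?_
    push_cast
    exact mul_le_mul_of_nonneg_right h1 (by (clear * -; positivity))
  refine (Real.exp_le_exp.2 h2).trans ?_
  have h5 : Real.exp ((N0 * (r + 1) : ℕ) : ℝ) = Real.exp 1 ^ (N0 * (r + 1)) := by
    rw [← Real.exp_nat_mul, mul_one]
  rw [h5]
  have h6 : Real.exp 1 ≤ 2 ^ 2 := by
    have := Real.exp_one_lt_d9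
    norm_num at this ⊢
    linarith only [this]
  refine (pow_le_pow_left₀ (Real.exp_pos 1).le h6 _).trans ?_
  rw [← pow_mul]
  push_cast
  exact le_of_eq (by ring)

end Geo4aux

section Geo

variable {G : Type v} [Group G] {k : ℕ} {θ : G →* Multiplicative (Fin k → ℤ)} {A T : Finset G}

/-- boxes -/
theorem Geo4_box_sum {z : Fin k → ℤ} {s : ℕ}
    (hz : z ∈ Finset.Icc (fun _ => -(s : ℤ)) (fun _ => (s : ℤ))) : ∑ i, |(z i : ℝ)| ≤ k * s := by
  rw [Finset.mem_Icc] at hz
  have h1 : ∀ i ∈ (Finset.univ : Finset (Fin k)), |(z i : ℝ)| ≤ s := by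
    intro i _
    rw [abs_le]
    have h2 := hz.1 i
    have h3 := hz.2 i
    constructor
    · exact_mod_cast h2
    · exact_mod_cast h3
  have h4 := Finset.sum_le_card_nsmul _ _ _ h1
  simpa only [ge_iff_le, Finset.card_univ, Fintype.card_fin, nsmul_eq_mul] using h4

theorem Geo4_box_card (s : ℕ) :
    (Finset.Icc (fun _ : Fin k => -(s : ℤ)) (fun _ => (s : ℤ))).card = (2 * s + 1) ^ k := by
  rw [Pi.card_Icc]
  simp only [Int.card_Icc, Finset.prod_const, Finset.card_univ, Fintype.card_fin]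
  congr 1
  omega

open Classical in
/-- the sets `{x σ(z) : len A x ≤ R, z in the box of size s}` -/
noncomputable def Geo4_set (hfin : ∀ n, {x : G | x ∈ θ.ker ∧ len A x ≤ n}.Finite)
    (σ : (Fin k → ℤ) → G) (R s : ℕ) : Finset G :=
  ((hfin R).toFinset ×ˢ Finset.Icc (fun _ : Fin k => -(s : ℤ)) (fun _ => (s : ℤ))).image
    fun p => p.1 * σ p.2

theorem Geo4_mem {hfin : ∀ n, {x : G | x ∈ θ.ker ∧ len A x ≤ n}.Finite}
    {σ : (Fin k → ℤ) → G} {R s : ℕ} {g : G} : g ∈ Geo4_set hfin σ R s ↔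
      ∃ x z, (x ∈ θ.ker ∧ len A x ≤ R) ∧
        z ∈ Finset.Icc (fun _ : Fin k => -(s : ℤ)) (fun _ => (s : ℤ)) ∧ x * σ z = g := by
  classical
  unfold Geo4_set
  rw [Finset.mem_image]
  constructor
  · rintro ⟨⟨x, z⟩, hp, rfl⟩
    obtain ⟨h1, h2⟩ := Finset.mem_product.1 hp
    exact ⟨x, z, (hfin R).mem_toFinset.1 h1, h2, rfl⟩
  · rintro ⟨x, z, h1, h2, rfl⟩
    exact ⟨(x, z), Finset.mem_product.2 ⟨(hfin R).mem_toFinset.2 h1, h2⟩, rfl⟩

theorem Geo4_card_eq {hfin : ∀ n, {x : G | x ∈ θ.ker ∧ len A x ≤ n}.Finite}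
    {σ : (Fin k → ℤ) → G} (hσ : ∀ z, Multiplicative.toAdd (θ (σ z)) = z) {R s : ℕ} :
    (Geo4_set hfin σ R s).card = {x : G | x ∈ θ.ker ∧ len A x ≤ R}.ncard * (2 * s + 1) ^ k := by
  classical
  unfold Geo4_set
  rw [Finset.card_image_of_injOn, Finset.card_product, Geo4_box_card,
    Set.ncard_eq_toFinset_card _ (hfin R)]
  rintro ⟨x, z⟩ hp ⟨y, w⟩ hq heq
  have hx : x ∈ θ.ker := ((hfin R).mem_toFinset.1 (Finset.mem_product.1 hp).1).1
  have hy : y ∈ θ.ker := ((hfin R).mem_toFinset.1 (Finset.mem_product.1 hq).1).1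
  have heq' : x * σ z = y * σ w := heq
  have h1 : z = w := by
    have h2 := congrArg (fun g => Multiplicative.toAdd (θ g)) heq'
    simp only [map_mul, MonoidHom.mem_ker.1 hx, one_mul, hσ, MonoidHom.mem_ker.1 hy] at h2
    exact h2
  subst h1
  rw [mul_right_cancel heq']

theorem folner_expExt (h : ExpExt θ A T) : Folner T := by
  obtain ⟨σ, Cs, hCs, hσ0, hσθ, hσT, hσA⟩ := exists_section h
  obtain ⟨C1, hC1, hlip⟩ := co_lip h
  obtain ⟨Cg, D, hgr⟩ := h.growth
  obtain ⟨Cd, hCd⟩ := h.dist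
  have hfin : ∀ n, {x : G | x ∈ θ.ker ∧ len A x ≤ n}.Finite := by
    intro n
    rw [← h.genA]
    exact Geo4_finite n
  have hone : ∀ n, (1 : G) ∈ {x : G | x ∈ θ.ker ∧ len A x ≤ n} := fun n =>
    ⟨θ.ker.one_mem, by rw [len_one]; exact Nat.zero_le _⟩
  have hβ1 : ∀ n, 1 ≤ {x : G | x ∈ θ.ker ∧ len A x ≤ n}.ncard := fun n =>
    (Set.ncard_pos (hfin n)).2 ⟨1, hone n⟩
  obtain ⟨M, hM⟩ := Geo4_scale hCs k
  obtain ⟨Q, hQ⟩ := Geo4_pigeon (fun n => {x : G | x ∈ θ.ker ∧ len A x ≤ n}.ncard) Cg D M hβ1 hgr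
  set b : ℕ := ⌈C1⌉₊ with hb
  have hbC : C1 ≤ b := Nat.le_ceil _
  have hθσ : ∀ w, θ (σ w) = Multiplicative.ofAdd w := fun w => by
    rw [← hσθ w, ofAdd_toAdd, hσθ w]
  -- the diameter
  set K : ℝ := max Cd 0 * (1 + (M + 3)) + Cs * (k * (1 + b)) with hK
  have hD0 : 0 ≤ max Cd 0 := le_max_right _ _
  refine ⟨⌈2 * K⌉₊ + Q * (1 + b) ^ k, fun r => ?_⟩
  obtain ⟨hR01, hR0M⟩ := hM r
  set R0 : ℕ := ⌈Real.exp (Cs * (1 + k * r + r))⌉₊ with hR0
  obtain ⟨j, hj, hjQ⟩ := hQ r R0 hR01 hR0M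
  set R : ℕ := 2 ^ j * R0 with hR
  have hR0R : R0 ≤ R := Nat.le_mul_of_pos_left _ (by positivity)
  refine ⟨Geo4_set hfin σ R r, Geo4_set hfin σ (2 * R) ((1 + b) * r), ?_, ?_, ?_, ?_⟩
  · refine ⟨1 * σ 0, Geo4_mem.2 ⟨1, 0, hone R, ?_, rfl⟩⟩
    rw [Finset.mem_Icc]
    exact ⟨fun i => by simp only [Pi.zero_apply, Left.neg_nonpos_iff, Nat.cast_nonneg], fun i => by simp only [Pi.zero_apply, Nat.cast_nonneg]⟩
  · intro g hg y hy
    obtain ⟨x, z, ⟨hx, hxR⟩, hz, rfl⟩ := Geo4_mem.1 hg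
    set w : Fin k → ℤ := z + Multiplicative.toAdd (θ y) with hw
    set D' : G := σ z * y * (σ w)⁻¹ with hD'
    have hDker : D' ∈ θ.ker := by
      rw [MonoidHom.mem_ker, hD', map_mul, map_mul, map_inv, hθσ, hθσ, hw]
      rw [ofAdd_add, ofAdd_toAdd]
      group
    have hDlen : len A D' ≤ R0 := by
      have h1 := hσA z y
      have h2 : (len A D' : ℝ) ≤ Real.exp (Cs * (1 + k * r + r)) := by
        refine h1.trans (Real.exp_le_exp.2 (mul_le_mul_of_nonneg_left ?_ hCs))
        have h3 := Geo4_box_sum hz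
        have h4 : (len T y : ℝ) ≤ r := by exact_mod_cast hy
        linarith only [h4, h3]
      have h5 : (len A D' : ℝ) ≤ R0 := h2.trans (Nat.le_ceil _)
      exact_mod_cast h5
    refine Geo4_mem.2 ⟨x * D', w, ⟨θ.ker.mul_mem hx hDker, ?_⟩, ?_, ?_⟩
    · refine (Geo4_len_mul (by rw [h.genA]; exact hx) (by rw [h.genA]; exact hDker)).trans ?_
      omega
    · rw [Finset.mem_Icc] at hz ⊢
      have h6 : ∀ i, |(Multiplicative.toAdd (θ y)) i| ≤ ((b * r : ℕ) : ℤ) := by
        intro i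
        have h7 := hlip 1 y i
        rw [one_mul, geo1_co_one, sub_zero] at h7
        have h8 : |co θ y i| ≤ b * r := by
          refine h7.trans ?_
          have h4 : (len T y : ℝ) ≤ r := by exact_mod_cast hy
          exact mul_le_mul hbC h4 (Nat.cast_nonneg _) (Nat.cast_nonneg _)
        unfold co at h8
        exact_mod_cast h8
      constructor
      · intro i
        have h9 := (abs_le.1 (h6 i)).1
        have h10 := hz.1 i
        show -(((1 + b) * r : ℕ) : ℤ) ≤ z i + (Multiplicative.toAdd (θ y)) i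
        push_cast at h9 h10 ⊢
        linarith only [h9, h10]
      · intro i
        have h9 := (abs_le.1 (h6 i)).2
        have h10 := hz.2 i
        show z i + (Multiplicative.toAdd (θ y)) i ≤ (((1 + b) * r : ℕ) : ℤ)
        push_cast at h9 h10 ⊢
        linarith only [h9, h10]
    · rw [hD']
      group
  · have hpt : ∀ g ∈ Geo4_set hfin σ (2 * R) ((1 + b) * r), (len T g : ℝ) ≤ K * (r + 1) := by
      intro g hg
      obtain ⟨x, z, ⟨hx, hxR⟩, hz, rfl⟩ := Geo4_mem.1 hg
      have h1 : (len T (x * σ z) : ℝ) ≤ len T x + len T (σ z) := by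
        exact_mod_cast len_mul_le h.genT x (σ z)
      have h2 : (len T (σ z) : ℝ) ≤ Cs * (k * ((1 + b) * r)) := by
        refine (hσT z).trans (mul_le_mul_of_nonneg_left ?_ hCs)
        have := Geo4_box_sum hz
        push_cast at this
        exact this
      have hRle : R ≤ 2 ^ ((M + 1) * (r + 1)) := by
        calc R ≤ 2 ^ r * 2 ^ (M * (r + 1)) :=
              Nat.mul_le_mul (Nat.pow_le_pow_right (by norm_num) hj) hR0M
          _ = 2 ^ (r + M * (r + 1)) := by rw [pow_add]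
          _ ≤ 2 ^ ((M + 1) * (r + 1)) := Nat.pow_le_pow_right (by norm_num) (by nlinarith only [])
      have h3 : Real.log (1 + len A x) ≤ (M + 3) * (r + 1) := by
        have h4 : 1 + len A x ≤ 2 ^ ((M + 3) * (r + 1)) := by
          have h5 : 1 ≤ 2 ^ ((M + 1) * (r + 1)) := Nat.one_le_two_pow
          have h6 : 1 + len A x ≤ 2 ^ 2 * 2 ^ ((M + 1) * (r + 1)) := by omega
          refine h6.trans ?_
          rw [← pow_add]
          exact Nat.pow_le_pow_right (by norm_num) (by nlinarith only [])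
        have h7 : (1 + len A x : ℝ) ≤ 2 ^ ((M + 3) * (r + 1)) := by exact_mod_cast h4
        have h8 := Real.log_le_log (by (clear * -; (clear * -; positivity))) h7
        rw [Real.log_pow] at h8
        refine h8.trans ?_
        have h9 : Real.log 2 ≤ 1 := by
          have := Real.log_two_lt_d9
          linarith only [this]
        have h10 : (0 : ℝ) ≤ ((M + 3) * (r + 1) : ℕ) := Nat.cast_nonneg _
        calc (((M + 3) * (r + 1) : ℕ) : ℝ) * Real.log 2
            ≤ (((M + 3) * (r + 1) : ℕ) : ℝ) * 1 := mul_le_mul_of_nonneg_left h9 h10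
          _ = (M + 3) * (r + 1) := by push_cast; ring
      have hlog0 : 0 ≤ Real.log (1 + (len A x : ℝ)) := Real.log_nonneg (by
        have : (0 : ℝ) ≤ len A x := Nat.cast_nonneg _
        linarith only [this])
      have h11 : (len T x : ℝ) ≤ max Cd 0 * (1 + (M + 3) * (r + 1)) := by
        refine (hCd x hx).trans ?_
        refine (mul_le_mul_of_nonneg_right (le_max_left Cd 0) (by linarith only [hlog0])).trans ?_
        exact mul_le_mul_of_nonneg_left (by linarith only [h3]) hD0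
      have e1 : max Cd 0 * (1 + (M + 3) * (r + 1)) ≤ max Cd 0 * (1 + (M + 3)) * (r + 1) := by
        rw [mul_assoc]
        refine mul_le_mul_of_nonneg_left ?_ hD0
        have : (0 : ℝ) ≤ r := Nat.cast_nonneg _
        linarith only []
      have e2 : Cs * (k * ((1 + b) * r)) ≤ Cs * (k * (1 + b)) * (r + 1) := by
        have e3 : (0 : ℝ) ≤ Cs * (k * (1 + b)) := by (clear * - hCs; positivity)
        linarith only [e3]
      rw [hK, add_mul]
      linarith only [e2, e1, h11, h2, h1]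
    intro g hg y hy
    have h1 : len T (g⁻¹ * y) ≤ len T g + len T y := by
      have := len_mul_le h.genT g⁻¹ y
      rwa [len_inv h.genT] at this
    have h2 : (len T (g⁻¹ * y) : ℝ) ≤ 2 * K * (r + 1) := by
      have h3 : (len T (g⁻¹ * y) : ℝ) ≤ len T g + len T y := by exact_mod_cast h1
      have h4 := hpt g hg
      have h5 := hpt y hy
      linarith only [h5, h4, h3]
    have h6 : (len T (g⁻¹ * y) : ℝ) ≤ ((⌈2 * K⌉₊ * (r + 1) : ℕ) : ℝ) := by
      refine h2.trans ?_
      push_cast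
      exact mul_le_mul_of_nonneg_right (Nat.le_ceil _) (by (clear * -; positivity))
    have h7 : len T (g⁻¹ * y) ≤ ⌈2 * K⌉₊ * (r + 1) := by exact_mod_cast h6
    exact h7.trans (Nat.mul_le_mul_right _ (Nat.le_add_right _ _))
  · rw [Geo4_card_eq hσθ, Geo4_card_eq hσθ]
    have h1 : (2 * ((1 + b) * r) + 1) ^ k ≤ (1 + b) ^ k * (2 * r + 1) ^ k := by
      rw [← mul_pow]
      exact Nat.pow_le_pow_left (by nlinarith only []) k
    calc {x : G | x ∈ θ.ker ∧ len A x ≤ 2 * R}.ncard * (2 * ((1 + b) * r) + 1) ^ k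
        ≤ (Q * {x : G | x ∈ θ.ker ∧ len A x ≤ R}.ncard) * ((1 + b) ^ k * (2 * r + 1) ^ k) :=
          Nat.mul_le_mul hjQ h1
      _ = Q * (1 + b) ^ k * ({x : G | x ∈ θ.ker ∧ len A x ≤ R}.ncard * (2 * r + 1) ^ k) := by
          ring
      _ ≤ _ := Nat.mul_le_mul_right _ (Nat.le_add_left _ _)

end Geo

end Vale.Agent.P188.SG
end
end
end

section

section

section

/-! P188, Theorem S+, P8: finite-dimensional subspaces. -/

universe u v w

open Filter Topology Pointwise

namespace Vale.Agent.P188.SG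

/-- a subspace without `k+1` orthonormal vectors is finite-dimensional of dimension at most `k` -/
theorem finrank_le_of_no_orthonormal {V : Type v} [NormedAddCommGroup V]
    [InnerProductSpace ℝ V] (B : Submodule ℝ V) (k : ℕ)
    (h : ∀ e : Fin (k + 1) → V, Orthonormal ℝ e → (∀ i, e i ∈ B) → False) :
    FiniteDimensional ℝ B ∧ Module.finrank ℝ B ≤ k := by
  by_cases hr : ((k + 1 : ℕ) : Cardinal) ≤ Module.rank ℝ B
  · exfalso
    obtain ⟨f, hf⟩ := Module.le_rank_iff.1 hr
    have he := InnerProductSpace.gramSchmidtNormed_orthonormal (𝕜 := ℝ) hf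
    refine h (fun i => ((InnerProductSpace.gramSchmidtNormed ℝ f i : B) : V)) ?_
      (fun i => Subtype.property _)
    exact he.comp_linearIsometry B.subtypeₗᵢ
  · have h1 : Module.rank ℝ B < Cardinal.aleph0 :=
      (not_le.1 hr).trans (Cardinal.natCast_lt_aleph0 )
    have h2 : FiniteDimensional ℝ B := Module.rank_lt_aleph0_iff.1 h1
    refine ⟨h2, ?_⟩
    have h3 := not_le.1 hr
    rw [← Module.finrank_eq_rank] at h3
    have h4 : Module.finrank ℝ B < k + 1 := by exact_mod_cast h3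
    omega

end Vale.Agent.P188.SG
end
end
end

section

section

section

/-!
P188, Theorem S+: translations of the extension seen in the quasi-isometric group.
-/

universe u v w

open Filter Topology

namespace Vale.Agent.P188.SG

/-- translations of `G` seen in `H` -/
theorem exists_trans {H : Type u} [Group H] {S : Finset H} {G : Type v} [Group G] {k : ℕ}
    {θ : G →* Multiplicative (Fin k → ℤ)} {A T : Finset G}
    (h : ExpExt θ A T) (hS : Subgroup.closure (S : Set H) = ⊤)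
    (K C : ℝ) (hK : 1 ≤ K) (hC : 0 ≤ C) (F : H → G)
    (hq : IsQuasiIsometry (wordDist (S : Set H)) (wordDist (T : Set G)) K C F) :
    ∃ (R : Finset H) (M : ℕ) (C₀ : ℝ), 0 ≤ C₀ ∧ ∀ (i : Fin k) (n : ℕ), ∃ τ : ℕ → H → H,
      (∀ y, τ 0 y = y) ∧ (∀ j y, (τ j y)⁻¹ * τ (j + 1) y ∈ R) ∧
      (∀ j x, {y | τ j y = x}.Finite ∧ {y | τ j y = x}.ncard ≤ M) ∧
      ∀ y l, |co θ (F (τ n y)) l - co θ (F y) l - (if l = i then (n : ℝ) else 0)| ≤ C₀ := by
  classical
  obtain ⟨Lip, hLip0, hLip⟩ := co_lip h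
  have hT := h.genT
  have hK0 : (0 : ℝ) < K := lt_of_lt_of_le one_pos hK
  have hlow : ∀ x x' : H, (len S (x⁻¹ * x') : ℝ) ≤ K * (len T ((F x)⁻¹ * F x') + C) := by
    intro x x'
    have h1 := (hq.1 x x').1
    rw [wordDist_eq_len, wordDist_eq_len] at h1
    have h2 : K * (K⁻¹ * (len S (x⁻¹ * x') : ℝ)) ≤ K * (len T ((F x)⁻¹ * F x') + C) :=
      mul_le_mul_of_nonneg_left (by linarith only [h1]) hK0.le
    rwa [← mul_assoc, mul_inv_cancel₀ hK0.ne', one_mul] at h2
  have hsur : ∀ g : G, ∃ x : H, (len T (g⁻¹ * F x) : ℝ) ≤ C := by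
    intro g
    obtain ⟨x, hx⟩ := hq.2 g
    rw [wordDist_eq_len] at hx
    exact ⟨x, hx⟩
  choose Ψ hΨ using hsur
  have ht : ∀ i : Fin k, ∃ t : G, θ t = Multiplicative.ofAdd (Pi.single i 1) := fun i => h.surj _
  choose t ht using ht
  let L : ℕ := ∑ i, len T (t i)
  have hL : ∀ i, len T (t i) ≤ L := fun i =>
    Finset.single_le_sum (f := fun i => len T (t i)) (fun _ _ => Nat.zero_le _) (Finset.mem_univ i)
  let r : ℕ := ⌈K * (3 * C + L)⌉₊
  let rS : ℕ := ⌈K * C⌉₊
  let rT : ℕ := ⌈C⌉₊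
  let BR : Finset H := (ncard_ball_le hS r).1.toFinset
  let BS : Finset H := (ncard_ball_le hS rS).1.toFinset
  let BT : Finset G := (ncard_ball_le hT rT).1.toFinset
  refine ⟨BR, BT.card * BS.card, Lip * C, mul_nonneg hLip0 hC, fun i n => ?_⟩
  let τ : ℕ → H → H := fun j y => if j = 0 then y else Ψ (F y * (t i) ^ j)
  have key : ∀ j y, (len T ((F y * (t i) ^ j)⁻¹ * F (τ j y)) : ℝ) ≤ C := by
    intro j y
    by_cases hj : j = 0
    · subst hj
      have : τ 0 y = y := if_pos rfl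
      rw [this, pow_zero, mul_one, inv_mul_cancel, len_one]
      simpa only [CharP.cast_eq_zero, ge_iff_le] using hC
    · have : τ j y = Ψ (F y * (t i) ^ j) := if_neg hj
      rw [this]
      exact hΨ _
  refine ⟨τ, fun y => if_pos rfl, fun j y => ?_, fun j x => ?_, fun y l => ?_⟩
  · -- steps
    rw [Set.Finite.mem_toFinset]
    show len S ((τ j y)⁻¹ * τ (j + 1) y) ≤ r
    have h1 : (F (τ j y))⁻¹ * F (τ (j + 1) y) =
        ((F y * (t i) ^ j)⁻¹ * F (τ j y))⁻¹ * (t i) *
          ((F y * (t i) ^ (j + 1))⁻¹ * F (τ (j + 1) y)) := by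
      rw [pow_succ]
      group
    have h2 : len T ((F (τ j y))⁻¹ * F (τ (j + 1) y)) ≤
        len T ((F y * (t i) ^ j)⁻¹ * F (τ j y)) + len T (t i) +
          len T ((F y * (t i) ^ (j + 1))⁻¹ * F (τ (j + 1) y)) := by
      rw [h1]
      refine (len_mul_le hT _ _).trans ?_
      refine Nat.add_le_add_right ?_ _
      refine (len_mul_le hT _ _).trans ?_
      rw [len_inv hT]
    have h3 : (len T ((F (τ j y))⁻¹ * F (τ (j + 1) y)) : ℝ) ≤ 2 * C + L := by
      have a1 := key j y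
      have a2 := key (j + 1) y
      have a3 : (len T (t i) : ℝ) ≤ L := by exact_mod_cast hL i
      have a4 : (len T ((F (τ j y))⁻¹ * F (τ (j + 1) y)) : ℝ) ≤
          len T ((F y * (t i) ^ j)⁻¹ * F (τ j y)) + len T (t i) +
          len T ((F y * (t i) ^ (j + 1))⁻¹ * F (τ (j + 1) y)) := by exact_mod_cast h2
      linarith only [a4, a3, a2, a1]
    have h4 : (len S ((τ j y)⁻¹ * τ (j + 1) y) : ℝ) ≤ r := by
      refine (hlow _ _).trans (le_trans ?_ (Nat.le_ceil _))
      exact mul_le_mul_of_nonneg_left (by linarith only [h3]) hK0.le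
    exact_mod_cast h4
  · -- fibres
    let Z : Finset H := (BT ×ˢ BS).image fun p =>
      Function.invFun F (F x * p.1⁻¹ * ((t i) ^ j)⁻¹) * p.2
    have hZ : {y | τ j y = x} ⊆ (Z : Set H) := by
      intro y hy
      have hy : τ j y = x := hy
      have hk := key j y
      rw [hy] at hk
      have e1 : F x * ((F y * (t i) ^ j)⁻¹ * F x)⁻¹ * ((t i) ^ j)⁻¹ = F y := by group
      have e2 : F (Function.invFun F (F y)) = F y := Function.invFun_eq ⟨y, rfl⟩
      refine Finset.mem_coe.mpr (Finset.mem_image.mpr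
        ⟨((F y * (t i) ^ j)⁻¹ * F x, (Function.invFun F (F y))⁻¹ * y), ?_, ?_⟩)
      · refine Finset.mem_product.mpr ⟨?_, ?_⟩
        · rw [Set.Finite.mem_toFinset]
          show len T ((F y * (t i) ^ j)⁻¹ * F x) ≤ rT
          have : (len T ((F y * (t i) ^ j)⁻¹ * F x) : ℝ) ≤ rT := hk.trans (Nat.le_ceil _)
          exact_mod_cast this
        · rw [Set.Finite.mem_toFinset]
          show len S ((Function.invFun F (F y))⁻¹ * y) ≤ rS
          have h5 := hlow (Function.invFun F (F y)) y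
          rw [e2, inv_mul_cancel, len_one] at h5
          have h6 : (len S ((Function.invFun F (F y))⁻¹ * y) : ℝ) ≤ rS := by
            refine h5.trans (le_trans (le_of_eq ?_) (Nat.le_ceil _))
            push_cast
            ring
          exact_mod_cast h6
      · show Function.invFun F (F x * ((F y * (t i) ^ j)⁻¹ * F x)⁻¹ * ((t i) ^ j)⁻¹) *
          ((Function.invFun F (F y))⁻¹ * y) = y
        rw [e1, mul_inv_cancel_left]
    refine ⟨(Finset.finite_toSet Z).subset hZ, ?_⟩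
    calc {y | τ j y = x}.ncard ≤ ((Z : Finset H) : Set H).ncard :=
          Set.ncard_le_ncard hZ (Finset.finite_toSet _)
      _ = Z.card := Set.ncard_coe_finset _
      _ ≤ (BT ×ˢ BS).card := Finset.card_image_le
      _ = BT.card * BS.card := Finset.card_product _ _
  · -- coordinates
    have e1 : co θ (F y * (t i) ^ n) l = co θ (F y) l + (if l = i then (n : ℝ) else 0) := by
      rw [geo1_co_mul]
      congr 1
      unfold co
      rw [map_pow, ht, ← ofAdd_nsmul, toAdd_ofAdd]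
      by_cases hl : l = i
      · subst hl
        simp
      · rw [if_neg hl]
        simp [Pi.single_eq_of_ne hl]
    have e2 := hLip (F y * (t i) ^ n) ((F y * (t i) ^ n)⁻¹ * F (τ n y)) l
    rw [mul_inv_cancel_left, e1] at e2
    have e3 : co θ (F (τ n y)) l - co θ (F y) l - (if l = i then (n : ℝ) else 0) =
        co θ (F (τ n y)) l - (co θ (F y) l + (if l = i then (n : ℝ) else 0)) := by ring
    rw [e3]
    exact e2.trans (mul_le_mul_of_nonneg_left (key n y) hLip0)

end Vale.Agent.P188.SG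
end
end
end

section

section

section

/-!
P188, Theorem S+: a group quasi-isometric to an exponentially distorted extension of `ℤ^k` acts
on `ℝ^k` by isometries, with cobounded orbits, and every finitely generated subgroup of the
kernel of the action has growth at most `exp (C m ^ α)` for every `α > 0`.
-/

universe u v w

open Filter Topology Pointwise

namespace Vale.Agent.P188.SG

theorem mainK {H : Type u} [Group H] {G : Type v} [Group G] {k : ℕ}
    {θ : G →* Multiplicative (Fin k → ℤ)} {A T : Finset G} (h : ExpExt θ A T)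
    (hq : QuasiIsometric H G) :
    ∃ (S : Finset H), Subgroup.closure (S : Set H) = ⊤ ∧
      ∃ (ρ : H →* (EuclideanSpace ℝ (Fin k) ≃ᵢ EuclideanSpace ℝ (Fin k))),
      (∃ D : ℝ, ∀ w, ∃ g, dist (ρ g 0) w ≤ D) ∧
      ∀ B : Set H, B.Finite → B ⊆ ρ.ker → ∀ α : ℝ, 0 < α → ∃ C : ℝ, ∀ m : ℕ,
        (∀ x ∈ B ^ m, (len S x : ℝ) ≤ C * (m : ℝ) ^ α) ∧
        ((B ^ m).ncard : ℝ) ≤ Real.exp (C * (m : ℝ) ^ α) := by
  obtain ⟨S₀, T', hS₀, hT', K, C, hK, hC, F, hF₀⟩ := hq
  obtain ⟨S, hS, hSS⟩ := exists_symGen S₀ hS₀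
  have hF : IsQuasiIsometry (wordDist (S : Set H)) (wordDist (T' : Set G)) K C F := by
    rw [hSS]; exact hF₀
  have hE := h.change hT'
  have hfol : Folner S := folner_of_qi hS.gen hT' (folner_expExt hE) K C hK hC F hF
  have hcau := cautious_of_folner hS hfol
  obtain ⟨μ, hμ, hinv⟩ := hasMean_of_folner hS hfol
  obtain ⟨Lc, hLc, hLip⟩ := co_lip hE
  obtain ⟨C₁, hC₁, hexc⟩ := excursion_len hE hS.gen K C hK hC F hF
  have hLip' : ∀ (y g : H) (i : Fin k),
      |co θ (F (y * g)) i - co θ (F y) i| ≤ Lc * (K * len S g + C) := by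
    intro y g i
    have h1 := hLip (F y) ((F y)⁻¹ * F (y * g)) i
    rw [mul_inv_cancel_left] at h1
    refine h1.trans (mul_le_mul_of_nonneg_left ?_ hLc)
    have h2 := (hF.1 y (y * g)).2
    rw [wordDist_eq_len, wordDist_eq_len, inv_mul_cancel_left] at h2
    exact h2
  have hlen0 : ∀ g : H, len S g = 0 → g = 1 := by
    intro g hg
    obtain ⟨p, hp0, hp1, -⟩ := exists_path hS.gen g
    rw [hg] at hp1
    rw [← hp1, hp0]
  have hLipS : ∀ (y g : H) (i : Fin k),
      |co θ (F (y * g)) i - co θ (F y) i| ≤ Lc * (K + C) * len S g := by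
    intro y g i
    rcases Nat.eq_zero_or_pos (len S g) with h0 | h0
    · rw [hlen0 g h0, mul_one, sub_self, abs_zero]
      (clear * - hLc hK hC; (clear * - hLc hK hC; positivity))
    · refine (hLip' y g i).trans ?_
      rw [mul_assoc]
      refine mul_le_mul_of_nonneg_left ?_ hLc
      have : (1 : ℝ) ≤ len S g := by exact_mod_cast h0
      linarith only [mul_nonneg (sub_nonneg.2 hC) (sub_nonneg.2 this)]
  have hf : ∀ (h : H) (i : Fin k), Bdd (fun y => co θ (F (y * h)) i - co θ (F y) i) :=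
    fun g i => ⟨_, fun y => hLip' y g i⟩
  obtain ⟨V, _, _, _, π, b, ι, hb, hbι, hadd, hsmul, hnorm, hdense, hπι⟩ :=
    exists_rep'' μ hμ hinv (fun y => co θ (F y)) hf
  obtain ⟨c, z, hc, hz, hbcz, hharm, hzs, hzs'⟩ := harmonic_decomp' hS π b hb
  have hfd := harmonic_mem_fdSpan hS hcau π c hc hharm
  obtain ⟨B, hB⟩ := exists_relSpace (S := S) hS π c hc
  have hdens := dense_rel hS π c hc hharm hfd B hB
  obtain ⟨hBf, hBk⟩ := finrank_le_of_no_orthonormal B k (fun e he heB =>
    no_indep hS μ hμ hinv (fun y => co θ (F y)) (Lc * (K + C)) hLipS C₁ hC₁ hexc π b c z ι hbι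
      hadd hsmul hnorm hdense hc hbcz hzs e he (fun i => (hB _).1 (heB i)))
  have hcB' : ∀ g, c g ∈ B := fun g => by
    have := hdens g
    rwa [(Submodule.closed_of_finiteDimensional B).submodule_topologicalClosure_eq] at this
  have hWB : Submodule.span ℝ (Set.range c) ≤ B :=
    Submodule.span_le.2 (by rintro _ ⟨g, rfl⟩; exact hcB' g)
  have hWf : FiniteDimensional ℝ (Submodule.span ℝ (Set.range c)) :=
    Submodule.finiteDimensional_of_le hWB
  have hWk : Module.finrank ℝ (Submodule.span ℝ (Set.range c)) ≤ k :=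
    (Submodule.finrank_mono hWB).trans hBk
  obtain ⟨R, M, C₀, hC₀, htr⟩ := exists_trans hE hS.gen K C hK hC F hF
  have hge := rank_ge hS μ hμ hinv (fun y => co θ (F y)) (Lc * (K + C)) hLipS R M C₀ hC₀ htr
    π b c z ι hbι hadd hsmul hnorm hdense hπι hc hbcz hzs' (Submodule.span ℝ (Set.range c)) hWf
    (inv_span π c hc) (fun g => Submodule.subset_span ⟨g, rfl⟩)
  obtain ⟨ρ, hρ, hcob⟩ := exists_isom_cob' hS π c hc hharm k hWf (le_antisymm hWk hge)
  refine ⟨S, hS.gen, ρ, hcob, fun B hB hBρ α hα => ?_⟩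
  obtain ⟨ε, hε, hker⟩ := kernel_len hE hS.gen K C hK hC F hF μ hμ hinv α hα
  obtain ⟨C', hzC'⟩ := hzs ε hε
  have hN : ∀ x ∈ ρ.ker, μ (fun y => ∑ i, (co θ (F (y * x)) i - co θ (F y) i) ^ 2) ≤
      (ε * len S x + max C' 0) ^ 2 := by
    intro x hx
    have h1 := hzC' x
    have h0 : ‖b x‖ ≤ ε * len S x + max C' 0 := by
      rw [hbcz x, hρ x hx, zero_add]
      exact h1.trans (by
        have := le_max_left C' 0
        linarith only [this])
    rw [← hnorm _ (fun i => hf x i), ← hbι x]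
    exact pow_le_pow_left₀ (norm_nonneg _) h0 2
  obtain ⟨D, hD⟩ := hker ρ.ker (max C' 0) hN B hB hBρ
  have hD0 : ∀ m : ℕ, ∀ x ∈ B ^ m, (len S x : ℝ) ≤ |D| * (m : ℝ) ^ α := fun m x hx =>
    (hD m x hx).trans (mul_le_mul_of_nonneg_right (le_abs_self D) (by (clear * -; (clear * -; positivity))))
  set q : ℝ := Real.log (2 * S.card + 1) with hq
  have hq0 : 0 ≤ q := Real.log_nonneg (by
    have : (0 : ℝ) ≤ S.card := Nat.cast_nonneg _
    linarith only [this])
  refine ⟨|D| * (1 + q), fun m => ⟨fun x hx => ?_, ?_⟩⟩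
  · refine (hD0 m x hx).trans ?_
    have h1 : (0 : ℝ) ≤ (m : ℝ) ^ α := by (clear * -; positivity)
    have h2 : |D| ≤ |D| * (1 + q) := by linarith only [mul_nonneg (sub_nonneg.2 hq0) (sub_nonneg.2 (abs_nonneg D))]
    exact mul_le_mul_of_nonneg_right h2 h1
  · set R : ℕ := ⌊|D| * (m : ℝ) ^ α⌋₊ with hR
    have hRle : (R : ℝ) ≤ |D| * (m : ℝ) ^ α := Nat.floor_le (by (clear * -; positivity))
    have hsub : B ^ m ⊆ {x : H | len S x ≤ R} := by
      intro x hx
      exact Nat.le_floor (hD0 m x hx)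
    obtain ⟨hfin, hcard⟩ := ncard_ball_le hS.gen R
    have h1 : ((B ^ m).ncard : ℝ) ≤ ((2 * S.card + 1 : ℕ) : ℝ) ^ R := by
      have := (Set.ncard_le_ncard hsub hfin).trans hcard
      exact_mod_cast this
    refine h1.trans ?_
    have h2 : ((2 * S.card + 1 : ℕ) : ℝ) ^ R = Real.exp (q * R) := by
      rw [mul_comm q, Real.exp_nat_mul, hq, Real.exp_log (by (clear * -; (clear * -; positivity)))]
      push_cast
      ring
    rw [h2]
    apply Real.exp_le_exp.mpr
    have h3 : q * R ≤ q * (|D| * (m : ℝ) ^ α) := mul_le_mul_of_nonneg_left hRle hq0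
    have h4 : (0 : ℝ) ≤ |D| * (m : ℝ) ^ α := by (clear * -; (clear * -; positivity))
    calc q * R ≤ q * (|D| * (m : ℝ) ^ α) := h3
      _ ≤ |D| * (1 + q) * (m : ℝ) ^ α := by linarith only [h4]

end Vale.Agent.P188.SG
end
end
end

section

end

section

end

section

end

section

end

section

end

section

end

section

/-! P188: extensions of `ℤ^k` by `ℤ^d` with a hyperbolic element. -/

universe u v w

open Filter Topology Pointwise

namespace Vale.Agent.P188.SG

theorem PCS_comap_surj {G : Type u} [Group G] {G' : Type v} [Group G'] (f : G' →* G)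
    (hf : Function.Surjective f)
    (hker : PCS f.ker) {M : Subgroup G} (h : PCS M) : PCS (M.comap f) := by
  induction h with
  | bot => rw [MonoidHom.comap_bot]; exact hker
  | @step N M t _ hs ih =>
    obtain ⟨s, rfl⟩ := hf t
    refine .step ih (t := s) ⟨Subgroup.comap_mono hs.le, hs.mem, ?_, ?_, ?_⟩
    · intro n hn
      have := hs.conj (f n) hn
      simpa only [Subgroup.mem_comap, map_mul, map_inv] using this
    · intro n hn
      have := hs.conj' (f n) hn
      simpa only [Subgroup.mem_comap, map_mul, map_inv] using this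
    · intro g hg
      obtain ⟨k, hk⟩ := hs.dec (f g) hg
      exact ⟨k, by simpa using hk⟩

theorem expExt_extension {d k : ℕ} {G : Type u} [Group G]
    (ι : Multiplicative (Fin d → ℤ) →* G) (θ : G →* Multiplicative (Fin k → ℤ)) (g₀ : G)
    (M : Matrix (Fin d) (Fin d) ℤ) (hinj : Function.Injective ι) (hθ : Function.Surjective θ)
    (hker : ι.range = θ.ker)
    (hM : ∀ v : Fin d → ℤ, g₀ * ι (Multiplicative.ofAdd v) * g₀⁻¹ =
      ι (Multiplicative.ofAdd (M.mulVec v)))
    (hyp : ∀ μ : ℂ, (M.map (Int.castRingHom ℂ)).charpoly.IsRoot μ → ‖μ‖ ≠ 1) :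
    ∃ A T : Finset G, ExpExt θ A T := by
  classical
  choose σ hσ using hθ
  let eA : Fin d → G := fun i => ι (Multiplicative.ofAdd (Pi.single i (1 : ℤ)))
  let eT : Fin k → G := fun i => σ (Multiplicative.ofAdd (Pi.single i (1 : ℤ)))
  let A : Finset G := Finset.univ.image eA
  let T : Finset G := A ∪ Finset.univ.image eT
  have hAset : (A : Set G) = ι ''
      Set.range fun i : Fin d => (Multiplicative.ofAdd (Pi.single i (1 : ℤ) : Fin d → ℤ)) := by
    rw [Finset.coe_image, Finset.coe_univ, Set.image_univ, ← Set.range_comp]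
    rfl
  have hclA : Subgroup.closure (A : Set G) = ι.range := by
    rw [hAset, ← MonoidHom.map_closure, semi_closure_single, ← MonoidHom.range_eq_map]
  have hclT : Subgroup.closure (T : Set G) = ⊤ := by
    have h0 : θ.ker ≤ Subgroup.closure (T : Set G) := by
      rw [← hker, ← hclA]
      refine Subgroup.closure_mono ?_
      intro x hx
      exact Finset.mem_coe.mpr (Finset.mem_union_left _ hx)
    have h1 : (Subgroup.closure (T : Set G)).map θ = ⊤ := by
      rw [eq_top_iff, ← semi_closure_single k, Subgroup.closure_le]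
      rintro _ ⟨i, rfl⟩
      refine ⟨eT i, Subgroup.subset_closure (Finset.mem_coe.mpr (Finset.mem_union_right _
        (Finset.mem_image.mpr ⟨i, Finset.mem_univ _, rfl⟩))), hσ _⟩
    rw [eq_top_iff]
    intro g _
    have h2 : θ g ∈ (Subgroup.closure (T : Set G)).map θ := by rw [h1]; exact Subgroup.mem_top _
    obtain ⟨x, hx, hxg⟩ := h2
    have h3 : x⁻¹ * g ∈ θ.ker := by rw [MonoidHom.mem_ker, map_mul, map_inv, hxg, inv_mul_cancel]
    have h4 := Subgroup.mul_mem _ hx (h0 h3)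
    rwa [mul_inv_cancel_left] at h4
  -- lengths in the kernel
  have hlenA : ∀ x : G, x ∈ θ.ker →
      ∃ v : Fin d → ℤ, x = ι (Multiplicative.ofAdd v) ∧
        ∀ i, |v i| ≤ len A x := by
    intro x hx
    rw [← hker, ← hclA] at hx
    have hx' : x ∈ (Subgroup.closure (A : Set G)).toSubmonoid := hx
    rw [Subgroup.closure_toSubmonoid] at hx'
    obtain ⟨l, hl1, hl2⟩ := Submonoid.exists_list_of_mem_closure hx'
    have h1 : {n : ℕ | ∃ l : List G, l.length = n ∧ (∀ a ∈ l, a ∈ (A : Set G) ∨ a⁻¹ ∈ (A : Set G)) ∧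
        l.prod = (1 : G)⁻¹ * x}.Nonempty :=
      ⟨l.length, l, rfl, fun a ha => hl1 a ha, by rw [inv_one, one_mul, hl2]⟩
    obtain ⟨l', h2, h3, h4⟩ := Nat.sInf_mem h1
    obtain ⟨v, h5, h6⟩ := semi_list_bound
      ι l' (by
        intro a ha
        rcases h3 a ha with h | h
        · left
          obtain ⟨i, -, hi⟩ := Finset.mem_image.mp (Finset.mem_coe.mp h)
          exact ⟨i, hi.symm⟩
        · right
          obtain ⟨i, -, hi⟩ := Finset.mem_image.mp (Finset.mem_coe.mp h)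
          exact ⟨i, hi.symm⟩)
    refine ⟨v, ?_, fun i => ?_⟩
    · rw [← h5, h4, inv_one, one_mul]
    · have h7 : (l'.length : ℤ) = len A x := by
        rw [h2]; rfl
      rw [← h7]
      exact h6 i
  refine ⟨A, T, ⟨(fun x => ⟨σ x, hσ x⟩), hclA.trans hker, hclT, ⟨2 ^ d, d, ?_⟩, ?_⟩⟩
  · intro n
    have h1 : {x : G | x ∈ θ.ker ∧
        len A x ≤ n} ⊆ (((Fintype.piFinset fun _ : Fin d => Finset.Icc (-(n : ℤ)) n).image
          fun v => ι (Multiplicative.ofAdd v) : Finset G) : Set G) := by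
      rintro x ⟨hx1, hx2⟩
      obtain ⟨v, hv1, hv2⟩ := hlenA x hx1
      rw [Finset.mem_coe, Finset.mem_image]
      refine ⟨v, ?_, hv1.symm⟩
      rw [Fintype.mem_piFinset]
      intro i
      have h2 := abs_le.mp (hv2 i)
      have h3 : (len A x : ℤ) ≤ n := by exact_mod_cast hx2
      rw [Finset.mem_Icc]
      constructor <;> linarith only [hx2, h2]
    refine (Set.ncard_le_ncard h1 (Finset.finite_toSet _)).trans ?_
    rw [Set.ncard_coe_finset]
    refine Finset.card_image_le.trans ?_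
    rw [Fintype.card_piFinset_const, Int.card_Icc, ← mul_pow]
    refine Nat.pow_le_pow_left ?_ d
    (clear * -; omega)
  · -- distortion
    obtain ⟨N, hN, q, j, hq, hj⟩ := exists_dominant M hyp
    -- the inverse matrix
    have hψ0 : ∀ v : Fin d → ℤ, ∃ w : Fin d → ℤ, g₀⁻¹ * ι (Multiplicative.ofAdd v) * g₀ =
        ι (Multiplicative.ofAdd w) := by
      intro v
      have h1 : g₀⁻¹ * ι (Multiplicative.ofAdd v) * g₀ ∈ ι.range := by
        have h2 : ι (Multiplicative.ofAdd v) ∈ θ.ker := by rw [← hker]; exact ⟨_, rfl⟩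
        have h3 := (inferInstance : θ.ker.Normal).conj_mem _ h2 g₀⁻¹
        rw [inv_inv] at h3
        rw [hker]
        exact h3
      obtain ⟨w, hw⟩ := h1
      exact ⟨Multiplicative.toAdd w, hw.symm⟩
    choose ψ₀ hψ₀ using hψ0
    have hιinj : ∀ v w : Fin d → ℤ, ι (Multiplicative.ofAdd v) = ι (Multiplicative.ofAdd w) →
        v = w := fun v w h => Multiplicative.ofAdd.injective (hinj h)
    let ψ : (Fin d → ℤ) →+ (Fin d → ℤ) := AddMonoidHom.mk' ψ₀ (by
      intro v w
      apply hιinj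
      rw [← hψ₀, ofAdd_add, ofAdd_add, map_mul, map_mul, ← hψ₀, ← hψ₀]
      group)
    let M' : Matrix (Fin d) (Fin d) ℤ := LinearMap.toMatrix' ψ.toIntLinearMap
    have hM' : ∀ v : Fin d → ℤ, g₀⁻¹ * ι (Multiplicative.ofAdd v) * g₀ =
        ι (Multiplicative.ofAdd (M'.mulVec v)) := by
      intro v
      have : M'.mulVec v = ψ v := by
        change (LinearMap.toMatrix' ψ.toIntLinearMap).mulVec v = ψ v
        rw [LinearMap.toMatrix'_mulVec]
        rfl
      rw [this]
      exact hψ₀ v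
    have hMM' : M * M' = 1 := by
      apply Matrix.mulVec_injective
      funext v
      rw [← Matrix.mulVec_mulVec, Matrix.one_mulVec]
      apply hιinj
      rw [← hM, ← hM']
      group
    have hM'M : M' * M = 1 := by
      apply Matrix.mulVec_injective
      funext v
      rw [← Matrix.mulVec_mulVec, Matrix.one_mulVec]
      apply hιinj
      rw [← hM', ← hM]
      group
    have hcomm : Commute M M' := by rw [Commute, SemiconjBy, hMM', hM'M]
    have hP1 : M ^ N * M' ^ N = 1 := by rw [← hcomm.mul_pow, hMM', one_pow]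
    have hP2 : M' ^ N * M ^ N = 1 := by rw [← hcomm.symm.mul_pow, hM'M, one_pow]
    obtain ⟨C, hC⟩ := digits (M ^ N) (M' ^ N) hP1 hP2 q hq j hj
    have hpow : ∀ (n : ℕ) (v : Fin d → ℤ), g₀ ^ n * ι (Multiplicative.ofAdd v) =
        ι (Multiplicative.ofAdd ((M ^ n).mulVec v)) * g₀ ^ n := by
      intro n
      induction n with
      | zero => intro v; simp
      | succ n ih =>
        intro v
        have h1 := hM v
        rw [mul_inv_eq_iff_eq_mul] at h1
        rw [pow_succ g₀, mul_assoc, h1, ← mul_assoc, ih, Matrix.mulVec_mulVec, ← pow_succ,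
          mul_assoc]
    let t : G := g₀ ^ N
    have htpow : ∀ (l : ℕ) (v : Fin d → ℤ),
        t ^ l * ι (Multiplicative.ofAdd v) =
        ι (Multiplicative.ofAdd (((M ^ N) ^ l).mulVec v)) * t ^ l := by
      intro l v
      have h1 : t ^ l = g₀ ^ (N * l) := by
        change (g₀ ^ N) ^ l = _
        rw [← pow_mul]
      rw [h1, ← pow_mul]
      exact hpow _ v
    set τ := len T t with hτ
    have hTA : ∀ i, ι (Multiplicative.ofAdd
        (Pi.single i (1 : ℤ) : Fin d → ℤ)) ∈ T := fun i =>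
      Finset.mem_union_left _ (Finset.mem_image.mpr ⟨i, Finset.mem_univ _, rfl⟩)
    have hword : ∀ (c : ℕ → Fin d → ℤ), (∀ l i, |c l i| ≤ C) → ∀ K : ℕ,
        len T (ι (Multiplicative.ofAdd
          (∑ l ∈ Finset.range K, ((M ^ N) ^ l).mulVec (c l))) * t ^ K) ≤
          K * (d * C + τ) := by
      intro c hc K
      induction K with
      | zero =>
        rw [Finset.range_zero, Finset.sum_empty, ofAdd_zero, map_one, pow_zero, one_mul, len_one]
        exact Nat.zero_le _
      | succ K ih =>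
        have h1 : ι (Multiplicative.ofAdd
            (∑ l ∈ Finset.range (K + 1), ((M ^ N) ^ l).mulVec (c l))) * t ^ (K + 1) =
            (ι (Multiplicative.ofAdd
              (∑ l ∈ Finset.range K, ((M ^ N) ^ l).mulVec (c l))) * t ^ K) *
              (ι (Multiplicative.ofAdd (c K)) * t) := by
          rw [Finset.sum_range_succ, ofAdd_add, map_mul, pow_succ, mul_assoc, mul_assoc,
            ← mul_assoc _ (t ^ K) t, ← mul_assoc (t ^ K) _ t, htpow]
        rw [h1, Nat.add_mul, one_mul]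
        refine (len_mul_le hclT _ _).trans (Nat.add_le_add ih ?_)
        refine (len_mul_le hclT _ _).trans (Nat.add_le_add_right ?_ _)
        exact semi_len_vec hclT ι hTA C (c K) (hc K)
    refine ⟨2 * ((C + 1) * (4 * τ + 2 * (d * C)) : ℕ), fun x hx => ?_⟩
    obtain ⟨v, hv1, hv2⟩ := hlenA x hx
    set m := len A x with hm
    have hmn : (m : ℤ) ≤ 2 ^ (Nat.log 2 (m + 1) + 1) := by
      have h1 : m + 1 < 2 ^ (Nat.log 2 (m + 1) + 1) :=
        Nat.lt_pow_succ_log_self (by norm_num) _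
      have h2 : m ≤ 2 ^ (Nat.log 2 (m + 1) + 1) := by omega
      exact_mod_cast h2
    obtain ⟨L, c, hL, hc, hv⟩ := hC (Nat.log 2 (m + 1) + 1) v fun i => (hv2 i).trans hmn
    -- the word
    have hx2 : x = (t ^ L)⁻¹ * ((ι (Multiplicative.ofAdd
        (∑ l ∈ Finset.range (2 * L + 1), ((M ^ N) ^ l).mulVec (c l))) * t ^ (2 * L + 1)) *
        (t ^ (L + 1))⁻¹) := by
      have h1 := htpow L v
      have h2 : ((M ^ N) ^ L).mulVec v =
          ∑ l ∈ Finset.range (2 * L + 1), ((M ^ N) ^ l).mulVec (c l) := by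
        rw [hv, Matrix.mulVec_mulVec]
        have hc1 : Commute (M ^ N) (M' ^ N) := by rw [Commute, SemiconjBy, hP1, hP2]
        rw [← hc1.mul_pow, hP1, one_pow, Matrix.one_mulVec]
      rw [h2, ← hv1] at h1
      rw [eq_inv_mul_iff_mul_eq, h1, mul_assoc]
      congr 1
      rw [eq_mul_inv_iff_mul_eq, ← pow_add]
      congr 1
      omega
    have hlen : len T x ≤ (L + 1) * (4 * τ + 2 * (d * C)) := by
      rw [hx2]
      have h1 : len T (t ^ L)⁻¹ ≤ L * τ := by
        rw [len_inv hclT]; exact semi_len_pow hclT t L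
      have h2 : len T (t ^ (L + 1))⁻¹ ≤ (L + 1) * τ := by
        rw [len_inv hclT]; exact semi_len_pow hclT t (L + 1)
      have h3 := hword c hc (2 * L + 1)
      refine (len_mul_le hclT _ _).trans ((Nat.add_le_add h1 ((len_mul_le hclT _ _).trans
        (Nat.add_le_add h3 h2))).trans ?_)
      have : L * τ + ((2 * L + 1) * (d * C + τ) + (L + 1) * τ) ≤
          (L + 1) * (4 * τ + 2 * (d * C)) := by
        nlinarith only []
      exact this
    have hL1 : L + 1 ≤ (C + 1) * (Nat.log 2 (m + 1) + 2) := by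
      have : C * (Nat.log 2 (m + 1) + 1 + 1) = C * (Nat.log 2 (m + 1) + 2) := by ring
      rw [this] at hL
      nlinarith only [hL]
    have hlog : ((Nat.log 2 (m + 1) : ℕ) : ℝ) ≤ 2 * Real.log (1 + m) := by
      have h1 : (2 : ℝ) ^ (Nat.log 2 (m + 1)) ≤ 1 + m := by
        have := Nat.pow_log_le_self 2 (x := m + 1) (by omega)
        have h2 : ((2 ^ (Nat.log 2 (m + 1)) : ℕ) : ℝ) ≤ ((m + 1 : ℕ) : ℝ) := by exact_mod_cast this
        push_cast at h2
        linarith only [h2]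
      have h2 := Real.log_le_log (by positivity) h1
      rw [Real.log_pow] at h2
      have h3 : (1 / 2 : ℝ) ≤ Real.log 2 := by
        have := Real.log_two_gt_d9
        linarith only [this]
      have h4 : (0 : ℝ) ≤ (Nat.log 2 (m + 1) : ℕ) := Nat.cast_nonneg _
      linarith only [mul_nonneg (sub_nonneg.2 h3) (sub_nonneg.2 h4), mul_nonneg (mul_self_nonneg (1 : ℝ)) (sub_nonneg.2 h2)]
    have hm0 : (0 : ℝ) ≤ Real.log (1 + m) := Real.log_nonneg (by
      have : (0 : ℝ) ≤ m := Nat.cast_nonneg _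
      linarith only [])
    calc (len T x : ℝ) ≤ (((L + 1) * (4 * τ + 2 * (d * C)) : ℕ) : ℝ) := by exact_mod_cast hlen
      _ ≤ (((C + 1) * (Nat.log 2 (m + 1) + 2) * (4 * τ + 2 * (d * C)) : ℕ) : ℝ) := by
          exact_mod_cast Nat.mul_le_mul_right _ hL1
      _ = (((C + 1) * (4 * τ + 2 * (d * C)) : ℕ) : ℝ) * ((Nat.log 2 (m + 1) : ℕ) + 2) := by
          push_cast; ring
      _ ≤ (((C + 1) * (4 * τ + 2 * (d * C)) : ℕ) : ℝ) * (2 * (1 + Real.log (1 + m))) := by
          refine mul_le_mul_of_nonneg_left ?_ (Nat.cast_nonneg _)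
          linarith only [hlog]
      _ = 2 * (((C + 1) * (4 * τ + 2 * (d * C)) : ℕ) : ℝ) * (1 + Real.log (1 + m)) := by ring

theorem pcs_pi (d : ℕ) : PCS (⊤ : Subgroup (Multiplicative (Fin d → ℤ))) := by
  induction d with
  | zero =>
    have : (⊤ : Subgroup (Multiplicative (Fin 0 → ℤ))) = ⊥ := by
      rw [Subgroup.eq_bot_iff_forall]
      intro x _
      apply Multiplicative.toAdd.injective
      funext i
      exact i.elim0
    rw [this]
    exact .bot
  | succ d ih =>
    let f : Multiplicative (Fin (d + 1) → ℤ) →* Multiplicative (Fin d → ℤ) :=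
      AddMonoidHom.toMultiplicative
        { toFun := fun v i => v i.succ
          map_zero' := rfl
          map_add' := fun _ _ => rfl }
    have hf : Function.Surjective f := by
      intro x
      refine ⟨Multiplicative.ofAdd (Fin.cons 0 (Multiplicative.toAdd x)), ?_⟩
      apply Multiplicative.toAdd.injective
      funext i
      change (Fin.cons 0 (Multiplicative.toAdd x) : Fin (d + 1) → ℤ) i.succ = _
      rw [Fin.cons_succ]
    have hker : PCS f.ker := by
      refine .step .bot (t := Multiplicative.ofAdd (Pi.single 0 (1 : ℤ))) ⟨bot_le, ?_, ?_, ?_, ?_⟩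
      · rw [MonoidHom.mem_ker]
        apply Multiplicative.toAdd.injective
        funext i
        change (Pi.single 0 (1 : ℤ) : Fin (d + 1) → ℤ) i.succ = 0
        exact Pi.single_eq_of_ne (Fin.succ_ne_zero i) _
      · intro n hn
        rw [Subgroup.mem_bot] at hn ⊢
        rw [hn]; group
      · intro n hn
        rw [Subgroup.mem_bot] at hn ⊢
        rw [hn]; group
      · intro g hg
        refine ⟨Multiplicative.toAdd g 0, ?_⟩
        rw [Subgroup.mem_bot, inv_mul_eq_one]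
        apply Multiplicative.toAdd.injective
        rw [MonoidHom.mem_ker] at hg
        funext i
        rw [toAdd_zpow]
        refine Fin.cases ?_ (fun i => ?_) i
        · simp
        · have h1 : Multiplicative.toAdd g i.succ = 0 :=
            congrFun (congrArg Multiplicative.toAdd hg) i
          rw [h1]
          simp
    have := PCS_comap_surj f hf hker ih
    rwa [Subgroup.comap_top] at this

theorem isVirtuallyPolycyclic_extension {d k : ℕ} {G : Type u} [Group G]
    (ι : Multiplicative (Fin d → ℤ) →* G) (θ : G →* Multiplicative (Fin k → ℤ))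
    (hθ : Function.Surjective θ) (hker : ι.range = θ.ker) : IsVirtuallyPolycyclic G := by
  refine isVirtuallyPolycyclic_iff.2 ⟨⊤, inferInstance, ?_⟩
  have h1 := (pcs_pi d).map ι
  rw [← MonoidHom.range_eq_map, hker] at h1
  have h2 := PCS_comap_surj θ hθ h1 (pcs_pi k)
  rwa [Subgroup.comap_top] at h2

end Vale.Agent.P188.SG
end
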